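import Vale.Agent.P088.R2.H354.N.Sp

/-!
# The operators of a pair in real form
-/

open MeasureTheory Set
open scoped ContDiff Matrix Topology

noncomputable section

set_option linter.unusedSectionVars false

namespace Vale.Agent.P088.HY.TN

open Vale.Agent.P088.LR hiding fr
open Vale.Agent.P088.LR.U Vale.Agent.P088.LR.H158 G T3
open Vale.Agent.P088.PJ (KC SmK dxk dyk Lk Rk TP kp bL bR Zt Qt dgB)
open Vale.Agent.P088.S4 (pdv MoV nv StpN)
open Vale.Agent.P088.HY.T9 (fl fr cas sumL rM rM_ll rM_lr rM_rl rM_rr rM_mul rM_add rM_neg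
  rM_sub ext4 cV mk_eq contDiff_mk pd_mk contDiff_cV contDiff_rM)

variable {n N : ℕ}

theorem pd_rM {F : MC n N} {x : V n} (hF : ∀ a b, DifferentiableAt ℝ (fun y => F y a b) x)
    (i : Fin n) (p q : Fin (N + N)) : pd i (fun y => rM (F y) p q) x = rM (pdm i F x) p q :=
  fd_rM hF _ p q

section

variable {κ : Type} [Fintype κ] {O : Set (V n)}

/-- The first part of an operator in divergence form. -/
theorem dvf1 (hO : IsOpen O) {t : Fin n → Fin n → κ → V n → ℝ}
    (ht : ∀ i l q, ContDiff ℝ ∞ (t i l q)) {u : κ → V n → ℝ} (hu : ∀ q, ContDiffOn ℝ ∞ (u q) O)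
    {x : V n} (hx : x ∈ O) :
    ∑ i, pd i (fun y => ∑ l, ∑ q, t i l q y * pd l (u q) y) x =
      (∑ i, ∑ l, ∑ q, t i l q x * pd i (pd l (u q)) x) +
        ∑ l, ∑ q, (∑ i, pd i (t i l q) x) * pd l (u q) x := by
  have d1 : ∀ i l q, DifferentiableAt ℝ (t i l q) x := fun i l q =>
    (ht i l q).differentiable (by simp) x
  have d2 : ∀ l q, DifferentiableAt ℝ (pd l (u q)) x := fun l q =>
    dAt1 hO (contDiffOn_pd hO (hu q) l) hx
  have d3 : ∀ i l q, DifferentiableAt ℝ (fun y => t i l q y * pd l (u q) y) x := fun i l q =>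
    (d1 i l q).mul (d2 l q)
  have d4 : ∀ i l, DifferentiableAt ℝ (fun y => ∑ q, t i l q y * pd l (u q) y) x := fun i l =>
    DifferentiableAt.fun_sum fun q _ => d3 i l q
  have h : ∀ i, pd i (fun y => ∑ l, ∑ q, t i l q y * pd l (u q) y) x =
      ∑ l, ∑ q, (t i l q x * pd i (pd l (u q)) x + pd l (u q) x * pd i (t i l q) x) := by
    intro i
    rw [pd_sum1 (fun l => d4 i l) i]
    refine Finset.sum_congr rfl fun l _ => ?_
    rw [pd_sum1 (fun q => d3 i l q) i]
    exact Finset.sum_congr rfl fun q _ => T3.pd_mul (d1 i l q) (d2 l q) i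
  simp only [h, Finset.sum_add_distrib]
  congr 1
  rw [Finset.sum_comm]
  refine Finset.sum_congr rfl fun l _ => ?_
  rw [Finset.sum_comm]
  refine Finset.sum_congr rfl fun q _ => ?_
  rw [Finset.sum_mul]
  exact Finset.sum_congr rfl fun i _ => mul_comm _ _

/-- The second part of an operator in divergence form. -/
theorem dvf0 (hO : IsOpen O) {t : Fin n → κ → V n → ℝ}
    (ht : ∀ i q, ContDiff ℝ ∞ (t i q)) {u : κ → V n → ℝ} (hu : ∀ q, ContDiffOn ℝ ∞ (u q) O)
    {x : V n} (hx : x ∈ O) :
    ∑ i, pd i (fun y => ∑ q, t i q y * u q y) x =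
      (∑ i, ∑ q, t i q x * pd i (u q) x) + ∑ q, (∑ i, pd i (t i q) x) * u q x := by
  have d1 : ∀ i q, DifferentiableAt ℝ (t i q) x := fun i q =>
    (ht i q).differentiable (by simp) x
  have d2 : ∀ q, DifferentiableAt ℝ (u q) x := fun q => dAt1 hO (hu q) hx
  have d3 : ∀ i q, DifferentiableAt ℝ (fun y => t i q y * u q y) x := fun i q =>
    (d1 i q).mul (d2 q)
  have h : ∀ i, pd i (fun y => ∑ q, t i q y * u q y) x =
      ∑ q, (t i q x * pd i (u q) x + u q x * pd i (t i q) x) := by
    intro i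
    rw [pd_sum1 (fun q => d3 i q) i]
    exact Finset.sum_congr rfl fun q _ => T3.pd_mul (d1 i q) (d2 q) i
  simp only [h, Finset.sum_add_distrib]
  congr 1
  rw [Finset.sum_comm]
  refine Finset.sum_congr rfl fun q _ => ?_
  rw [Finset.sum_mul]
  exact Finset.sum_congr rfl fun i _ => mul_comm _ _

end

theorem pd_subf {f g : V n → ℝ} {x : V n} (hf : DifferentiableAt ℝ f x)
    (hg : DifferentiableAt ℝ g x) (i : Fin n) :
    pd i (fun x => f x - g x) x = pd i f x - pd i g x := by
  unfold pd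
  rw [fderiv_fun_sub hf hg]
  rfl

/-! ## The data of a pair -/

/-- The coefficients of a pair, smooth, with an invertible `P`. -/
structure Cf (s : MF n) (P : MC n N) (G : Fin n → MC n N) : Prop where
  ss : SmM s
  sy : ∀ x, (s x).IsSymm
  sP : SmC P
  sG : ∀ i, SmC (G i)
  un : ∀ x, IsUnit (P x).det

section

variable {s : MF n} {P : MC n N} {G : Fin n → MC n N}

theorem smC_smul {f : V n → ℝ} (hf : ContDiff ℝ ∞ f) {A : MC n N} (hA : SmC A) :
    SmC fun x => (f x : ℂ) • A x := fun a b =>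
  (Complex.ofRealCLM.contDiff.comp hf).mul (hA a b)

theorem smC_add {A B : MC n N} (hA : SmC A) (hB : SmC B) : SmC fun x => A x + B x := fun a b =>
  (hA a b).add (hB a b)

theorem smC_sub {A B : MC n N} (hA : SmC A) (hB : SmC B) : SmC fun x => A x - B x := fun a b =>
  (hA a b).sub (hB a b)

theorem smC_sum {I : Type*} {u : Finset I} {A : I → MC n N} (hA : ∀ i, SmC (A i)) :
    SmC fun x => ∑ i ∈ u, A i x := fun a b => by
  simp only [Matrix.sum_apply]
  exact ContDiff.sum fun i _ => hA i a b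

theorem smC_mul {A B : MC n N} (hA : SmC A) (hB : SmC B) : SmC fun x => A x * B x := fun a b => by
  simp only [Matrix.mul_apply]
  exact ContDiff.sum fun i _ => (hA a i).mul (hB i b)

theorem smC_pdm {A : MC n N} (hA : SmC A) (i : Fin n) : SmC (pdm i A) := fun a b =>
  ((hA a b).fderiv_right (m := ∞) (by simp)).clm_apply contDiff_const

theorem Cf.sT (h : Cf s P G) (i j : Fin n) : SmC (TP s P i j) := smC_smul (h.ss i j) h.sP

theorem Cf.sκ (h : Cf s P G) (i : Fin n) : SmC (kp s G i) :=
  smC_sum fun j => smC_smul (h.ss i j) (h.sG j)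

theorem smC_inv {A : MC n N} (hA : SmC A) (hu : ∀ x, IsUnit (A x).det) :
    SmC fun x => (A x)⁻¹ := by
  have hdet : ContDiff ℝ ∞ fun x => (A x).det := by
    simp only [Matrix.det_apply']
    exact ContDiff.sum fun σ _ => contDiff_const.mul (contDiff_prod fun i _ => hA _ _)
  have hadj : ∀ a b, ContDiff ℝ ∞ fun x => (A x).adjugate a b := by
    intro a b
    simp only [Matrix.adjugate_apply, Matrix.det_apply']
    refine ContDiff.sum fun σ _ => contDiff_const.mul (contDiff_prod fun i _ => ?_)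
    by_cases h : σ i = b
    · simp only [h, Matrix.updateRow_self]
      exact contDiff_const
    · simp only [Matrix.updateRow_ne h]
      exact hA _ _
  intro a b
  simp only [Matrix.inv_def, Matrix.smul_apply, smul_eq_mul, Ring.inverse_eq_inv']
  exact (hdet.inv fun x => (hu x).ne_zero).mul (hadj a b)

theorem Cf.sbR (h : Cf s P G) (j : Fin n) : SmC (bR s P G j) :=
  smC_mul (smC_sub (smC_sum fun i => smC_pdm (h.sT i j) i) (h.sκ j)) (smC_inv h.sP h.un)

theorem smC_da {A : MC n N} (hA : SmC A) (x : V n) (a b : Fin N) :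
    DifferentiableAt ℝ (fun y => A y a b) x := (hA a b).differentiable (by simp) x

/-- The symmetry of the coefficients. -/
theorem Cf.Tsy (h : Cf s P G) (i j : Fin n) : TP s P i j = TP s P j i := by
  funext x
  unfold TP
  rw [← (h.sy x).apply i j]

theorem Cf.sym (h : Cf s P G) (x : V n) (i j : Fin n) : s x i j = s x j i := (h.sy x).apply j i

/-- The adjoint equation. -/
theorem Cf.ad (h : Cf s P G) {O : Set (V n)} (hO : IsOpen O) {g : Fin (N + N) → V n → ℝ}
    (hg : ∀ a, ContDiffOn ℝ ∞ (g a) O) {x : V n} (hx : x ∈ O)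
    (he : ∀ a, op (SL s fun i x => (rM (bR s P G i x))ᵀ) g a x = 0)
    (hd : ∑ i, pdm i (kp s G i) x = 0) (c : Fin (N + N)) :
    ∑ i, pd i (fun y => ∑ o, ∑ a, HC (TP s P) (kp s G) (i, o, a, c) y * jd o (g a) y) x = 0 := by
  have e0 : (fun (i : Fin n) (y : V n) => ∑ o, ∑ a, HC (TP s P) (kp s G) (i, o, a, c) y *
      jd o (g a) y) = fun i y => (∑ l, ∑ a, rM (TP s P l i y) a c * pd l (g a) y) -
        ∑ a, rM (kp s G i y) a c * g a y := by
    funext i y
    rw [Fintype.sum_option]
    have e1 : ∑ a, HC (TP s P) (kp s G) (i, none, a, c) y * jd none (g a) y =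
        -∑ a, rM (kp s G i y) a c * g a y := by
      rw [← Finset.sum_neg_distrib]
      refine Finset.sum_congr rfl fun a _ => ?_
      show -rM (kp s G i y) a c * g a y = _
      ring
    rw [e1]
    have e2 : ∑ l, ∑ a, HC (TP s P) (kp s G) (i, some l, a, c) y * jd (some l) (g a) y =
        ∑ l, ∑ a, rM (TP s P l i y) a c * pd l (g a) y := rfl
    rw [e2]
    ring
  have e0' : ∀ i, (fun y => ∑ o, ∑ a, HC (TP s P) (kp s G) (i, o, a, c) y * jd o (g a) y) =
      fun y => (∑ l, ∑ a, rM (TP s P l i y) a c * pd l (g a) y) -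
        ∑ a, rM (kp s G i y) a c * g a y := fun i => congrFun e0 i
  simp only [e0']
  have c1 : ∀ i l a, ContDiff ℝ ∞ fun y => rM (TP s P l i y) a c := fun i l a =>
    contDiff_rM (h.sT l i) a c
  have c2 : ∀ i a, ContDiff ℝ ∞ fun y => rM (kp s G i y) a c := fun i a =>
    contDiff_rM (h.sκ i) a c
  have h1 := dvf1 hO (t := fun i l a y => rM (TP s P l i y) a c) c1 hg hx
  have h0 := dvf0 hO (t := fun i a y => rM (kp s G i y) a c) c2 hg hx
  have d1 : ∀ i, DifferentiableAt ℝ (fun y => ∑ l, ∑ a, rM (TP s P l i y) a c * pd l (g a) y) x :=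
    fun i => DifferentiableAt.fun_sum fun l _ => DifferentiableAt.fun_sum fun a _ =>
      ((c1 i l a).differentiable (by simp) x).mul (dAt1 hO (contDiffOn_pd hO (hg a) l) hx)
  have d0 : ∀ i, DifferentiableAt ℝ (fun y => ∑ a, rM (kp s G i y) a c * g a y) x :=
    fun i => DifferentiableAt.fun_sum fun a _ =>
      ((c2 i a).differentiable (by simp) x).mul (dAt1 hO (hg a) hx)
  have h2 : ∀ i, pd i (fun y => (∑ l, ∑ a, rM (TP s P l i y) a c * pd l (g a) y) -
      ∑ a, rM (kp s G i y) a c * g a y) x =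
      pd i (fun y => ∑ l, ∑ a, rM (TP s P l i y) a c * pd l (g a) y) x -
        pd i (fun y => ∑ a, rM (kp s G i y) a c * g a y) x := by
    exact fun i => pd_subf (d1 i) (d0 i) i
  simp only [h2, Finset.sum_sub_distrib, h1, h0]
  -- the divergence of `κ`
  have h3 : ∀ a, ∑ i, pd i (fun y => rM (kp s G i y) a c) x = 0 := by
    intro a
    have h4 : ∀ i, pd i (fun y => rM (kp s G i y) a c) x = rM (pdm i (kp s G i) x) a c := fun i =>
      pd_rM (smC_da (h.sκ i) x) i a c
    simp only [h4]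
    rw [← Matrix.sum_apply, ← rM_sum, hd, rM_zero]
    rfl
  simp only [h3, zero_mul, Finset.sum_const_zero, add_zero]
  -- the equation
  have h5 : ∑ b, rM (P x) b c * op (SL s fun i x => (rM (bR s P G i x))ᵀ) g b x = 0 :=
    Finset.sum_eq_zero fun b _ => by rw [he b, mul_zero]
  simp only [op_SL, mul_add, Finset.sum_add_distrib] at h5
  have h6 : ∑ b, rM (P x) b c * ∑ i, ∑ j, s x i j * pd i (pd j (g b)) x =
      ∑ i, ∑ l, ∑ a, rM (TP s P l i x) a c * pd i (pd l (g a)) x := by
    simp only [Finset.mul_sum]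
    rw [Finset.sum_comm]
    refine Finset.sum_congr rfl fun i _ => ?_
    rw [Finset.sum_comm]
    refine Finset.sum_congr rfl fun l _ => Finset.sum_congr rfl fun a _ => ?_
    show _ = rM ((s x l i : ℂ) • P x) a c * _
    rw [rM_smul, Matrix.smul_apply, smul_eq_mul, h.sym x l i]
    ring
  have h7 : ∑ b, rM (P x) b c * ∑ i, ∑ a, (rM (bR s P G i x))ᵀ b a * pd i (g a) x =
      ∑ l, ∑ a, ((∑ i, pd i (fun y => rM (TP s P l i y) a c) x) - rM (kp s G l x) a c) *
        pd l (g a) x := by
    simp only [Finset.mul_sum]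
    rw [Finset.sum_comm]
    refine Finset.sum_congr rfl fun l _ => ?_
    rw [Finset.sum_comm]
    refine Finset.sum_congr rfl fun a _ => ?_
    have h8 : ∑ i, pd i (fun y => rM (TP s P l i y) a c) x - rM (kp s G l x) a c =
        ∑ b, rM (bR s P G l x) a b * rM (P x) b c := by
      rw [← Matrix.mul_apply, ← rM_mul]
      unfold bR
      rw [Matrix.mul_assoc, Matrix.nonsing_inv_mul _ (h.un x), Matrix.mul_one, rM_sub, rM_sum,
        Matrix.sub_apply, Matrix.sum_apply]
      congr 1
      refine Finset.sum_congr rfl fun i _ => ?_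
      rw [h.Tsy l i]
      exact pd_rM (smC_da (h.sT i l) x) i a c
    rw [h8, Finset.sum_mul]
    refine Finset.sum_congr rfl fun b _ => ?_
    rw [Matrix.transpose_apply]
    ring
  rw [h6, h7] at h5
  have h9 : ∑ l, ∑ a, ((∑ i, pd i (fun y => rM (TP s P l i y) a c) x) - rM (kp s G l x) a c) *
        pd l (g a) x = (∑ l, ∑ a, (∑ i, pd i (fun y => rM (TP s P l i y) a c) x) * pd l (g a) x) -
        ∑ l, ∑ a, rM (kp s G l x) a c * pd l (g a) x := by
    simp only [sub_mul, Finset.sum_sub_distrib]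
  rw [h9] at h5
  linarith

/-- The operator `M`. -/
theorem Cf.mo (h : Cf s P G) {β : Fin n → MC n N} {u : Fin (N + N) → V n → ℝ}
    (hu : ∀ a, ContDiff ℝ ∞ (u a)) {x : V n} (hβ : ∀ i, β i x = bL s P G i x)
    (a : Fin (N + N)) : MR (TP s P) (kp s G) u a x =
      ∑ b, rM (P x) a b * op (SL s fun i x => rM (β i x)) u b x := by
  have c1 : ∀ i l q, ContDiff ℝ ∞ fun y => rM (TP s P i l y) a q := fun i l q =>
    contDiff_rM (h.sT i l) a q
  have hv : ∀ l y, pdv l (cV u) y = cV (fun p => pd l (u p)) y := fun l y => pdv_cV hu l y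
  have c3 : ∀ l p, ContDiff ℝ ∞ (pd l (u p)) := fun l p => LR.H158.contDiff_pd (hu p) l
  have e1 : MR (TP s P) (kp s G) u a x =
      (∑ i, pd i (fun y => ∑ l, ∑ q, rM (TP s P i l y) a q * pd l (u q) y) x) +
        ∑ i, ∑ q, rM (kp s G i x) a q * pd i (u q) x := by
    unfold MR MoV
    rw [rv_add, rv_sum, rv_sum]
    congr 1
    · refine Finset.sum_congr rfl fun i _ => ?_
      have hd : ∀ b, DifferentiableAt ℝ (fun y => (∑ l, TP s P i l y *ᵥ pdv l (cV u) y) b) x := by
        intro b
        have h1 : (fun y => (∑ l, TP s P i l y *ᵥ pdv l (cV u) y) b) =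
            fun y => ∑ l, ∑ q, TP s P i l y b q * cV (fun p => pd l (u p)) y q := by
          funext y
          rw [Finset.sum_apply]
          exact Finset.sum_congr rfl fun l _ => by rw [hv]; rfl
        rw [h1]
        exact DifferentiableAt.fun_sum fun l _ => DifferentiableAt.fun_sum fun q _ =>
          (smC_da (h.sT i l) x b q).mul
            ((contDiff_pi.1 (contDiff_cV (c3 l)) q).differentiable (by simp) x)
      rw [← pd_rv hd i a]
      congr 1
      funext y
      rw [rv_sum]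
      refine Finset.sum_congr rfl fun l _ => ?_
      rw [rv_mulVec]
      refine Finset.sum_congr rfl fun q _ => ?_
      rw [hv, rv_cV]
    · refine Finset.sum_congr rfl fun i _ => ?_
      rw [rv_mulVec]
      refine Finset.sum_congr rfl fun q _ => ?_
      rw [hv, rv_cV]
  have h1 := dvf1 isOpen_univ (t := fun i l q y => rM (TP s P i l y) a q) c1
    (fun q => (hu q).contDiffOn) (mem_univ x)
  rw [e1, h1]
  simp only [op_SL, mul_add, Finset.sum_add_distrib]
  have h6 : ∑ b, rM (P x) a b * ∑ i, ∑ j, s x i j * pd i (pd j (u b)) x =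
      ∑ i, ∑ l, ∑ q, rM (TP s P i l x) a q * pd i (pd l (u q)) x := by
    simp only [Finset.mul_sum]
    rw [Finset.sum_comm]
    refine Finset.sum_congr rfl fun i _ => ?_
    rw [Finset.sum_comm]
    refine Finset.sum_congr rfl fun l _ => Finset.sum_congr rfl fun q _ => ?_
    show _ = rM ((s x i l : ℂ) • P x) a q * _
    rw [rM_smul, Matrix.smul_apply, smul_eq_mul]
    ring
  have h7 : ∑ b, rM (P x) a b * ∑ i, ∑ q, rM (β i x) b q * pd i (u q) x =
      ∑ l, ∑ q, ((∑ i, pd i (fun y => rM (TP s P i l y) a q) x) + rM (kp s G l x) a q) *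
        pd l (u q) x := by
    simp only [Finset.mul_sum]
    rw [Finset.sum_comm]
    refine Finset.sum_congr rfl fun l _ => ?_
    rw [Finset.sum_comm]
    refine Finset.sum_congr rfl fun q _ => ?_
    have h8 : ∑ i, pd i (fun y => rM (TP s P i l y) a q) x + rM (kp s G l x) a q =
        ∑ b, rM (P x) a b * rM (β l x) b q := by
      rw [← Matrix.mul_apply, ← rM_mul, hβ]
      unfold bL
      rw [← Matrix.mul_assoc, Matrix.mul_nonsing_inv _ (h.un x), Matrix.one_mul, rM_add, rM_sum,
        Matrix.add_apply, Matrix.sum_apply]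
      congr 1
      exact Finset.sum_congr rfl fun i _ => pd_rM (smC_da (h.sT i l) x) i a q
    rw [h8, Finset.sum_mul]
    exact Finset.sum_congr rfl fun b _ => by ring
  rw [h6, h7]
  simp only [add_mul, Finset.sum_add_distrib]
  ring

end

end Vale.Agent.P088.HY.TN
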