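import Vale.Agent.P088.R2.H354.N.Cal

/-!
# Finite rank approximation of kernels of systems
-/

open MeasureTheory Set
open scoped ContDiff Matrix Topology

noncomputable section

set_option linter.unusedSectionVars false

namespace Vale.Agent.P088.HY.TN

open Vale.Agent.P088.LR G T3

variable {n : ℕ} {ι : Type} [Fintype ι] {O P : Set (V n)}

/-- Finite nets in the `L²` sense. -/
theorem netN (hP : IsCompact P) (hPO : P ⊆ O) {k : ι → ι → VV n → ℝ}
    (hk : ∀ a b, ContDiffOn ℝ ∞ (k a b) (O ×ˢ O)) {δ : ℝ} (hδ : 0 < δ) :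
    ∃ t : Finset (V n), (∀ y ∈ t, y ∈ P) ∧ ∀ y ∈ P, ∃ y' ∈ t, ∀ b,
      ∑ a, ∫ x in P, (k a b (x, y) - k a b (x, y')) ^ 2 ≤ δ ^ 2 := by
  set m := (Fintype.card ι : ℝ) * volume.real P with hm
  have hm0 : 0 ≤ m := mul_nonneg (Nat.cast_nonneg _) measureReal_nonneg
  have hA0 : (0 : ℝ) < m + 1 := by positivity
  have hδ' : 0 < δ / √(m + 1) := by positivity
  have hkc : ContinuousOn (fun z a b => k a b z) (P ×ˢ P) :=
    continuousOn_pi.2 fun a => continuousOn_pi.2 fun b =>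
      (hk a b).continuousOn.mono (prod_mono hPO hPO)
  have huc := (hP.prod hP).uniformContinuousOn_of_continuous hkc
  rw [Metric.uniformContinuousOn_iff] at huc
  obtain ⟨ρ, hρ, hu⟩ := huc _ hδ'
  obtain ⟨t, ht, htf, hcov⟩ := hP.finite_cover_balls hρ
  refine ⟨htf.toFinset, fun y hy => ht (htf.mem_toFinset.1 hy), fun y hy => ?_⟩
  obtain ⟨y', hy', hyy⟩ := mem_iUnion₂.1 (hcov hy)
  refine ⟨y', htf.mem_toFinset.2 hy', fun b => ?_⟩
  have h1 : ∀ a, ∀ x ∈ P, (k a b (x, y) - k a b (x, y')) ^ 2 ≤ (δ / √(m + 1)) ^ 2 := by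
    intro a x hx
    have h2 := hu (x, y) ⟨hx, hy⟩ (x, y') ⟨hx, ht hy'⟩ (by
      rw [Prod.dist_eq, dist_self, max_eq_right dist_nonneg]; exact hyy)
    have h3 : dist (k a b (x, y)) (k a b (x, y')) < δ / √(m + 1) :=
      ((dist_le_pi_dist (fun b => k a b (x, y)) (fun b => k a b (x, y')) b).trans
        (dist_le_pi_dist (fun a b => k a b (x, y)) (fun a b => k a b (x, y')) a)).trans_lt h2
    rw [Real.dist_eq] at h3
    exact sq_le_sq' (by linarith [(abs_lt.1 h3).1]) (abs_lt.1 h3).2.le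
  have hc : ∀ a, ContinuousOn (fun x => (k a b (x, y) - k a b (x, y')) ^ 2) P := fun a =>
    (((slx (hk a b) (hPO hy)).continuousOn.mono hPO).sub
      ((slx (hk a b) (hPO (ht hy'))).continuousOn.mono hPO)).pow 2
  calc ∑ a, ∫ x in P, (k a b (x, y) - k a b (x, y')) ^ 2 ≤
        ∑ _a : ι, ∫ x in P, (δ / √(m + 1)) ^ 2 := Finset.sum_le_sum fun a _ =>
        setIntegral_mono_on ((hc a).integrableOn_compact hP)
          (integrableOn_const hP.measure_lt_top.ne) hP.measurableSet (h1 a)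
    _ = m * (δ / √(m + 1)) ^ 2 := by
        rw [setIntegral_const, smul_eq_mul, Finset.sum_const, Finset.card_univ, nsmul_eq_mul, hm]
        ring
    _ = m * δ ^ 2 / (m + 1) := by rw [div_pow, Real.sq_sqrt hA0.le]; ring
    _ ≤ δ ^ 2 := by
        rw [div_le_iff₀ hA0]
        nlinarith [sq_nonneg δ]

/-- Approximation of the kernel `k` by sums of products of solutions; `R` is the remainder. -/
theorem approxN (hO : IsOpen O) (hP : IsCompact P) (hPO : P ⊆ O) {S₁ S₂ : Sys n ι}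
    {k : ι → ι → VV n → ℝ} (hk : ∀ a b, ContDiffOn ℝ ∞ (k a b) (O ×ˢ O))
    (h1 : ∀ a b, ∀ z ∈ O ×ˢ O, opx S₁ k a b z = 0)
    (h2 : ∀ a b, ∀ z ∈ O ×ˢ O, opy S₂ k a b z = 0) {δ : ℝ} (hδ : 0 < δ) :
    ∃ (d : ℕ) (e g : Fin d → ι → V n → ℝ) (R : ι → ι → VV n → ℝ),
      (∀ q a, ContDiffOn ℝ ∞ (e q a) O) ∧ (∀ q a, ContDiffOn ℝ ∞ (g q a) O) ∧
      (∀ q a, ∀ x ∈ O, op S₁ (e q) a x = 0) ∧ (∀ q a, ∀ x ∈ O, op S₂ (g q) a x = 0) ∧
      (∀ a b, ContDiffOn ℝ ∞ (R a b) (O ×ˢ O)) ∧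
      (∀ a b z, R a b z = k a b z - ∑ q, g q b z.2 * e q a z.1) ∧
      (∀ a b, ∀ z ∈ O ×ˢ O, opx S₁ R a b z = 0) ∧ (∀ a b, ∀ z ∈ O ×ˢ O, opy S₂ R a b z = 0) ∧
      ∀ y ∈ P, ∀ b, ∑ a, ∫ x in P, R a b (x, y) ^ 2 ≤ δ ^ 2 := by
  obtain ⟨t, ht, hnet⟩ := netN hP hPO hk hδ
  have hsl : ∀ (l : t × ι) a, ContDiffOn ℝ ∞ (fun x => k a l.2 (x, (l.1 : V n))) O :=
    fun l a => slx (hk a l.2) (hPO (ht l.1 l.1.2))
  have hv : ∀ (l : t × ι) a, MemLp (fun x => k a l.2 (x, (l.1 : V n))) 2 (volume.restrict P) :=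
    fun l a => memLp_P hP ((hsl l a).continuousOn.mono hPO)
  obtain ⟨d, c, hc⟩ := R2.H948.proj_vec (volume.restrict P)
    (fun (l : t × ι) a x => k a l.2 (x, (l.1 : V n))) hv
  set e : Fin d → ι → V n → ℝ := fun q a x => ∑ l : t × ι, c q l * k a l.2 (x, (l.1 : V n))
    with he
  have hes : ∀ q a, ContDiffOn ℝ ∞ (e q a) O := fun q a =>
    ContDiffOn.sum fun l _ => contDiffOn_const.mul (hsl l a)
  have hel : ∀ q a, ∀ x ∈ O, op S₁ (e q) a x = 0 := by
    intro q a x hx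
    show op S₁ (fun a x => ∑ l : t × ι, c q l * k a l.2 (x, (l.1 : V n))) a x = 0
    rw [op_sumO hO (F := fun (l : t × ι) a x => k a l.2 (x, (l.1 : V n))) (c q) hsl S₁ hx]
    refine Finset.sum_eq_zero fun l _ => ?_
    have e1 := op_slx hO hk S₁ hx (hPO (ht l.1 l.1.2)) a l.2
    rw [e1, h1 _ _ _ ⟨hx, hPO (ht l.1 l.1.2)⟩, mul_zero]
  have hec : ∀ q a, ContinuousOn (e q a) P := fun q a => (hes q a).continuousOn.mono hPO
  set g : Fin d → ι → V n → ℝ := fun q b y => ∑ a, ∫ x in P, e q a x * k a b (x, y) with hg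
  have hgs : ∀ q b, ContDiffOn ℝ ∞ (g q b) O := fun q b =>
    ContDiffOn.sum fun a _ => (paramO hO hP hPO (hk a b) (hec q a)).1
  have hgl : ∀ q b, ∀ y ∈ O, op S₂ (g q) b y = 0 := by
    intro q b y hy
    have e1 := op_sumO hO (F := fun (a : ι) b y => ∫ x in P, e q a x * k a b (x, y))
      (fun _ => 1) (fun a b => (paramO hO hP hPO (hk a b) (hec q a)).1) S₂ hy b
    simp only [one_mul] at e1
    show op S₂ (fun b y => ∑ a, ∫ x in P, e q a x * k a b (x, y)) b y = 0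
    rw [e1]
    exact Finset.sum_eq_zero fun a _ => op_paramO hO hP hPO hk (hec q a) a (h2 a) b y hy
  set R : ι → ι → VV n → ℝ := fun a b z => k a b z - ∑ q, g q b z.2 * e q a z.1 with hR
  have hRs : ∀ a b, ContDiffOn ℝ ∞ (R a b) (O ×ˢ O) := by
    intro a b
    refine (hk a b).sub (ContDiffOn.sum fun q _ => ?_)
    exact ((hgs q b).comp contDiff_snd.contDiffOn fun z hz => hz.2).mul
      ((hes q a).comp contDiff_fst.contDiffOn fun z hz => hz.1)
  refine ⟨d, e, g, R, hes, hgs, hel, hgl, hRs, fun a b z => rfl, ?_, ?_, ?_⟩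
  · rintro a b ⟨x, y⟩ ⟨hx, hy⟩
    rw [← op_slx hO hRs S₁ hx hy]
    have h3 := op_subO hO (f := fun a x => k a b (x, y)) (g := fun a x => ∑ q, g q b y * e q a x)
      (fun a => slx (hk a b) hy)
      (fun a => ContDiffOn.sum fun q _ => contDiffOn_const.mul (hes q a)) S₁ hx a
    rw [op_slx hO hk S₁ hx hy, h1 _ _ _ ⟨hx, hy⟩,
      op_sumO hO (F := e) (fun q => g q b y) hes S₁ hx,
      Finset.sum_eq_zero fun q _ => by rw [hel q a x hx, mul_zero], sub_zero] at h3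
    exact h3
  · rintro a b ⟨x, y⟩ ⟨hx, hy⟩
    rw [← op_sly hO hRs S₂ hx hy]
    have h3 := op_subO hO (f := fun b y => k a b (x, y)) (g := fun b y => ∑ q, e q a x * g q b y)
      (fun b => sly (hk a b) hx)
      (fun b => ContDiffOn.sum fun q _ => contDiffOn_const.mul (hgs q b)) S₂ hy b
    rw [op_sly hO hk S₂ hx hy, h2 _ _ _ ⟨hx, hy⟩,
      op_sumO hO (F := g) (fun q => e q a x) hgs S₂ hy,
      Finset.sum_eq_zero fun q _ => by rw [hgl q b y hy, mul_zero], sub_zero] at h3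
    have h4 : (fun b y => R a b (x, y)) = fun b y => k a b (x, y) - ∑ q, e q a x * g q b y := by
      funext b y
      simp only [hR]
      congr 1
      exact Finset.sum_congr rfl fun q _ => mul_comm _ _
    rw [h4]
    exact h3
  · intro y hy b
    obtain ⟨y', hy', hle⟩ := hnet y hy
    have h3 := hc (fun a x => k a b (x, y))
      (fun a => memLp_P hP ((slx (hk a b) (hPO hy)).continuousOn.mono hPO)) (⟨y', hy'⟩, b)
    exact h3.trans (hle b)

end Vale.Agent.P088.HY.TN
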