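import Vale.Agent.P088.R2.H354.Far

/-!
# Systems on an open set; finite rank approximation of kernels of systems
-/

open MeasureTheory Set
open scoped ContDiff Matrix Topology

noncomputable section

set_option linter.unusedSectionVars false

namespace Vale.Agent.P088.HY.TN

open Vale.Agent.P088.LR G T3

variable {n : ℕ} {ι κ : Type} [Fintype ι] [Fintype κ] {O P : Set (V n)}

theorem op_slx (hO : IsOpen O) {k : ι → κ → VV n → ℝ}
    (hk : ∀ a b, ContDiffOn ℝ ∞ (k a b) (O ×ˢ O))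
    (S : Sys n ι) {x y : V n} (hx : x ∈ O) (hy : y ∈ O) (a : ι) (b : κ) :
    op S (fun a x => k a b (x, y)) a x = opx S k a b (x, y) := by
  unfold op opx
  exact Finset.sum_congr rfl fun w _ => by rw [jd2_slx hO (hk w.2 b) hx hy]

theorem op_sly (hO : IsOpen O) {k : ι → κ → VV n → ℝ}
    (hk : ∀ a b, ContDiffOn ℝ ∞ (k a b) (O ×ˢ O))
    (S : Sys n κ) {x y : V n} (hx : x ∈ O) (hy : y ∈ O) (a : ι) (b : κ) :
    op S (fun b y => k a b (x, y)) b y = opy S k a b (x, y) := by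
  unfold op opy
  exact Finset.sum_congr rfl fun w _ => by rw [jd2_sly hO (hk a w.2) hx hy]

theorem op_cg (hO : IsOpen O) {f g : ι → V n → ℝ} (h : ∀ a, ∀ x ∈ O, f a x = g a x)
    (S : Sys n ι) {x : V n} (hx : x ∈ O) (a : ι) : op S f a x = op S g a x := by
  unfold op
  refine Finset.sum_congr rfl fun w _ => ?_
  rw [jd_cg hO (fun y hy => jd_cg hO (h w.2) hy w.1.2) hx]

theorem op_sumO (hO : IsOpen O) {I : Type*} [Fintype I] {F : I → ι → V n → ℝ} (c : I → ℝ)
    (hF : ∀ q a, ContDiffOn ℝ ∞ (F q a) O) (S : Sys n ι) {x : V n} (hx : x ∈ O) (a : ι) :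
    op S (fun a x => ∑ q, c q * F q a x) a x = ∑ q, c q * op S (F q) a x := by
  unfold op
  simp only [Finset.mul_sum]
  rw [Finset.sum_comm]
  refine Finset.sum_congr rfl fun w _ => ?_
  rw [jd2_sumO hO c hx (fun q => hF q w.2), Finset.mul_sum]
  exact Finset.sum_congr rfl fun q _ => by ring

theorem op_subO (hO : IsOpen O) {f g : ι → V n → ℝ} (hf : ∀ a, ContDiffOn ℝ ∞ (f a) O)
    (hg : ∀ a, ContDiffOn ℝ ∞ (g a) O) (S : Sys n ι) {x : V n} (hx : x ∈ O) (a : ι) :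
    op S (fun a x => f a x - g a x) a x = op S f a x - op S g a x := by
  have h := op_sumO hO (F := fun (q : Fin 2) a x => if q = 0 then f a x else g a x)
    (fun q => if q = 0 then 1 else -1) (fun q a => by
      fin_cases q
      · simpa using hf a
      · simpa using hg a) S hx a
  simp only [Fin.sum_univ_two, Fin.isValue, if_true, one_mul, Fin.one_eq_zero_iff,
    OfNat.ofNat_ne_one, if_false, neg_mul, ← sub_eq_add_neg] at h
  exact h

/-- Parametric integrals of solutions are solutions. -/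
theorem op_paramO (hO : IsOpen O) (hP : IsCompact P) (hPO : P ⊆ O) {k : ι → κ → VV n → ℝ}
    (hk : ∀ a b, ContDiffOn ℝ ∞ (k a b) (O ×ˢ O))
    {e : V n → ℝ} (he : ContinuousOn e P) {S : Sys n κ} (a : ι)
    (h : ∀ b, ∀ z ∈ O ×ˢ O, opy S k a b z = 0) :
    ∀ b, ∀ y ∈ O, op S (fun b y => ∫ x in P, e x * k a b (x, y)) b y = 0 := by
  intro b y hy
  unfold op
  have h1 : ∀ w : W n κ, S b w y * jd w.1.1 (jd w.1.2
      (fun y => ∫ x in P, e x * k a w.2 (x, y))) y =
      ∫ x in P, S b w y * (e x * jy w.1.1 (jy w.1.2 (k a w.2)) (x, y)) := by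
    intro w
    rw [jparam2O hO hP hPO (hk a w.2) he hy, integral_const_mul]
  rw [Finset.sum_congr rfl fun w _ => h1 w, ← integral_finsetSum _ fun w _ =>
    (int_slO hP hPO (cd_jy hO (cd_jy hO (hk a w.2) w.1.2) w.1.1) he hy).const_mul _]
  have h2 : ∀ x ∈ P, ∑ w : W n κ, S b w y * (e x * jy w.1.1 (jy w.1.2 (k a w.2)) (x, y)) =
      0 := by
    intro x hx
    have h3 : ∑ w : W n κ, S b w y * (e x * jy w.1.1 (jy w.1.2 (k a w.2)) (x, y)) =
        e x * opy S k a b (x, y) := by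
      unfold opy
      rw [Finset.mul_sum]
      exact Finset.sum_congr rfl fun w _ => by ring
    rw [h3, h b _ ⟨hPO hx, hy⟩, mul_zero]
  rw [setIntegral_congr_fun hP.measurableSet h2]
  simp

/-- `∂_x` commutes with the system in `y`. -/
theorem opy_jxO (hO : IsOpen O) {k : ι → κ → VV n → ℝ}
    (hk : ∀ a b, ContDiffOn ℝ ∞ (k a b) (O ×ˢ O)) {S : Sys n κ}
    (h : ∀ a b, ∀ z ∈ O ×ˢ O, opy S k a b z = 0) (o : Option (Fin n)) (a : ι) (b : κ) :
    ∀ z ∈ O ×ˢ O, opy S (fun a b => jx o (k a b)) a b z = 0 := by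
  rintro ⟨x, y⟩ ⟨hx, hy⟩
  have h1 : ∀ w : W n κ, jy w.1.1 (jy w.1.2 (jx o (k a w.2))) (x, y) =
      jd o (fun x => jy w.1.1 (jy w.1.2 (k a w.2)) (x, y)) x := by
    intro w
    have hk2 := cd_jy hO (hk a w.2) w.1.2
    rw [jd_slx hO (cd_jy hO hk2 w.1.1) hx hy, jx_jyO hO hk2 ⟨hx, hy⟩,
      ← jd_sly hO (cd_jx hO hk2 o) hx hy,
      ← jd_sly hO (cd_jy hO (cd_jx hO (hk a w.2) o) w.1.2) hx hy]
    exact jd_cg hO (fun y' (hy' : y' ∈ O) =>
      (jx_jyO hO (hk a w.2) (z := (x, y')) ⟨hx, hy'⟩ o w.1.2).symm) hy _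
  have h4 : opy S (fun a b => jx o (k a b)) a b (x, y) =
      jd o (fun x => ∑ w : W n κ, S b w y * jy w.1.1 (jy w.1.2 (k a w.2)) (x, y)) x := by
    rw [jd_sumO hO (fun w : W n κ => S b w y) hx (fun w =>
      slx (cd_jy hO (cd_jy hO (hk a w.2) w.1.2) w.1.1) hy) o]
    unfold opy
    exact Finset.sum_congr rfl fun w _ => by rw [h1]
  have h5 : ∀ x' ∈ O, ∑ w : W n κ, S b w y * jy w.1.1 (jy w.1.2 (k a w.2)) (x', y) =
      (fun _ => 0 : V n → ℝ) x' := fun x' hx' => h a b (x', y) ⟨hx', hy⟩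
  rw [h4, jd_cg hO h5 hx]
  cases o with
  | none => rfl
  | some i => show fderiv ℝ (fun _ : V n => (0 : ℝ)) x _ = 0; simp

/-! ## The interior estimate -/

/-- The interior estimate at the scale `r` in the open set `D`. -/
def IntS (S : Sys n ι) (D : Set (V n)) (r C : ℝ) : Prop :=
  ∀ p, Metric.ball p r ⊆ D → ∀ u : ι → V n → ℝ, (∀ a, ContDiffOn ℝ ∞ (u a) (Metric.ball p r)) →
    (∀ a, ∀ x ∈ Metric.ball p r, op S u a x = 0) →
    (∀ a, IntegrableOn (fun x => u a x ^ 2) (Metric.ball p r)) →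
    ∀ (o : Option (Fin n)) (a : ι),
      |jd o (u a) p| ≤ C * √(∑ b, ∫ x in Metric.ball p r, u b x ^ 2)

/-- The square root of `|ι|` times the volume of a ball. -/
def vs (n : ℕ) (ι : Type) [Fintype ι] (r : ℝ) : ℝ := √(Fintype.card ι) * vb n r

theorem vs_nonneg (r : ℝ) : 0 ≤ vs n ι r := mul_nonneg (Real.sqrt_nonneg _) (vb_nonneg r)

theorem IntS.le {S : Sys n ι} {D Q : Set (V n)} {r C : ℝ} (h : IntS S D r C) (hC : 0 ≤ C)
    {p : V n} (hp : Metric.ball p r ⊆ D) (hQ : Metric.ball p r ⊆ Q) {u : ι → V n → ℝ}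
    (hu : ∀ a, ContDiffOn ℝ ∞ (u a) (Metric.ball p r))
    (hL : ∀ a, ∀ x ∈ Metric.ball p r, op S u a x = 0)
    (hi : ∀ a, IntegrableOn (fun x => u a x ^ 2) Q) (o : Option (Fin n)) (a : ι) {A : ℝ}
    (hA : 0 ≤ A) (hAQ : ∑ b, ∫ x in Q, u b x ^ 2 ≤ A ^ 2) : |jd o (u a) p| ≤ C * A := by
  refine (h p hp u hu hL (fun a => (hi a).mono_set hQ) o a).trans
    (mul_le_mul_of_nonneg_left ?_ hC)
  rw [Real.sqrt_le_left hA]
  exact (Finset.sum_le_sum fun b _ => setIntegral_mono_set (hi b)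
    (Filter.Eventually.of_forall fun x => sq_nonneg _) hQ.eventuallyLE).trans hAQ

theorem IntS.sup {S : Sys n ι} {D : Set (V n)} {r C : ℝ} (h : IntS S D r C) (hC : 0 ≤ C)
    {p : V n} (hp : Metric.ball p r ⊆ D) {u : ι → V n → ℝ}
    (hu : ∀ a, ContDiffOn ℝ ∞ (u a) (Metric.ball p r))
    (hL : ∀ a, ∀ x ∈ Metric.ball p r, op S u a x = 0)
    (o : Option (Fin n)) (a : ι) {A : ℝ} (hA : 0 ≤ A)
    (hAQ : ∀ b, ∀ x ∈ Metric.ball p r, |u b x| ≤ A) :
    |jd o (u a) p| ≤ C * (A * vs n ι r) := by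
  have hfin : volume (Metric.ball p r) < ⊤ := measure_ball_lt_top
  have hint : ∀ a, IntegrableOn (fun x => u a x ^ 2) (Metric.ball p r) := by
    intro a
    have hfi : IsFiniteMeasure (volume.restrict (Metric.ball p r)) :=
      ⟨by rw [Measure.restrict_apply_univ]; exact hfin⟩
    refine Integrable.of_bound (((hu a).continuousOn.pow 2).aestronglyMeasurable
      measurableSet_ball) (A ^ 2)
      ((ae_restrict_iff' measurableSet_ball).2 (Filter.Eventually.of_forall fun x hx => ?_))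
    rw [Real.norm_eq_abs, abs_of_nonneg (sq_nonneg _)]
    exact sq_le_sq' (by linarith [(abs_le.1 (hAQ a x hx)).1]) (abs_le.1 (hAQ a x hx)).2
  refine (h p hp u hu hL hint o a).trans (mul_le_mul_of_nonneg_left ?_ hC)
  have h1 : ∑ b, ∫ x in Metric.ball p r, u b x ^ 2 ≤
      Fintype.card ι * (A ^ 2 * volume.real (Metric.ball p r)) := by
    calc _ ≤ ∑ _b : ι, ∫ x in Metric.ball p r, A ^ 2 :=
          Finset.sum_le_sum fun b _ => setIntegral_mono_on (hint b)
          (integrableOn_const hfin.ne) measurableSet_ball fun x hx =>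
            sq_le_sq' (by linarith [(abs_le.1 (hAQ b x hx)).1]) (abs_le.1 (hAQ b x hx)).2
      _ = _ := by
          rw [setIntegral_const, smul_eq_mul, mul_comm, Finset.sum_const, Finset.card_univ,
            nsmul_eq_mul]
  calc √(∑ b, ∫ x in Metric.ball p r, u b x ^ 2) ≤
        √(Fintype.card ι * (A ^ 2 * volume.real (Metric.ball p r))) := Real.sqrt_le_sqrt h1
    _ = _ := by
        rw [Real.sqrt_mul (Nat.cast_nonneg _), Real.sqrt_mul (sq_nonneg _), Real.sqrt_sq hA,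
          vb_eq p r]
        unfold vs
        ring

end Vale.Agent.P088.HY.TN
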