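import Vale.Agent.P088.R2.H354.N.Apx

/-!
# Interior estimates for kernels and finite families of solutions of systems
-/

open MeasureTheory Set
open scoped ContDiff Matrix Topology

noncomputable section

set_option linter.unusedSectionVars false

namespace Vale.Agent.P088.HY.TN

open Vale.Agent.P088.LR G T3

variable {n : ℕ} {ι : Type} [Fintype ι] {O P X Y : Set (V n)}

theorem kx_bdN {S : Sys n ι} (hO : IsOpen O) {r C : ℝ} (hI : IntS S O r C) (hC : 0 ≤ C)
    {k : ι → ι → VV n → ℝ} (hk : ∀ a b, ContDiffOn ℝ ∞ (k a b) (O ×ˢ O))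
    (h1 : ∀ a b, ∀ z ∈ O ×ˢ O, opx S k a b z = 0)
    {p y : V n} (hr : 0 < r) (hp : Metric.ball p r ⊆ O) (hy : y ∈ O) {A : ℝ} (hA : 0 ≤ A)
    (b : ι) (hb : ∀ a, ∀ x ∈ Metric.ball p r, |k a b (x, y)| ≤ A) (o : Option (Fin n)) (a : ι) :
    |jx o (k a b) (p, y)| ≤ C * (A * vs n ι r) := by
  rw [← jd_slx hO (hk a b) (hp (Metric.mem_ball_self hr)) hy o]
  refine hI.sup hC hp (u := fun a x => k a b (x, y)) (fun a => (slx (hk a b) hy).mono hp)
    (fun a x hx => ?_) o a hA hb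
  rw [op_slx hO hk S (hp hx) hy]
  exact h1 a b _ ⟨hp hx, hy⟩

theorem rx_bdN {S : Sys n ι} (hO : IsOpen O) (hP : IsCompact P) (hPO : P ⊆ O) {r C : ℝ}
    (hI : IntS S O r C) (hC : 0 ≤ C)
    {R : ι → ι → VV n → ℝ} (hR : ∀ a b, ContDiffOn ℝ ∞ (R a b) (O ×ˢ O))
    (h1 : ∀ a b, ∀ z ∈ O ×ˢ O, opx S R a b z = 0)
    {p y : V n} (hr : 0 < r) (hp : Metric.ball p r ⊆ P) (hy : y ∈ P) {δ : ℝ} (hδ : 0 ≤ δ)
    (b : ι) (hb : ∑ a, ∫ x in P, R a b (x, y) ^ 2 ≤ δ ^ 2) (o : Option (Fin n)) (a : ι) :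
    |jx o (R a b) (p, y)| ≤ C * δ := by
  have hpO := hp.trans hPO
  rw [← jd_slx hO (hR a b) (hpO (Metric.mem_ball_self hr)) (hPO hy) o]
  refine hI.le hC hpO hp (u := fun a x => R a b (x, y))
    (fun a => (slx (hR a b) (hPO hy)).mono hpO) (fun a x hx => ?_) (fun a => ?_) o a hδ hb
  · rw [op_slx hO hR S (hpO hx) (hPO hy)]
    exact h1 a b _ ⟨hpO hx, hPO hy⟩
  · exact (((slx (hR a b) (hPO hy)).continuousOn.mono hPO).pow 2).integrableOn_compact hP

theorem rxy_bdN {S₁ S₂ : Sys n ι} (hO : IsOpen O) (hP : IsCompact P) (hPO : P ⊆ O) {r C : ℝ}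
    (hI₁ : IntS S₁ O r C) (hI₂ : IntS S₂ O r C) (hC : 0 ≤ C)
    {R : ι → ι → VV n → ℝ} (hR : ∀ a b, ContDiffOn ℝ ∞ (R a b) (O ×ˢ O))
    (h1 : ∀ a b, ∀ z ∈ O ×ˢ O, opx S₁ R a b z = 0)
    (h2 : ∀ a b, ∀ z ∈ O ×ˢ O, opy S₂ R a b z = 0)
    {p : V n} (hr : 0 < r) (hp : Metric.ball p r ⊆ P) {δ : ℝ} (hδ : 0 ≤ δ)
    (hb : ∀ y ∈ P, ∀ b, ∑ a, ∫ x in P, R a b (x, y) ^ 2 ≤ δ ^ 2) (o o' : Option (Fin n))
    (a b : ι) : |jx o (jy o' (R a b)) (p, p)| ≤ C * (C * δ * vs n ι r) := by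
  have hpO := hp.trans hPO
  have hpp : p ∈ O := hpO (Metric.mem_ball_self hr)
  have hx := fun a b => cd_jx hO (hR a b) o
  rw [jx_jyO hO (hR a b) ⟨hpp, hpp⟩, ← jd_sly hO (hx a b) hpp hpp o']
  refine hI₂.sup hC hpO (u := fun b y => jx o (R a b) (p, y))
    (fun b => (sly (hx a b) hpp).mono hpO) (fun b y hy => ?_) o' b (by positivity)
    (fun b y hy => rx_bdN hO hP hPO hI₁ hC hR h1 hr hp (hp hy) hδ b (hb y (hp hy) b) o a)
  rw [op_sly hO (k := fun a b => jx o (R a b)) hx S₂ hpp (hpO hy)]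
  exact opy_jxO hO hR h2 o a b _ ⟨hpp, hpO hy⟩

/-- `L²` on the diagonal. -/
theorem diag_bdN (hO : IsOpen O) {S : Sys n ι} {r C : ℝ} (hI : IntS S O r C) (hC : 0 ≤ C)
    {d : ℕ} {g : Fin d → ι → V n → ℝ} (hg : ∀ q b, ContDiffOn ℝ ∞ (g q b) O)
    (hgl : ∀ q b, ∀ x ∈ O, op S (g q) b x = 0) (hr : 0 < r) (hX : MeasurableSet X)
    (hY : IsCompact Y) (hYO : Y ⊆ O) (hXY : ∀ x ∈ X, Metric.ball x r ⊆ Y)
    {a : Fin d → V n → ℝ} (ha : ∀ q, MemLp (a q) 2 (volume.restrict X)) {A : ℝ}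
    (hb : ∀ y ∈ Y, ∀ b, (∫ x in X, (∑ q, g q b y * a q x) ^ 2) ≤ A ^ 2) (o : Option (Fin n))
    (b : ι) :
    IntegrableOn (fun x => (∑ q, a q x * jd o (g q b) x) ^ 2) X ∧
      (∫ x in X, (∑ q, a q x * jd o (g q b) x) ^ 2) ≤
        C ^ 2 * (Fintype.card ι * (A ^ 2 * volume.real Y)) := by
  have hgY : ∀ q b, MemLp (g q b) 2 (volume.restrict Y) := fun q b =>
    memLp_P hY ((hg q b).continuousOn.mono hYO)
  -- the kernel
  set K : ι → V n → V n → ℝ := fun b x y => (∑ q, a q x * g q b y) ^ 2 with hK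
  have hKe : ∀ b x y, K b x y = ∑ q, ∑ q', (a q x * a q' x) * (g q b y * g q' b y) := by
    intro b x y
    simp only [hK]
    rw [pow_two, Finset.sum_mul_sum]
    exact Finset.sum_congr rfl fun q _ => Finset.sum_congr rfl fun q' _ => by ring
  have haa : ∀ q q', Integrable (fun x => a q x * a q' x) (volume.restrict X) := fun q q' =>
    (ha q').integrable_mul (ha q) |>.congr (Filter.Eventually.of_forall fun x => by
      simp [mul_comm])
  have hgg : ∀ b q q', Integrable (fun y => g q b y * g q' b y) (volume.restrict Y) :=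
    fun b q q' => (hgY q' b).integrable_mul (hgY q b) |>.congr
      (Filter.Eventually.of_forall fun x => by simp [mul_comm])
  have hKi : ∀ b, Integrable (Function.uncurry (K b))
      ((volume.restrict X).prod (volume.restrict Y)) := by
    intro b
    have : Function.uncurry (K b) = fun z : V n × V n =>
        ∑ q, ∑ q', (a q z.1 * a q' z.1) * (g q b z.2 * g q' b z.2) := by
      funext z
      exact hKe b z.1 z.2
    rw [this]
    exact integrable_finsetSum _ fun q _ => integrable_finsetSum _ fun q' _ =>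
      (haa q q').mul_prod (hgg b q q')
  have hKx : ∀ b x, Integrable (K b x) (volume.restrict Y) := fun b x => by
    have : K b x = fun y => ∑ q, ∑ q', (a q x * a q' x) * (g q b y * g q' b y) :=
      funext (hKe b x)
    rw [this]
    exact integrable_finsetSum _ fun q _ => integrable_finsetSum _ fun q' _ =>
      (hgg b q q').const_mul _
  have hswap : ∀ b, ∫ x in X, ∫ y in Y, K b x y = ∫ y in Y, ∫ x in X, K b x y := fun b =>
    integral_integral_swap (hKi b)
  have hKl : ∀ b, Integrable (fun x => ∫ y in Y, K b x y) (volume.restrict X) := fun b =>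
    (hKi b).integral_prod_left
  have hΨi : Integrable (fun x => ∑ b, ∫ y in Y, K b x y) (volume.restrict X) :=
    integrable_finsetSum _ fun b _ => hKl b
  have hK0 : ∀ x, 0 ≤ ∑ b, ∫ y in Y, K b x y := fun x => Finset.sum_nonneg fun b _ =>
    integral_nonneg fun y => by simp only [hK]; positivity
  -- pointwise
  have hpt : ∀ x ∈ X, (∑ q, a q x * jd o (g q b) x) ^ 2 ≤ C ^ 2 * ∑ b, ∫ y in Y, K b x y := by
    intro x hx
    have hp := (hXY x hx).trans hYO
    have hxO : x ∈ O := hp (Metric.mem_ball_self hr)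
    have hs : ∀ b, ContDiffOn ℝ ∞ (fun y => ∑ q, a q x * g q b y) O := fun b =>
      ContDiffOn.sum fun q _ => contDiffOn_const.mul (hg q b)
    have h1 : |∑ q, a q x * jd o (g q b) x| ≤ C * √(∑ b, ∫ y in Y, K b x y) := by
      rw [← jd_sumO hO (fun q => a q x) hxO (fun q => hg q b) o]
      refine hI.le hC hp (hXY x hx) (u := fun b y => ∑ q, a q x * g q b y)
        (fun b => (hs b).mono hp) (fun b y hy => ?_) (fun b => hKx b x) o b
        (Real.sqrt_nonneg _) ?_
      · rw [op_sumO hO (F := g) (fun q => a q x) hg S (hp hy)]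
        exact Finset.sum_eq_zero fun q _ => by rw [hgl q b y (hp hy), mul_zero]
      · rw [Real.sq_sqrt (hK0 x)]
    calc (∑ q, a q x * jd o (g q b) x) ^ 2 = |∑ q, a q x * jd o (g q b) x| ^ 2 :=
          (sq_abs _).symm
      _ ≤ (C * √(∑ b, ∫ y in Y, K b x y)) ^ 2 := pow_le_pow_left₀ (abs_nonneg _) h1 2
      _ = C ^ 2 * ∑ b, ∫ y in Y, K b x y := by rw [mul_pow, Real.sq_sqrt (hK0 x)]
  have hXO : ∀ x ∈ X, x ∈ O := fun x hx => hYO (hXY x hx (Metric.mem_ball_self hr))
  have hmeas : AEStronglyMeasurable (fun x => (∑ q, a q x * jd o (g q b) x) ^ 2)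
      (volume.restrict X) := by
    refine AEStronglyMeasurable.pow ?_ 2
    refine Finset.aestronglyMeasurable_fun_sum _ fun q _ => ?_
    refine (ha q).1.mul ?_
    exact ((cd_jd hO (hg q b) o).continuousOn.mono hXO).aestronglyMeasurable hX
  have hint : IntegrableOn (fun x => (∑ q, a q x * jd o (g q b) x) ^ 2) X := by
    refine Integrable.mono' (hΨi.const_mul (C ^ 2)) hmeas ?_
    refine (ae_restrict_iff' hX).2 (Filter.Eventually.of_forall fun x hx => ?_)
    rw [Real.norm_eq_abs, abs_of_nonneg (sq_nonneg _)]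
    exact hpt x hx
  refine ⟨hint, ?_⟩
  calc (∫ x in X, (∑ q, a q x * jd o (g q b) x) ^ 2) ≤
        ∫ x in X, C ^ 2 * ∑ b, ∫ y in Y, K b x y :=
        setIntegral_mono_on hint (hΨi.const_mul (C ^ 2)) hX hpt
    _ = C ^ 2 * ∑ b, ∫ y in Y, ∫ x in X, K b x y := by
        rw [integral_const_mul, integral_finsetSum _ fun b _ => hKl b]
        congr 1
        exact Finset.sum_congr rfl fun b _ => hswap b
    _ ≤ C ^ 2 * (Fintype.card ι * (A ^ 2 * volume.real Y)) := by
        refine mul_le_mul_of_nonneg_left ?_ (sq_nonneg _)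
        have h3 : ∀ b, ∀ y ∈ Y, ∫ x in X, K b x y ≤ A ^ 2 := by
          intro b y hy
          have := hb y hy b
          refine le_trans (le_of_eq ?_) this
          congr 1
          funext x
          simp only [hK]
          congr 1
          exact Finset.sum_congr rfl fun q _ => mul_comm _ _
        calc ∑ b, ∫ y in Y, ∫ x in X, K b x y ≤ ∑ _b : ι, ∫ y in Y, A ^ 2 :=
              Finset.sum_le_sum fun b _ => setIntegral_mono_on (hKi b).integral_prod_right
                (integrableOn_const hY.measure_lt_top.ne) hY.measurableSet (h3 b)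
          _ = Fintype.card ι * (A ^ 2 * volume.real Y) := by
              rw [setIntegral_const, smul_eq_mul, mul_comm, Finset.sum_const, Finset.card_univ,
                nsmul_eq_mul]

end Vale.Agent.P088.HY.TN
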