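import Vale.Agent.P088.R2.H354.N.Fam

/-!
# The transfer of finite families for systems; the geometry; cut-offs
-/

open MeasureTheory Set
open scoped ContDiff Matrix Topology

noncomputable section

set_option linter.unusedSectionVars false

namespace Vale.Agent.P088.HY.TN

open Vale.Agent.P088.LR G T3

variable {n : ℕ} {ι : Type} [Fintype ι]

/-- The indices of the terms of a bilinear form: the derivative of the column, the derivative of
the row, the component of the row, the component of the column. -/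
abbrev Ib (n : ℕ) (ι : Type) : Type := Fin n × Option (Fin n) × ι × ι

/-- The transfer of finite families for systems (real form): `dv` are the gradients off `G` of
solutions `v`, `v + w` is the transferred solution. -/
def StpR (D G : Set (V n)) (M : (ι → V n → ℝ) → ι → V n → ℝ) (H₁ H₂ : Ib n ι → V n → ℝ) : Prop :=
  ∃ C₀ : ℝ, 0 ≤ C₀ ∧ ∀ (d : ℕ) (f : Fin d → ι → V n → ℝ),
    (∀ q a, ContDiff ℝ ∞ (f q a)) → (∀ q a, HasCompactSupport (f q a)) →
    (∀ q a, tsupport (f q a) ⊆ D) → ∀ ε : ℝ, 0 < ε →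
    ∃ (w : Fin d → ι → V n → ℝ) (dv : Fin d → Fin n → ι → V n → ℝ),
      (∀ q a, ContDiffOn ℝ 1 (w q a) D) ∧ (∀ q a, ∀ x ∈ G ∩ D, w q a x = 0) ∧
      (∀ q a, MemLp (w q a) 2 (volume.restrict D)) ∧
      (∀ q i a, MemLp (pd i (w q a)) 2 (volume.restrict D)) ∧
      (∀ q i a, MemLp (dv q i a) 2 (volume.restrict (D \ G))) ∧
      (∀ q, ∀ φ : ι → V n → ℝ, (∀ a, ContDiff ℝ ∞ (φ a)) → (∀ a, HasCompactSupport (φ a)) →
        (∀ a, tsupport (φ a) ⊆ D) →
        (∫ x in D, ∑ m : Ib n ι, H₂ m x * (pd m.1 (w q m.2.2.2) x * jd m.2.1 (φ m.2.2.1) x)) =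
          ∫ x in D \ G, ∑ m : Ib n ι, (H₁ m x - H₂ m x) *
            (dv q m.1 m.2.2.2 x * jd m.2.1 (φ m.2.2.1) x)) ∧
      ∀ c : Fin d → ℝ,
        (∫ x in D \ G, ∑ a, ∑ i, (∑ q, c q * (dv q i a x - pd i (f q a) x)) ^ 2) ≤
          C₀ * (∫ x in D \ G, ∑ a, (∑ q, c q * M (f q) a x) ^ 2) + ε * (∑ q, c q ^ 2) ∧
        (∫ x in D, ∑ a, ((∑ q, c q * w q a x) ^ 2 + ∑ i, (∑ q, c q * pd i (w q a) x) ^ 2)) ≤
          C₀ * ((∫ x in D \ G, ∑ a, ((∑ q, c q * f q a x) ^ 2 +
            ∑ i, (∑ q, c q * pd i (f q a) x) ^ 2)) +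
            (∫ x in D \ G, ∑ a, (∑ q, c q * M (f q) a x) ^ 2)) + ε * (∑ q, c q ^ 2)

/-- The geometry: chart `D`, matched set `Gm`, domain `O` of the kernels, compact set `P`, far
layers `Fa` and `Fb`, cut-offs `χ` (in the form), `η` (for the families). -/
structure GeoN (S₁ S₂ : Sys n ι) (M : (ι → V n → ℝ) → ι → V n → ℝ) (p : ι → ι → V n → ℝ)
    (H₁ H₂ : Ib n ι → V n → ℝ) (D Gm O P Fa Fb : Set (V n)) (χ η : V n → ℝ) (r C : ℝ) :
    Prop where
  oD : IsOpen D
  oO : IsOpen O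
  OD : O ⊆ D
  cP : IsCompact P
  PO : P ⊆ O
  oG : IsOpen Gm
  cF : IsCompact Fb
  h₁ : ∀ m, ContDiff ℝ ∞ (H₁ m)
  h₂ : ∀ m, ContDiff ℝ ∞ (H₂ m)
  sS : ∀ a w, Continuous (S₁ a w)
  sp : ∀ a b, Continuous (p a b)
  mo : ∀ u : ι → V n → ℝ, (∀ a, ContDiff ℝ ∞ (u a)) → ∀ x ∈ D \ Gm, ∀ a,
    M u a x = ∑ b, p a b x * op S₁ u b x
  ad : ∀ g : ι → V n → ℝ, (∀ a, ContDiffOn ℝ ∞ (g a) O) → (∀ a, ∀ x ∈ O, op S₂ g a x = 0) →
    ∀ c : ι, ∀ x ∈ O \ Gm,
      ∑ i, pd i (fun y => ∑ o, ∑ a, H₂ (i, o, a, c) y * jd o (g a) y) x = 0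
  eqH : ∀ x ∈ Gm ∩ D, ∀ m, H₂ m x = H₁ m x
  ie₁ : IntS S₁ O r C
  ie₂ : IntS S₂ O r C
  C0 : 0 ≤ C
  r0 : 0 < r
  χs : ContDiff ℝ ∞ χ
  χc : HasCompactSupport χ
  χO : tsupport χ ⊆ O
  ηs : ContDiff ℝ ∞ η
  ηc : HasCompactSupport η
  ηP : tsupport η ⊆ P
  fa : ∀ x ∈ D \ Gm, x ∉ Fa → (∀ i, pd i η x = 0) ∧ ∀ i j, pd i (pd j η) x = 0
  fab : ∀ x ∈ Fa, Metric.ball x r ⊆ Fb
  fbP : Fb ⊆ P
  q₁ : ∀ p ∈ tsupport χ \ Gm, Metric.ball p r ⊆ P
  q₂ : ∀ p ∈ tsupport χ \ Gm, ∀ x ∈ Metric.ball p r, η x = 1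
  q₄ : ∀ p ∈ tsupport χ \ Gm, (∃ i, pd i χ p ≠ 0) → Metric.ball p r ⊆ Fb
  q₅ : ∀ x ∈ tsupport η, Metric.ball x r ⊆ P

/-! ## Commutators -/

/-- The lower order terms of `∂_o ∂_o' (c u)`. -/
def cc (o o' : Option (Fin n)) (c u : V n → ℝ) (x : V n) : ℝ :=
  match o, o' with
  | none, none => 0
  | some i, none => pd i c x * u x
  | none, some j => pd j c x * u x
  | some i, some j => pd i c x * pd j u x + pd j c x * pd i u x + u x * pd i (pd j c) x

theorem jd2_mul {O : Set (V n)} (hO : IsOpen O) {c u : V n → ℝ} (hc : ContDiff ℝ ∞ c)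
    (hu : ContDiffOn ℝ ∞ u O) {x : V n} (hx : x ∈ O) (o o' : Option (Fin n)) :
    jd o (jd o' (fun x => c x * u x)) x = c x * jd o (jd o' u) x + cc o o' c u x := by
  have hcd : ∀ y, DifferentiableAt ℝ c y := fun y => hc.differentiable (by simp) y
  have hc1 : ∀ j, ContDiff ℝ ∞ (pd j c) := fun j =>
    (hc.fderiv_right (by simp)).clm_apply contDiff_const
  have du := dAt1 hO hu hx
  have h0 : ∀ i, pd i (fun x => c x * u x) x = c x * pd i u x + pd i c x * u x := fun i => by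
    rw [pd_mul (hcd x) du i]; ring
  cases o with
  | none =>
    cases o' with
    | none => show c x * u x = c x * u x + 0; ring
    | some j => exact h0 j
  | some i =>
    cases o' with
    | none => exact h0 i
    | some j =>
      have h1 : ∀ y ∈ O, pd j (fun x => c x * u x) y = c y * pd j u y + u y * pd j c y :=
        fun y hy => pd_mul (hcd y) (dAt1 hO hu hy) j
      have h2 := jd_cg hO h1 hx (some i)
      simp only [jd_some] at h2 ⊢
      have dju := dAt1 hO (contDiffOn_pd hO hu j) hx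
      have djc : DifferentiableAt ℝ (pd j c) x := (hc1 j).differentiable (by simp) x
      have hh : HasFDerivAt (fun y => c y * pd j u y + u y * pd j c y)
          ((c x • fderiv ℝ (pd j u) x + pd j u x • fderiv ℝ c x) +
            (u x • fderiv ℝ (pd j c) x + pd j c x • fderiv ℝ u x)) x :=
        ((hcd x).hasFDerivAt.mul dju.hasFDerivAt).add (du.hasFDerivAt.mul djc.hasFDerivAt)
      have h3 : pd i (fun y => c y * pd j u y + u y * pd j c y) x =
          (c x * pd i (pd j u) x + pd j u x * pd i c x) +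
            (u x * pd i (pd j c) x + pd j c x * pd i u x) := by
        show fderiv ℝ (fun y => c y * pd j u y + u y * pd j c y) x _ = _
        rw [hh.fderiv]
        simp only [_root_.add_apply, _root_.smul_apply, smul_eq_mul]
        rfl
      rw [h2, h3]
      unfold cc
      ring

theorem cc_zero (o o' : Option (Fin n)) {c : V n → ℝ} (u : V n → ℝ) {x : V n}
    (h1 : ∀ i, pd i c x = 0) (h2 : ∀ i j, pd i (pd j c) x = 0) : cc o o' c u x = 0 := by
  cases o with
  | none =>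
    cases o' with
    | none => rfl
    | some j => show pd j c x * u x = 0; rw [h1, zero_mul]
  | some i =>
    cases o' with
    | none => show pd i c x * u x = 0; rw [h1, zero_mul]
    | some j =>
      show pd i c x * pd j u x + pd j c x * pd i u x + u x * pd i (pd j c) x = 0
      rw [h1, h1, h2]; ring

theorem cc_bd {c : V n → ℝ} {x : V n} {A : ℝ} (hA : 0 ≤ A) (h1 : ∀ i, |pd i c x| ≤ A)
    (h2 : ∀ i j, |pd i (pd j c) x| ≤ A) {u : V n → ℝ} {B : ℝ} (hB : 0 ≤ B)
    (hu : ∀ o : Option (Fin n), |jd o u x| ≤ B) (o o' : Option (Fin n)) :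
    |cc o o' c u x| ≤ 3 * A * B := by
  have hu0 : |u x| ≤ B := hu none
  have hui : ∀ i, |pd i u x| ≤ B := fun i => hu (some i)
  have hAB : 0 ≤ A * B := mul_nonneg hA hB
  have m1 : ∀ i, |pd i c x * u x| ≤ A * B := fun i => by
    rw [abs_mul]; exact mul_le_mul (h1 i) hu0 (abs_nonneg _) hA
  cases o with
  | none =>
    cases o' with
    | none => show |(0 : ℝ)| ≤ _; rw [abs_zero]; positivity
    | some j => exact (m1 j).trans (by linarith)
  | some i =>
    cases o' with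
    | none => exact (m1 i).trans (by linarith)
    | some j =>
      show |pd i c x * pd j u x + pd j c x * pd i u x + u x * pd i (pd j c) x| ≤ _
      refine (abs_add_three _ _ _).trans ?_
      rw [abs_mul, abs_mul, abs_mul]
      have b1 := mul_le_mul (h1 i) (hui j) (abs_nonneg _) hA
      have b2 := mul_le_mul (h1 j) (hui i) (abs_nonneg _) hA
      have b3 := mul_le_mul hu0 (h2 i j) (abs_nonneg _) hB
      linarith

/-- The commutator of the system and the multiplication by `c`. -/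
def cm (S : Sys n ι) (c : V n → ℝ) (u : ι → V n → ℝ) (a : ι) (x : V n) : ℝ :=
  ∑ w : W n ι, S a w x * cc w.1.1 w.1.2 c (u w.2) x

theorem op_mul {O : Set (V n)} (hO : IsOpen O) {S : Sys n ι} {c : V n → ℝ}
    (hc : ContDiff ℝ ∞ c) {u : ι → V n → ℝ} (hu : ∀ a, ContDiffOn ℝ ∞ (u a) O) {x : V n}
    (hx : x ∈ O) (a : ι) :
    op S (fun a x => c x * u a x) a x = c x * op S u a x + cm S c u a x := by
  unfold op cm
  rw [Finset.mul_sum, ← Finset.sum_add_distrib]
  refine Finset.sum_congr rfl fun w _ => ?_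
  rw [jd2_mul hO hc (hu w.2) hx]
  ring

theorem cm_zero (S : Sys n ι) {c : V n → ℝ} (u : ι → V n → ℝ) (a : ι) {x : V n}
    (h1 : ∀ i, pd i c x = 0) (h2 : ∀ i j, pd i (pd j c) x = 0) : cm S c u a x = 0 :=
  Finset.sum_eq_zero fun w _ => by rw [cc_zero _ _ _ h1 h2, mul_zero]

/-- Bounds for the cut-off. -/
theorem cut_bdN {S : Sys n ι} (hS : ∀ a w, Continuous (S a w)) {p : ι → ι → V n → ℝ}
    (hp : ∀ a b, Continuous (p a b)) {c : V n → ℝ} (hc : ContDiff ℝ ∞ c)
    (hcc : HasCompactSupport c) : ∃ C : ℝ, 0 ≤ C ∧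
    ∀ (u : ι → V n → ℝ) (x : V n) (B : ℝ), (∀ a, DifferentiableAt ℝ (u a) x) → 0 ≤ B →
      (∀ (o : Option (Fin n)) a, |jd o (u a) x| ≤ B) →
      (∀ a, |∑ b, p a b x * cm S c u b x| ≤ C * B) ∧
      (∀ a, |c x * u a x| ≤ C * B) ∧ ∀ a i, |pd i (fun x => c x * u a x) x| ≤ C * B := by
  have hc1 : ∀ j, ContDiff ℝ ∞ (pd j c) := fun j =>
    (hc.fderiv_right (by simp)).clm_apply contDiff_const
  have hc2 : ∀ i j, ContDiff ℝ ∞ (pd i (pd j c)) := fun i j =>
    ((hc1 j).fderiv_right (by simp)).clm_apply contDiff_const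
  have hcs1 : ∀ j, HasCompactSupport (pd j c) := fun j => hcc.fderiv_apply ℝ (Pi.single j 1)
  have hcs2 : ∀ i j, HasCompactSupport (pd i (pd j c)) := fun i j =>
    (hcs1 j).fderiv_apply ℝ (Pi.single i 1)
  obtain ⟨A0, hA0, a0⟩ := bdd_cs hc.continuous hcc
  choose A1 hA1 a1 using fun j => bdd_cs (hc1 j).continuous (hcs1 j)
  choose A2 hA2 a2 using fun i j => bdd_cs (hc2 i j).continuous (hcs2 i j)
  obtain ⟨A, hA⟩ : ∃ A, A = A0 + ∑ j, A1 j + ∑ i, ∑ j, A2 i j := ⟨_, rfl⟩
  have hS1 : 0 ≤ ∑ j, A1 j := Finset.sum_nonneg fun j _ => hA1 j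
  have hS2 : 0 ≤ ∑ i, ∑ j, A2 i j := Finset.sum_nonneg fun i _ =>
    Finset.sum_nonneg fun j _ => hA2 i j
  have hAn : 0 ≤ A := by rw [hA]; positivity
  have b0 : ∀ x, |c x| ≤ A := fun x => (a0 x).trans (by rw [hA]; linarith)
  have b1 : ∀ i x, |pd i c x| ≤ A := fun i x => by
    refine (a1 i x).trans ?_
    have := Finset.single_le_sum (fun j _ => hA1 j) (Finset.mem_univ i)
    rw [hA]; linarith
  have b2 : ∀ i j x, |pd i (pd j c) x| ≤ A := fun i j x => by
    refine (a2 i j x).trans ?_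
    have h1 := Finset.single_le_sum (f := fun j => A2 i j) (fun j _ => hA2 i j)
      (Finset.mem_univ j)
    have h2 := Finset.single_le_sum (f := fun i => ∑ j, A2 i j)
      (fun i _ => Finset.sum_nonneg fun j _ => hA2 i j) (Finset.mem_univ i)
    rw [hA]
    linarith
  choose E hE using fun (a b : ι) (w : W n ι) =>
    hcc.isCompact.exists_bound_of_continuousOn
      (f := fun x => p a b x * S b w x) ((hp a b).mul (hS b w)).continuousOn
  obtain ⟨T, hT⟩ : ∃ T, T = ∑ a, ∑ b, ∑ w : W n ι, |E a b w| := ⟨_, rfl⟩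
  have hT0 : 0 ≤ T := by
    rw [hT]
    exact Finset.sum_nonneg fun a _ => Finset.sum_nonneg fun b _ => Finset.sum_nonneg fun w _ =>
      abs_nonneg _
  refine ⟨3 * A * T + 2 * A, by positivity, fun u x B hu hB hb => ⟨fun a => ?_, fun a => ?_,
    fun a i => ?_⟩⟩
  · by_cases hx : x ∈ tsupport c
    · have e1 : ∑ b, p a b x * cm S c u b x =
          ∑ b, ∑ w : W n ι, (p a b x * S b w x) * cc w.1.1 w.1.2 c (u w.2) x := by
        refine Finset.sum_congr rfl fun b _ => ?_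
        unfold cm
        rw [Finset.mul_sum]
        exact Finset.sum_congr rfl fun w _ => by ring
      rw [e1]
      calc _ ≤ ∑ b, ∑ w : W n ι, |E a b w| * (3 * A * B) := by
            refine (Finset.abs_sum_le_sum_abs _ _).trans (Finset.sum_le_sum fun b _ => ?_)
            refine (Finset.abs_sum_le_sum_abs _ _).trans (Finset.sum_le_sum fun w _ => ?_)
            rw [abs_mul]
            exact mul_le_mul ((hE a b w x hx).trans (le_abs_self _))
              (cc_bd hAn (fun i => b1 i x) (fun i j => b2 i j x) hB (fun o => hb o w.2) _ _)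
              (abs_nonneg _) (abs_nonneg _)
        _ = (∑ b, ∑ w : W n ι, |E a b w|) * (3 * A * B) := by
            rw [Finset.sum_mul]
            exact Finset.sum_congr rfl fun b _ => by rw [Finset.sum_mul]
        _ ≤ T * (3 * A * B) := by
            refine mul_le_mul_of_nonneg_right ?_ (by positivity)
            rw [hT]
            exact Finset.single_le_sum (f := fun a => ∑ b, ∑ w : W n ι, |E a b w|)
              (fun a _ => Finset.sum_nonneg fun b _ => Finset.sum_nonneg fun w _ => abs_nonneg _)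
              (Finset.mem_univ a)
        _ ≤ (3 * A * T + 2 * A) * B := by
            have : 0 ≤ A * B := mul_nonneg hAn hB
            nlinarith
    · have : ∑ b, p a b x * cm S c u b x = 0 := Finset.sum_eq_zero fun b _ => by
        rw [cm_zero S u b (fun i => pd_off_ts hx i) (fun i j => pd2_off_ts hx i j), mul_zero]
      rw [this, abs_zero]
      positivity
  · rw [abs_mul]
    have h1 := mul_le_mul (b0 x) (hb none a) (abs_nonneg _) hAn
    have h2 : 0 ≤ A * B := mul_nonneg hAn hB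
    have h3 : 0 ≤ 3 * A * T * B := by positivity
    have h4 : |c x| * |u a x| ≤ A * B := h1
    nlinarith
  · rw [pd_mul (hc.differentiable (by simp) x) (hu a) i]
    refine (abs_add_le _ _).trans ?_
    rw [abs_mul, abs_mul]
    have h1 := mul_le_mul (b0 x) (hb (some i) a) (abs_nonneg _) hAn
    have h2 := mul_le_mul (hb none a) (b1 i x) (abs_nonneg _) hB
    have h3 : 0 ≤ 3 * A * T * B := by positivity
    have h4 : |c x| * |pd i (u a) x| ≤ A * B := h1
    have h5 : |u a x| * |pd i c x| ≤ B * A := h2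
    nlinarith

end Vale.Agent.P088.HY.TN
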