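import Vale.Agent.P088.R2.H354.N.Trf
import Vale.Agent.P088.R2.H354.Trf3

/-!
# The bound by the far layer for systems (real form): the theorem
-/

open MeasureTheory Set
open scoped ContDiff Matrix Topology

noncomputable section

set_option linter.unusedSectionVars false

namespace Vale.Agent.P088.HY.TN

open Vale.Agent.P088.LR G T3

variable {n : ℕ} {ι : Type} [Fintype ι] {S₁ S₂ : Sys n ι} {M : (ι → V n → ℝ) → ι → V n → ℝ}
  {p : ι → ι → V n → ℝ} {H₁ H₂ : Ib n ι → V n → ℝ} {D Gm O P Fa Fb : Set (V n)}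
  {χ η : V n → ℝ} {r C : ℝ}

/-- **The bound by the far layer for systems (real form).** -/
theorem trfR (hG : GeoN S₁ S₂ M p H₁ H₂ D Gm O P Fa Fb χ η r C) (h3 : StpR D Gm M H₁ H₂) :
    ∃ B : ℝ, 0 ≤ B ∧ ∀ (k : ι → ι → VV n → ℝ) (S : ℝ), 0 ≤ S →
      (∀ a b, ContDiffOn ℝ ∞ (k a b) (O ×ˢ O)) → (∀ a b, ∀ z ∈ O ×ˢ O, opx S₁ k a b z = 0) →
      (∀ a b, ∀ z ∈ O ×ˢ O, opy S₂ k a b z = 0) →
      (∀ x ∈ P, ∀ y ∈ Fb, ∀ a b, |k a b (x, y)| ≤ S ∧ |k a b (y, x)| ≤ S) →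
      |∫ x, χ x * ∑ m : Ib n ι, (H₂ m x - H₁ m x) *
        dx m.1 (jy m.2.1 (k m.2.2.2 m.2.2.1)) (x, x)| ≤ B * S := by
  obtain ⟨c2, c3, hc2, hc3, hex⟩ := ex_traN hG h3
  obtain ⟨K, hK, hcoef⟩ := coef_bdN hG.h₁ hG.h₂ hG.χs hG.χc
  have hO := hG.oO
  have hC := hG.C0
  have hX1 := X1_meas (χ := χ) hG.oG
  have hX2 := X2_meas (χ := χ) hG.oG hG.χs
  have hX1f := X1_fin (Gm := Gm) hG.χc
  have hX2f : volume (X2 χ Gm) < ⊤ := (measure_mono X2_sub).trans_lt hX1f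
  have hDG : MeasurableSet (D \ Gm) := hG.oD.measurableSet.diff hG.oG.measurableSet
  have hvb : 0 ≤ vs n ι r := vs_nonneg r
  obtain ⟨J, hJd⟩ : ∃ J : ℝ, J = Fintype.card (Ib n ι) := ⟨_, rfl⟩
  have hJ0 : 0 ≤ J := by rw [hJd]; positivity
  obtain ⟨L, hLd⟩ : ∃ L : ℝ, L = √(Fintype.card ι) := ⟨_, rfl⟩
  have hL0 : 0 ≤ L := by rw [hLd]; positivity
  obtain ⟨N0, hN0⟩ : ∃ N0, N0 = J * (K * (C * (C * vs n ι r))) * volume.real (X1 χ Gm) :=
    ⟨_, rfl⟩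
  obtain ⟨N1, hN1⟩ : ∃ N1, N1 = J * (K * ((1 + volume.real (X1 χ Gm)) *
    (C * (L * c2 * √(volume.real P)) + 1))) := ⟨_, rfl⟩
  obtain ⟨N2, hN2⟩ : ∃ N2, N2 = J * (K * ((1 + volume.real (X2 χ Gm)) *
    (C * (L * c2 * √(volume.real Fb)) + 1))) := ⟨_, rfl⟩
  obtain ⟨N3, hN3⟩ : ∃ N3, N3 = J * (K * ((1 + volume.real (X2 χ Gm)) *
    (C * (L * (2 * (c2 + (n + 1) * c3)) * √(volume.real Fb)) + 1))) := ⟨_, rfl⟩
  have hN0' : 0 ≤ N0 := by rw [hN0]; positivity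
  have hN1' : 0 ≤ N1 := by rw [hN1]; positivity
  have hN2' : 0 ≤ N2 := by rw [hN2]; positivity
  have hN3' : 0 ≤ N3 := by rw [hN3]; positivity
  obtain ⟨N, hN⟩ : ∃ N, N = N0 + N1 + 2 * N2 + N3 := ⟨_, rfl⟩
  have hN' : 0 ≤ N := by rw [hN]; positivity
  refine ⟨N, hN', fun k S hS hk h1 h2 hfar => ?_⟩
  refine le_of_forall_pos_le_add fun ε hε => ?_
  obtain ⟨δ, hδ, hδε⟩ : ∃ δ : ℝ, 0 < δ ∧ N * δ ≤ ε := by
    refine ⟨ε / (N + 1), by positivity, ?_⟩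
    rw [mul_div_assoc', div_le_iff₀ (by positivity)]
    nlinarith
  obtain ⟨d, e, g, R, hes, hgs, hel, hgl, hRs, hRe, hR1, hR2, hRb⟩ :=
    approxN hG.oO hG.cP hG.PO hk h1 h2 hδ
  have hA : AprN S₁ S₂ O P k R δ e g := ⟨hk, h1, hRs, hR1, hR2, hes, hgs, hel, hgl, hRe, hRb, hδ⟩
  obtain ⟨w, dv, hT⟩ := hex hA hS hfar
  obtain ⟨T, hTdef⟩ : ∃ T, T = S + δ := ⟨_, rfl⟩
  rw [← hTdef] at hT
  have hT0 : 0 < T := by rw [hTdef]; positivity
  have hc1 : ∀ j, ContDiff ℝ ∞ (pd j χ) := fun j =>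
    (hG.χs.fderiv_right (by simp)).clm_apply contDiff_const
  have hcs1 : ∀ j, HasCompactSupport (pd j χ) := fun j => hG.χc.fderiv_apply ℝ (Pi.single j 1)
  have hct1 : ∀ j, tsupport (pd j χ) ⊆ O := fun j =>
    (tsupport_fderiv_apply_subset ℝ _).trans hG.χO
  -- restriction to `X1`
  have hI : ∫ x, χ x * ∑ m : Ib n ι, (H₂ m x - H₁ m x) *
        dx m.1 (jy m.2.1 (k m.2.2.2 m.2.2.1)) (x, x) =
      ∫ x in X1 χ Gm, χ x * ∑ m : Ib n ι, (H₂ m x - H₁ m x) *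
        dx m.1 (jy m.2.1 (k m.2.2.2 m.2.2.1)) (x, x) := by
    refine (setIntegral_eq_integral_of_forall_compl_eq_zero fun x hx => ?_).symm
    by_cases h : x ∈ tsupport χ
    · have hxG : x ∈ Gm ∩ D := ⟨by by_contra h'; exact hx ⟨h, h'⟩, hG.OD (hG.χO h)⟩
      rw [Finset.sum_eq_zero fun m _ => by rw [hG.eqH x hxG m, sub_self, zero_mul], mul_zero]
    · rw [image_eq_zero_of_notMem_tsupport h, zero_mul]
  -- the three parts
  have iR : ∀ m : Ib n ι, IntegrableOn (fun x => (χ x * (H₂ m x - H₁ m x)) *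
      dx m.1 (jy m.2.1 (R m.2.2.2 m.2.2.1)) (x, x)) (X1 χ Gm) := by
    intro m
    have a1 : ContDiff ℝ ∞ fun x => χ x * ((H₂ m x - H₁ m x) *
        dx m.1 (jy m.2.1 (R m.2.2.2 m.2.2.1)) (x, x)) :=
      cut_mul1 hO hG.χs hG.χO (((hG.h₂ m).contDiffOn.sub (hG.h₁ m).contDiffOn).mul
        (cont_diagO hO (cd_dx hO (cd_jy hO (hRs _ _) m.2.1) m.1)))
    exact ((a1.continuous.integrable_of_hasCompactSupport hG.χc.mul_right).integrableOn).congr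
      (Filter.Eventually.of_forall fun x => by
        show χ x * ((H₂ m x - H₁ m x) * dx m.1 (jy m.2.1 (R m.2.2.2 m.2.2.1)) (x, x)) = _
        ring)
  have hσ : ∀ m, ContDiff ℝ ∞ fun x => H₂ m x - H₁ m x := fun m => (hG.h₂ m).sub (hG.h₁ m)
  have hσ' : ∀ m, ContDiff ℝ ∞ fun x => H₁ m x - H₂ m x := fun m => (hG.h₁ m).sub (hG.h₂ m)
  have mE : ∀ q (m : Ib n ι), MemLp (fun x => dv q m.1 m.2.2.2 x -
      pd m.1 (cfN η e q m.2.2.2) x) 2 (volume.restrict (X1 χ Gm)) := fun q m =>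
    ((hT.dl q _ _).mono_measure (Measure.restrict_mono (X1_DN hG) le_rfl)).sub
      (cfN_mem hG hA _ q _ _)
  have iE : ∀ (m : Ib n ι) q, IntegrableOn (fun x => (χ x * (H₂ m x - H₁ m x)) *
      ((dv q m.1 m.2.2.2 x - pd m.1 (cfN η e q m.2.2.2) x) * jd m.2.1 (g q m.2.2.1) x))
      (X1 χ Gm) := fun m q =>
    hintN hO hG.χs hG.χc hG.χO (hσ m) (mE q m) (hgs q _) m.2.1
  have iD : ∀ (m : Ib n ι) q, IntegrableOn (fun x => (χ x * (H₂ m x - H₁ m x)) *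
      (dv q m.1 m.2.2.2 x * jd m.2.1 (g q m.2.2.1) x)) (D \ Gm) := fun m q =>
    hintN hO hG.χs hG.χc hG.χO (hσ m) (hT.dl q _ _) (hgs q _) m.2.1
  have iD1 : ∀ (m : Ib n ι) q, IntegrableOn (fun x => (χ x * (H₂ m x - H₁ m x)) *
      (dv q m.1 m.2.2.2 x * jd m.2.1 (g q m.2.2.1) x)) (X1 χ Gm) := fun m q =>
    (iD m q).mono_set (X1_DN hG)
  have hpe : ∀ x ∈ X1 χ Gm, ∀ q i a, pd i (cfN η e q a) x = pd i (e q a) x := by
    intro x hx q i a
    have h := jd_cg Metric.isOpen_ball (f := cfN η e q a) (g := e q a) (fun y hy => by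
      unfold cfN
      rw [hG.q₂ x hx y hy, one_mul]) (Metric.mem_ball_self hG.r0) (some i)
    exact h
  have hdec : ∀ x ∈ X1 χ Gm, χ x * ∑ m : Ib n ι, (H₂ m x - H₁ m x) *
        dx m.1 (jy m.2.1 (k m.2.2.2 m.2.2.1)) (x, x) =
      (∑ m : Ib n ι, (χ x * (H₂ m x - H₁ m x)) *
        dx m.1 (jy m.2.1 (R m.2.2.2 m.2.2.1)) (x, x)) -
      (∑ q, ∑ m : Ib n ι, (χ x * (H₂ m x - H₁ m x)) *
        ((dv q m.1 m.2.2.2 x - pd m.1 (cfN η e q m.2.2.2) x) * jd m.2.1 (g q m.2.2.1) x)) +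
      ∑ q, ∑ m : Ib n ι, (χ x * (H₂ m x - H₁ m x)) *
        (dv q m.1 m.2.2.2 x * jd m.2.1 (g q m.2.2.1) x) := by
    intro x hx
    have hxO : x ∈ O := hG.χO hx.1
    rw [Finset.sum_comm (s := (Finset.univ : Finset (Fin d))),
      Finset.sum_comm (s := (Finset.univ : Finset (Fin d))), Finset.mul_sum,
      ← Finset.sum_sub_distrib, ← Finset.sum_add_distrib]
    refine Finset.sum_congr rfl fun m _ => ?_
    rw [splitN hO hA hxO m.1 m.2.1 m.2.2.1 m.2.2.2, ← Finset.mul_sum, ← Finset.mul_sum]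
    simp only [hpe x hx]
    have e1 : ∑ q, (dv q m.1 m.2.2.2 x - pd m.1 (e q m.2.2.2) x) * jd m.2.1 (g q m.2.2.1) x =
        (∑ q, dv q m.1 m.2.2.2 x * jd m.2.1 (g q m.2.2.1) x) -
          ∑ q, pd m.1 (e q m.2.2.2) x * jd m.2.1 (g q m.2.2.1) x := by
      rw [← Finset.sum_sub_distrib]
      exact Finset.sum_congr rfl fun q _ => by ring
    rw [e1]
    ring
  have n1 := integrable_finsetSum Finset.univ fun m _ => iR m
  have n2 : ∀ q, IntegrableOn (fun x => ∑ m : Ib n ι, (χ x * (H₂ m x - H₁ m x)) *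
      ((dv q m.1 m.2.2.2 x - pd m.1 (cfN η e q m.2.2.2) x) * jd m.2.1 (g q m.2.2.1) x))
      (X1 χ Gm) := fun q => integrable_finsetSum Finset.univ fun m _ => iE m q
  have n3 : ∀ q, IntegrableOn (fun x => ∑ m : Ib n ι, (χ x * (H₂ m x - H₁ m x)) *
      (dv q m.1 m.2.2.2 x * jd m.2.1 (g q m.2.2.1) x)) (X1 χ Gm) := fun q =>
    integrable_finsetSum Finset.univ fun m _ => iD1 m q
  have hsum : ∫ x in X1 χ Gm, χ x * ∑ m : Ib n ι, (H₂ m x - H₁ m x) *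
        dx m.1 (jy m.2.1 (k m.2.2.2 m.2.2.1)) (x, x) =
      (∫ x in X1 χ Gm, ∑ m : Ib n ι, (χ x * (H₂ m x - H₁ m x)) *
        dx m.1 (jy m.2.1 (R m.2.2.2 m.2.2.1)) (x, x)) -
      (∑ q, ∫ x in X1 χ Gm, ∑ m : Ib n ι, (χ x * (H₂ m x - H₁ m x)) *
        ((dv q m.1 m.2.2.2 x - pd m.1 (cfN η e q m.2.2.2) x) * jd m.2.1 (g q m.2.2.1) x)) +
      ∑ q, ∫ x in X1 χ Gm, ∑ m : Ib n ι, (χ x * (H₂ m x - H₁ m x)) *
        (dv q m.1 m.2.2.2 x * jd m.2.1 (g q m.2.2.1) x) := by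
    rw [setIntegral_congr_fun hX1 hdec, ← integral_finsetSum _ fun q _ => n2 q,
      ← integral_finsetSum _ fun q _ => n3 q]
    have n2' := integrable_finsetSum Finset.univ fun q _ => n2 q
    have n3' := integrable_finsetSum Finset.univ fun q _ => n3 q
    exact int_three n1 n2' n3'
  -- the bound of the first part
  have t0 := termRN hG hA hK hcoef
  rw [← hJd, ← hN0] at t0
  -- the second part
  have t1 := tot_bdN hO hG.ie₂ hC hgs hgl hG.r0 hX1 hX1f hX1 (subset_refl _) hG.cP hG.PO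
    (fun x hx => hG.q₁ x hx) (c := fun (m : Ib n ι) x => χ x * (H₂ m x - H₁ m x))
    (a := fun q (m : Ib n ι) x => dv q m.1 m.2.2.2 x - pd m.1 (cfN η e q m.2.2.2) x)
    (o := fun m => m.2.1) (b := fun m => m.2.2.1) mE
    (fun x hx => absurd hx.1 hx.2) iE hK (fun m x _ => (hcoef x m).1) hc2 hT0
    (fun m y hy b => bEN hG hA hT m.1 m.2.2.2 b hy)
  -- the third part
  have hJ : ∀ q, ∫ x in X1 χ Gm, ∑ m : Ib n ι, (χ x * (H₂ m x - H₁ m x)) *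
      (dv q m.1 m.2.2.2 x * jd m.2.1 (g q m.2.2.1) x) =
      (∫ x in D \ Gm, ∑ m : Ib n ι, (jc m.2.1 χ x * (H₁ m x - H₂ m x)) *
        (dv q m.1 m.2.2.2 x * jd none (g q m.2.2.1) x)) +
      (∫ x in D, ∑ m : Ib n ι, (pd m.1 χ x * H₂ m x) *
        (w q m.2.2.2 x * jd m.2.1 (g q m.2.2.1) x)) -
      ∫ x in D, ∑ m : Ib n ι, (jc m.2.1 χ x * H₂ m x) *
        (pd m.1 (w q m.2.2.2) x * jd none (g q m.2.2.1) x) := by
    intro q
    rw [← JidN hG.oD hO hG.OD hG.h₁ hG.h₂ hG.χs hG.χc hG.χO (hT.ws q) (hT.wG q)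
      (hT.wl1 q) (hT.dl q) (hgs q) (hG.ad (g q) (hgs q) (hgl q)) (hT.wk q)]
    refine (setIntegral_eq_of_subset_of_forall_sdiff_eq_zero hDG (X1_DN hG) fun x hx => ?_).symm
    have hχ0 : χ x = 0 := by
      refine image_eq_zero_of_notMem_tsupport fun h => hx.2 ⟨h, hx.1.2⟩
    exact Finset.sum_eq_zero fun m _ => by rw [hχ0]; ring
  have hX2D : X2 χ Gm ⊆ D \ Gm := X2_sub.trans (X1_DN hG)
  have ta := tot_bdN hO hG.ie₂ hC hgs hgl hG.r0 hX2 hX2f hDG hX2D hG.cF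
    (hG.fbP.trans hG.PO) (X2_ballN hG)
    (c := fun (m : Ib n ι) x => jc m.2.1 χ x * (H₁ m x - H₂ m x))
    (a := fun q (m : Ib n ι) => dv q m.1 m.2.2.2) (o := fun _ => none) (b := fun m => m.2.2.1)
    (fun q m => (hT.dl q _ _).mono_measure (Measure.restrict_mono hX2D le_rfl))
    (fun x hx m q => by
      rw [jc_zero (fun j => X2_off (X' := D \ Gm) (fun x hx => hx.2) hx j)]; ring)
    (fun m q => hintN hO (jc_cd hG.χs m.2.1) (jc_cs hG.χc m.2.1) (jc_ts hG.χO m.2.1) (hσ' m)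
      (hT.dl q _ _) (hgs q _) none)
    hK (fun m x _ => (hcoef x m).2.1) (c' := 2 * (c2 + (n + 1) * c3)) (by positivity) hT0
    (fun m y hy b => by
      have h := bVN hG hA hT (by positivity) (by positivity) m.1 m.2.2.2 b hy
      refine h.trans (le_of_eq ?_)
      ring)
  have w0 : ∀ x ∈ D \ X2 χ Gm, (∀ j, pd j χ x = 0) ∨
      (∀ q a, w q a x = 0 ∧ ∀ i, pd i (w q a) x = 0) := by
    intro x hx
    by_cases hxG : x ∈ Gm
    · refine Or.inr fun q a => ⟨hT.wG q a x ⟨hxG, hx.1⟩, fun i => ?_⟩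
      have h := jd_cg (hG.oG.inter hG.oD) (g := fun _ => 0) (hT.wG q a) ⟨hxG, hx.1⟩ (some i)
      simp only [jd_some] at h
      rw [h]
      unfold pd; simp
    · exact Or.inl fun j => X2_off (X' := D \ Gm) (fun x hx => hx.2) ⟨⟨hx.1, hxG⟩, hx.2⟩ j
  have tb := tot_bdN hO hG.ie₂ hC hgs hgl hG.r0 hX2 hX2f hG.oD.measurableSet
    (hX2D.trans sdiff_subset) hG.cF (hG.fbP.trans hG.PO) (X2_ballN hG)
    (c := fun (m : Ib n ι) x => pd m.1 χ x * H₂ m x)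
    (a := fun q (m : Ib n ι) => w q m.2.2.2) (o := fun m => m.2.1) (b := fun m => m.2.2.1)
    (fun q m => (hT.wl q _).mono_measure
      (Measure.restrict_mono (hX2D.trans sdiff_subset) le_rfl))
    (fun x hx m q => by
      rcases w0 x hx with h | h
      · simp only [h m.1]; ring
      · simp only [(h q _).1]; ring)
    (fun m q => hintN hO (hc1 m.1) (hcs1 m.1) (hct1 m.1) (hG.h₂ m) (hT.wl q _) (hgs q _)
      m.2.1)
    hK (fun m x _ => (hcoef x m).2.2.1) hc2 hT0 (fun m y hy b => (bWN hG hT m.2.2.2 b hy).1)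
  have tc := tot_bdN hO hG.ie₂ hC hgs hgl hG.r0 hX2 hX2f hG.oD.measurableSet
    (hX2D.trans sdiff_subset) hG.cF (hG.fbP.trans hG.PO) (X2_ballN hG)
    (c := fun (m : Ib n ι) x => jc m.2.1 χ x * H₂ m x)
    (a := fun q (m : Ib n ι) => pd m.1 (w q m.2.2.2)) (o := fun _ => none)
    (b := fun m => m.2.2.1)
    (fun q m => (hT.wl1 q _ _).mono_measure
      (Measure.restrict_mono (hX2D.trans sdiff_subset) le_rfl))
    (fun x hx m q => by
      rcases w0 x hx with h | h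
      · simp only [jc_zero h m.2.1]; ring
      · simp only [(h q _).2 m.1]; ring)
    (fun m q => hintN hO (jc_cd hG.χs m.2.1) (jc_cs hG.χc m.2.1) (jc_ts hG.χO m.2.1) (hG.h₂ m)
      (hT.wl1 q _ _) (hgs q _) none)
    hK (fun m x _ => (hcoef x m).2.2.2) hc2 hT0
    (fun m y hy b => (bWN hG hT m.2.2.2 b hy).2 m.1)
  rw [hI, hsum, Finset.sum_congr rfl fun q _ => hJ q, Finset.sum_sub_distrib,
    Finset.sum_add_distrib]
  rw [← hJd, ← hLd] at t1 ta tb tc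
  have f1 : J * (K * ((1 + volume.real (X1 χ Gm)) *
      ((C * (L * c2 * √(volume.real P)) + 1) * T))) = N1 * T := by rw [hN1]; ring
  have f2 : J * (K * ((1 + volume.real (X2 χ Gm)) *
      ((C * (L * c2 * √(volume.real Fb)) + 1) * T))) = N2 * T := by rw [hN2]; ring
  have f3 : J * (K * ((1 + volume.real (X2 χ Gm)) *
      ((C * (L * (2 * (c2 + (n + 1) * c3)) * √(volume.real Fb)) + 1) * T))) = N3 * T := by
    rw [hN3]; ring
  rw [f1] at t1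
  rw [f3] at ta
  rw [f2] at tb tc
  have hδT : N0 * δ ≤ N0 * T := mul_le_mul_of_nonneg_left (by rw [hTdef]; linarith) hN0'
  have hfin : N * T = N * S + N * δ := by rw [hTdef]; ring
  have hfin2 : N * T = N0 * T + N1 * T + 2 * (N2 * T) + N3 * T := by rw [hN]; ring
  have q0 := abs_le.1 t0
  have q1 := abs_le.1 t1
  have qa := abs_le.1 ta
  have qb := abs_le.1 tb
  have qc := abs_le.1 tc
  rw [abs_le]
  constructor
  · linarith [q0.1, q1.2, qa.1, qb.1, qc.2]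
  · linarith [q0.2, q1.1, qa.2, qb.2, qc.1]

end Vale.Agent.P088.HY.TN
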