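import Vale.Agent.P088.R2.H948.T.Real
import Vale.Agent.P088.R2.H354.N.Trf3
import Vale.Agent.P088.R2.H551.V.Defs

/-!
# Real forms of complex systems and kernels
-/

open MeasureTheory Set
open scoped ContDiff Matrix Topology

noncomputable section

set_option linter.unusedSectionVars false

namespace Vale.Agent.P088.HY.TN

open Vale.Agent.P088.LR hiding fr
open Vale.Agent.P088.LR.U Vale.Agent.P088.LR.H158 G T3
open Vale.Agent.P088.PJ (KC SmK dxk dyk Lk Rk TP kp bL bR Zt Qt dgB)
open Vale.Agent.P088.HY.T9 (fl fr cas sumL rM rM_ll rM_lr rM_rl rM_rr rM_mul rM_add rM_neg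
  rM_sub ext4 cV mk_eq contDiff_mk pd_mk contDiff_cV contDiff_rM)

variable {n N : ℕ}

/-! ## Systems with a scalar principal part -/

section

variable {ι : Type} [Fintype ι] [DecidableEq ι] {κ : Type} [Fintype κ] [DecidableEq κ]

/-- The system `∑ s_ij ∂_i ∂_j u_a + ∑ (B_i)_ab ∂_i u_b`. -/
def SL (s : MF n) (B : Fin n → V n → Matrix ι ι ℝ) : Sys n ι := fun a w x =>
  match w with
  | ((some i, some j), b) => if b = a then s x i j else 0
  | ((some i, none), b) => B i x a b
  | ((none, _), _) => 0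

theorem sum_W (f : W n ι → ℝ) : ∑ w, f w =
    (∑ i, ∑ j, ∑ b, f ((some i, some j), b)) + (∑ i, ∑ b, f ((some i, none), b)) +
      ((∑ j, ∑ b, f ((none, some j), b)) + ∑ b, f ((none, none), b)) := by
  rw [Fintype.sum_prod_type, Fintype.sum_prod_type, Fintype.sum_option]
  simp only [Fintype.sum_option, Finset.sum_add_distrib]
  ring

theorem op_SL (s : MF n) (B : Fin n → V n → Matrix ι ι ℝ) (u : ι → V n → ℝ) (a : ι) (x : V n) :
    op (SL s B) u a x = (∑ i, ∑ j, s x i j * pd i (pd j (u a)) x) +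
      ∑ i, ∑ b, B i x a b * pd i (u b) x := by
  unfold op
  rw [sum_W]
  simp [SL]

theorem opx_SL (s : MF n) (B : Fin n → V n → Matrix ι ι ℝ) (k : ι → κ → VV n → ℝ) (a : ι) (b : κ)
    (z : VV n) : opx (SL s B) k a b z = (∑ i, ∑ j, s z.1 i j * dx i (dx j (k a b)) z) +
      ∑ i, ∑ c, B i z.1 a c * dx i (k c b) z := by
  unfold opx
  rw [sum_W]
  simp [SL]

theorem opy_SL (s : MF n) (B : Fin n → V n → Matrix κ κ ℝ) (k : ι → κ → VV n → ℝ) (a : ι) (b : κ)
    (z : VV n) : opy (SL s B) k a b z = (∑ i, ∑ j, s z.2 i j * dy i (dy j (k a b)) z) +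
      ∑ i, ∑ c, B i z.2 b c * dy i (k a c) z := by
  unfold opy
  rw [sum_W]
  simp [SL]

theorem cont_SL {s : MF n} (hs : SmM s) {B : Fin n → V n → Matrix ι ι ℝ}
    (hB : ∀ i a b, Continuous fun x => B i x a b) (a : ι) (w : W n ι) :
    Continuous (SL s B a w) := by
  obtain ⟨⟨o, o'⟩, b⟩ := w
  cases o with
  | none => exact continuous_const
  | some i =>
    cases o' with
    | none => exact hB i a b
    | some j =>
      show Continuous fun x => if b = a then s x i j else 0
      by_cases h : b = a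
      · simp only [h, if_true]
        exact (hs i j).continuous
      · simp only [h, if_false]
        exact continuous_const

end

/-! ## The real form of complex vectors -/

/-- The real form of a complex vector. -/
def rv (v : Fin N → ℂ) (p : Fin (N + N)) : ℝ :=
  Fin.addCases (motive := fun _ => ℝ) (fun a => (v a).re) (fun a => (v a).im) p

@[simp] theorem rv_l (v : Fin N → ℂ) (a : Fin N) : rv v (fl a) = (v a).re := by
  unfold rv fl
  rw [Fin.addCases_left]

@[simp] theorem rv_r (v : Fin N → ℂ) (a : Fin N) : rv v (fr a) = (v a).im := by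
  unfold rv fr
  rw [Fin.addCases_right]

theorem rv_cV (u : Fin (N + N) → V n → ℝ) (x : V n) (p : Fin (N + N)) :
    rv (cV u x) p = u p x := by
  refine cas (P := fun p => rv (cV u x) p = u p x) (fun a => ?_) (fun a => ?_) p
  · rw [rv_l]; rfl
  · rw [rv_r]; rfl

theorem rv_add (v w : Fin N → ℂ) (p : Fin (N + N)) : rv (v + w) p = rv v p + rv w p := by
  refine cas (P := fun p => rv (v + w) p = rv v p + rv w p) (fun a => ?_) (fun a => ?_) p
  · simp
  · simp

theorem rv_sub (v w : Fin N → ℂ) (p : Fin (N + N)) : rv (v - w) p = rv v p - rv w p := by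
  refine cas (P := fun p => rv (v - w) p = rv v p - rv w p) (fun a => ?_) (fun a => ?_) p
  · simp
  · simp

theorem rv_smul (c : ℝ) (v : Fin N → ℂ) (p : Fin (N + N)) : rv ((c : ℂ) • v) p = c * rv v p := by
  refine cas (P := fun p => rv ((c : ℂ) • v) p = c * rv v p) (fun a => ?_) (fun a => ?_) p
  · simp
  · simp

theorem rv_zero (p : Fin (N + N)) : rv (0 : Fin N → ℂ) p = 0 := by
  refine cas (P := fun p => rv (0 : Fin N → ℂ) p = 0) (fun a => ?_) (fun a => ?_) p
  · simp
  · simp

theorem rv_sum {I : Type*} (s : Finset I) (f : I → Fin N → ℂ) (p : Fin (N + N)) :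
    rv (∑ q ∈ s, f q) p = ∑ q ∈ s, rv (f q) p := by
  classical
  induction s using Finset.induction_on with
  | empty => simpa using rv_zero p
  | insert a s ha ih => rw [Finset.sum_insert ha, Finset.sum_insert ha, rv_add, ih]

theorem rv_mulVec (M : Matrix (Fin N) (Fin N) ℂ) (v : Fin N → ℂ) (p : Fin (N + N)) :
    rv (M *ᵥ v) p = ∑ q, rM M p q * rv v q := by
  refine cas (P := fun p => rv (M *ᵥ v) p = ∑ q, rM M p q * rv v q) (fun a => ?_) (fun a => ?_) p
  · rw [rv_l, sumL]
    simp only [rM_ll, rM_lr, rv_l, rv_r, Matrix.mulVec, dotProduct, Complex.re_sum,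
      Complex.mul_re, ← Finset.sum_add_distrib]
    exact Finset.sum_congr rfl fun b _ => by ring
  · rw [rv_r, sumL]
    simp only [rM_rl, rM_rr, rv_l, rv_r, Matrix.mulVec, dotProduct, Complex.im_sum,
      Complex.mul_im, ← Finset.sum_add_distrib]
    exact Finset.sum_congr rfl fun b _ => by ring

theorem sum_rv_sq (v : Fin N → ℂ) : ∑ p, rv v p ^ 2 = ∑ a, ‖v a‖ ^ 2 := by
  rw [sumL, ← Finset.sum_add_distrib]
  refine Finset.sum_congr rfl fun a _ => ?_
  rw [rv_l, rv_r, ← Complex.normSq_eq_norm_sq, Complex.normSq_apply]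
  ring

/-- The complex row of a real one. -/
def cW (u : Fin (N + N) → V n → ℝ) (x : V n) (b : Fin N) : ℂ := ⟨u (fl b) x, -u (fr b) x⟩

theorem re_cW (u : Fin (N + N) → V n → ℝ) (x : V n) (v : Fin N → ℂ) :
    (cW u x ⬝ᵥ v).re = ∑ p, u p x * rv v p := by
  rw [sumL]
  simp only [dotProduct, cW, Complex.re_sum, Complex.mul_re, rv_l, rv_r,
    ← Finset.sum_add_distrib]
  exact Finset.sum_congr rfl fun b _ => by ring

/-! ## `rM` is linear -/

theorem rM_smul (c : ℝ) (M : Matrix (Fin N) (Fin N) ℂ) : rM ((c : ℂ) • M) = c • rM M := by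
  refine ext4 (fun a b => ?_) (fun a b => ?_) (fun a b => ?_) fun a b => ?_ <;>
  simp only [rM_ll, rM_lr, rM_rl, rM_rr, Matrix.smul_apply, smul_eq_mul, Complex.mul_re,
    Complex.mul_im, Complex.ofReal_re, Complex.ofReal_im, zero_mul, sub_zero, add_zero]
  ring

theorem rM_zero : rM (0 : Matrix (Fin N) (Fin N) ℂ) = 0 := by
  refine ext4 (fun a b => ?_) (fun a b => ?_) (fun a b => ?_) fun a b => ?_ <;>
  simp

theorem rM_sum {I : Type*} (s : Finset I) (f : I → Matrix (Fin N) (Fin N) ℂ) :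
    rM (∑ q ∈ s, f q) = ∑ q ∈ s, rM (f q) := by
  classical
  induction s using Finset.induction_on with
  | empty => simpa using rM_zero
  | insert a s ha ih => rw [Finset.sum_insert ha, Finset.sum_insert ha, rM_add, ih]

theorem trace_rM (M : Matrix (Fin N) (Fin N) ℂ) : ∑ p, rM M p p = 2 * M.trace.re := by
  rw [sumL]
  simp only [rM_ll, rM_rr, Matrix.trace, Matrix.diag, Complex.re_sum]
  ring

theorem abs_rM_le {M : Matrix (Fin N) (Fin N) ℂ} {S : ℝ} (h : ∀ a b, ‖M a b‖ ≤ S)
    (p q : Fin (N + N)) : |rM M p q| ≤ S := by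
  have hre : ∀ a b, |(M a b).re| ≤ S := fun a b => (Complex.abs_re_le_norm _).trans (h a b)
  have him : ∀ a b, |(M a b).im| ≤ S := fun a b => (Complex.abs_im_le_norm _).trans (h a b)
  refine cas (P := fun p => |rM M p q| ≤ S) (fun a => ?_) (fun a => ?_) p
  · refine cas (P := fun q => |rM M (fl a) q| ≤ S) (fun b => ?_) (fun b => ?_) q
    · rw [rM_ll]; exact hre a b
    · rw [rM_lr, abs_neg]; exact him a b
  · refine cas (P := fun q => |rM M (fr a) q| ≤ S) (fun b => ?_) (fun b => ?_) q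
    · rw [rM_rl]; exact him a b
    · rw [rM_rr]; exact hre a b

/-! ## Real and imaginary parts of functions -/

section

variable {E : Type*} [NormedAddCommGroup E] [NormedSpace ℝ E]

theorem fd_re {f : E → ℂ} {z : E} (hf : DifferentiableAt ℝ f z) (v : E) :
    fderiv ℝ (fun z => (f z).re) z v = (fderiv ℝ f z v).re := by
  have h := (Complex.reCLM.hasFDerivAt.comp z hf.hasFDerivAt).fderiv
  have h2 : fderiv ℝ (fun z => (f z).re) z = Complex.reCLM.comp (fderiv ℝ f z) := h
  rw [h2]; rfl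

theorem fd_im {f : E → ℂ} {z : E} (hf : DifferentiableAt ℝ f z) (v : E) :
    fderiv ℝ (fun z => (f z).im) z v = (fderiv ℝ f z v).im := by
  have h := (Complex.imCLM.hasFDerivAt.comp z hf.hasFDerivAt).fderiv
  have h2 : fderiv ℝ (fun z => (f z).im) z = Complex.imCLM.comp (fderiv ℝ f z) := h
  rw [h2]; rfl

/-- The derivative of the real form of a matrix valued function. -/
theorem fd_rM {F : E → Matrix (Fin N) (Fin N) ℂ} {z : E}
    (hF : ∀ a b, DifferentiableAt ℝ (fun z => F z a b) z) (v : E) (p q : Fin (N + N)) :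
    fderiv ℝ (fun z => rM (F z) p q) z v =
      rM (Matrix.of fun a b => fderiv ℝ (fun z => F z a b) z v) p q := by
  refine cas (P := fun p => fderiv ℝ (fun z => rM (F z) p q) z v =
      rM (Matrix.of fun a b => fderiv ℝ (fun z => F z a b) z v) p q) (fun a => ?_) (fun a => ?_) p
  · refine cas (P := fun q => fderiv ℝ (fun z => rM (F z) (fl a) q) z v =
      rM (Matrix.of fun a b => fderiv ℝ (fun z => F z a b) z v) (fl a) q) (fun b => ?_)
      (fun b => ?_) q
    · simp only [rM_ll, Matrix.of_apply]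
      exact fd_re (hF a b) v
    · simp only [rM_lr, Matrix.of_apply]
      rw [fderiv_fun_neg]
      show -(fderiv ℝ (fun z => (F z a b).im) z v) = _
      rw [fd_im (hF a b) v]
  · refine cas (P := fun q => fderiv ℝ (fun z => rM (F z) (fr a) q) z v =
      rM (Matrix.of fun a b => fderiv ℝ (fun z => F z a b) z v) (fr a) q) (fun b => ?_)
      (fun b => ?_) q
    · simp only [rM_rl, Matrix.of_apply]
      exact fd_im (hF a b) v
    · simp only [rM_rr, Matrix.of_apply]
      exact fd_re (hF a b) v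

theorem cdo_rM {F : E → Matrix (Fin N) (Fin N) ℂ} {U : Set E}
    (hF : ∀ a b, ContDiffOn ℝ ∞ (fun z => F z a b) U) (p q : Fin (N + N)) :
    ContDiffOn ℝ ∞ (fun z => rM (F z) p q) U := by
  have hre : ∀ a b, ContDiffOn ℝ ∞ (fun z => (F z a b).re) U := fun a b =>
    Complex.reCLM.contDiff.comp_contDiffOn (hF a b)
  have him : ∀ a b, ContDiffOn ℝ ∞ (fun z => (F z a b).im) U := fun a b =>
    Complex.imCLM.contDiff.comp_contDiffOn (hF a b)
  refine cas (P := fun p => ContDiffOn ℝ ∞ (fun z => rM (F z) p q) U) (fun a => ?_) (fun a => ?_) p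
  · refine cas (P := fun q => ContDiffOn ℝ ∞ (fun z => rM (F z) (fl a) q) U) (fun b => ?_)
      (fun b => ?_) q
    · simpa only [rM_ll] using hre a b
    · simpa only [rM_lr] using (him a b).neg
  · refine cas (P := fun q => ContDiffOn ℝ ∞ (fun z => rM (F z) (fr a) q) U) (fun b => ?_)
      (fun b => ?_) q
    · simpa only [rM_rl] using him a b
    · simpa only [rM_rr] using hre a b

end

/-! ## Kernels -/

/-- The real form of a kernel. -/
def kR (K : KC n N) (a b : Fin (N + N)) : VV n → ℝ := fun z => rM (K z) a b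

section

variable {U : Set (VV n)} {K : KC n N}

theorem SmK.da (hU : IsOpen U) (hK : SmK U K) {z : VV n} (hz : z ∈ U) (a b : Fin N) :
    DifferentiableAt ℝ (fun z => K z a b) z :=
  ((hK a b).contDiffAt (hU.mem_nhds hz)).differentiableAt (by simp)

theorem SmK.dx (hU : IsOpen U) (hK : SmK U K) (i : Fin n) : SmK U (dxk i K) := fun a b =>
  ((hK a b).fderiv_of_isOpen hU (m := ∞) (by simp)).clm_apply contDiffOn_const

theorem SmK.dy (hU : IsOpen U) (hK : SmK U K) (i : Fin n) : SmK U (dyk i K) := fun a b =>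
  ((hK a b).fderiv_of_isOpen hU (m := ∞) (by simp)).clm_apply contDiffOn_const

theorem cd_kR (hK : SmK U K) (a b : Fin (N + N)) : ContDiffOn ℝ ∞ (kR K a b) U := cdo_rM hK a b

theorem dx_kR (hU : IsOpen U) (hK : SmK U K) {z : VV n} (hz : z ∈ U) (i : Fin n)
    (a b : Fin (N + N)) : dx i (kR K a b) z = kR (dxk i K) a b z :=
  fd_rM (fun a b => SmK.da hU hK hz a b) _ a b

theorem dy_kR (hU : IsOpen U) (hK : SmK U K) {z : VV n} (hz : z ∈ U) (i : Fin n)
    (a b : Fin (N + N)) : dy i (kR K a b) z = kR (dyk i K) a b z :=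
  fd_rM (fun a b => SmK.da hU hK hz a b) _ a b

theorem dx_cgO (hU : IsOpen U) {f g : VV n → ℝ} (h : ∀ z ∈ U, f z = g z) {z : VV n} (hz : z ∈ U)
    (i : Fin n) : dx i f z = dx i g z := by
  have h1 : f =ᶠ[𝓝 z] g := Filter.eventually_of_mem (hU.mem_nhds hz) h
  unfold HY.dx
  rw [h1.fderiv_eq]

theorem dy_cgO (hU : IsOpen U) {f g : VV n → ℝ} (h : ∀ z ∈ U, f z = g z) {z : VV n} (hz : z ∈ U)
    (i : Fin n) : dy i f z = dy i g z := by
  have h1 : f =ᶠ[𝓝 z] g := Filter.eventually_of_mem (hU.mem_nhds hz) h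
  unfold HY.dy
  rw [h1.fderiv_eq]

theorem dxx_kR (hU : IsOpen U) (hK : SmK U K) {z : VV n} (hz : z ∈ U) (i j : Fin n)
    (a b : Fin (N + N)) : dx i (dx j (kR K a b)) z = kR (dxk i (dxk j K)) a b z := by
  rw [dx_cgO hU (fun z hz => dx_kR hU hK hz j a b) hz i, dx_kR hU (SmK.dx hU hK j) hz]

theorem dyy_kR (hU : IsOpen U) (hK : SmK U K) {z : VV n} (hz : z ∈ U) (i j : Fin n)
    (a b : Fin (N + N)) : dy i (dy j (kR K a b)) z = kR (dyk i (dyk j K)) a b z := by
  rw [dy_cgO hU (fun z hz => dy_kR hU hK hz j a b) hz i, dy_kR hU (SmK.dy hU hK j) hz]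

theorem dxy_kR (hU : IsOpen U) (hK : SmK U K) {z : VV n} (hz : z ∈ U) (i j : Fin n)
    (a b : Fin (N + N)) : dx i (dy j (kR K a b)) z = kR (dxk i (dyk j K)) a b z := by
  rw [dx_cgO hU (fun z hz => dy_kR hU hK hz j a b) hz i, dx_kR hU (SmK.dy hU hK j) hz]

/-- The left operator. -/
theorem opx_kR (hU : IsOpen U) (hK : SmK U K) {z : VV n} (hz : z ∈ U) (s : MF n)
    (β : Fin n → MC n N) (a b : Fin (N + N)) :
    opx (SL s fun i x => rM (β i x)) (kR K) a b z = rM (Lk s β K z) a b := by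
  rw [opx_SL]
  simp only [dxx_kR hU hK hz, dx_kR hU hK hz]
  unfold Lk kR
  rw [rM_add, rM_sum, rM_sum, Matrix.add_apply, Matrix.sum_apply, Matrix.sum_apply]
  congr 1
  · refine Finset.sum_congr rfl fun i _ => ?_
    rw [rM_sum, Matrix.sum_apply]
    refine Finset.sum_congr rfl fun j _ => ?_
    rw [rM_smul, Matrix.smul_apply, smul_eq_mul]
  · refine Finset.sum_congr rfl fun i _ => ?_
    rw [rM_mul, Matrix.mul_apply]

/-- The right operator. -/
theorem opy_kR (hU : IsOpen U) (hK : SmK U K) {z : VV n} (hz : z ∈ U) (s : MF n)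
    (β : Fin n → MC n N) (a b : Fin (N + N)) :
    opy (SL s fun i x => (rM (β i x))ᵀ) (kR K) a b z = rM (Rk s β K z) a b := by
  rw [opy_SL]
  simp only [dyy_kR hU hK hz, dy_kR hU hK hz]
  unfold Rk kR
  rw [rM_add, rM_sum, rM_sum, Matrix.add_apply, Matrix.sum_apply, Matrix.sum_apply]
  congr 1
  · refine Finset.sum_congr rfl fun i _ => ?_
    rw [rM_sum, Matrix.sum_apply]
    refine Finset.sum_congr rfl fun j _ => ?_
    rw [rM_smul, Matrix.smul_apply, smul_eq_mul]
  · refine Finset.sum_congr rfl fun i _ => ?_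
    rw [rM_mul, Matrix.mul_apply]
    refine Finset.sum_congr rfl fun c _ => ?_
    rw [Matrix.transpose_apply, mul_comm]

end

end Vale.Agent.P088.HY.TN
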