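import Vale.Agent.P088.R2.H354.Ine
import Vale.Agent.P088.R2.H354.N.Rl
import Vale.Agent.P088.R2.H901.VecB
import Vale.Agent.P088.R2.H901.Inv
import Vale.Agent.P088.R2.H901.Inp

/-!
# The interior estimate for systems at a fixed scale
-/

open MeasureTheory Set
open scoped ContDiff Matrix Topology

noncomputable section

set_option linter.unusedSectionVars false

namespace Vale.Agent.P088.HY.TN

open Vale.Agent.P088.LR G T3 EI

variable {n : ℕ} {ι : Type} [Fintype ι] [DecidableEq ι]

/-- Derivatives are bounded on compact sets. -/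
theorem iter_bdd {f : V n → ℝ} (hf : ContDiff ℝ ∞ f) {Q : Set (V n)} (hQ : IsCompact Q) (k : ℕ) :
    ∃ A : ℝ, 0 ≤ A ∧ ∀ l ≤ k, ∀ x ∈ Q, ‖iteratedFDeriv ℝ l f x‖ ≤ A := by
  have h : ∀ l : ℕ, ∃ A : ℝ, 0 ≤ A ∧ ∀ x ∈ Q, ‖iteratedFDeriv ℝ l f x‖ ≤ A := by
    intro l
    obtain ⟨A, hA⟩ := hQ.exists_bound_of_continuousOn
      (hf.continuous_iteratedFDeriv (m := l) (by exact_mod_cast le_top)).continuousOn
    exact ⟨max A 0, le_max_right _ _, fun x hx => (hA x hx).trans (le_max_left _ _)⟩
  choose A hA0 hA using h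
  refine ⟨∑ l ∈ Finset.range (k + 1), A l, Finset.sum_nonneg fun l _ => hA0 l,
    fun l hl x hx => (hA l x hx).trans ?_⟩
  exact Finset.single_le_sum (f := A) (fun l _ => hA0 l) (Finset.mem_range.2 (by omega))

/-- The interior estimate at the scale `t`. -/
theorem intS_of (n : ℕ) (ι : Type) [Fintype ι] [DecidableEq ι] (s : MF n)
    (B : Fin n → V n → Matrix ι ι ℝ) (hs : SmM s)
    (hc : ∀ i j, Cl (Fintype.card (Fin n) + 1 + 1) (1 / (2 * Fintype.card (Fin n) + 2))
      (fun x => s x i j - (1 : Matrix (Fin n) (Fin n) ℝ) i j))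
    (hB : ∀ i a b, ContDiff ℝ ∞ fun x => B i x a b) (R : ℝ) (O : Set (V n))
    (hO : O ⊆ Metric.closedBall 0 R) (t : ℝ) (ht : 0 < t) (ht1 : t ≤ 1) :
    ∃ C : ℝ, 0 ≤ C ∧ IntS (SL s B) O (2 * t) C := by
  obtain ⟨k, hk⟩ : ∃ k, k = Fintype.card (Fin n) + 1 := ⟨_, rfl⟩
  -- the bounds of the first order coefficients
  have hbd : ∀ i a b, ∃ A : ℝ, 0 ≤ A ∧ ∀ l ≤ k, ∀ x ∈ Metric.closedBall (0 : V n) R,
      ‖iteratedFDeriv ℝ l (fun x => B i x a b) x‖ ≤ A := fun i a b =>
    iter_bdd (hB i a b) (isCompact_closedBall 0 R) k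
  choose A hA0 hA using hbd
  obtain ⟨M, hM⟩ : ∃ M : ℝ, M = ∑ i, ∑ a, ∑ b, A i a b := ⟨_, rfl⟩
  have hM0 : 0 ≤ M := by
    rw [hM]
    exact Finset.sum_nonneg fun i _ => Finset.sum_nonneg fun a _ =>
      Finset.sum_nonneg fun b _ => hA0 i a b
  have hAM : ∀ i a b, A i a b ≤ M := by
    intro i a b
    rw [hM]
    calc A i a b ≤ ∑ b, A i a b :=
          Finset.single_le_sum (f := A i a) (fun b _ => hA0 i a b) (Finset.mem_univ b)
      _ ≤ ∑ a, ∑ b, A i a b := Finset.single_le_sum (f := fun a => ∑ b, A i a b)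
          (fun a _ => Finset.sum_nonneg fun b _ => hA0 i a b) (Finset.mem_univ a)
      _ ≤ _ := Finset.single_le_sum (f := fun i => ∑ a, ∑ b, A i a b)
          (fun i _ => Finset.sum_nonneg fun a _ => Finset.sum_nonneg fun b _ => hA0 i a b)
          (Finset.mem_univ i)
  obtain ⟨C, hC, h⟩ := corev (P := ι) (volume : Measure (V n)) (Pi.basisFun ℝ (Fin n)) 1 M hM0
  refine ⟨C * √((t ^ n)⁻¹) * t⁻¹, by positivity, ?_⟩
  intro p hp u hu hL hint o a
  have hmap : ∀ x ∈ Metric.ball (0 : V n) 2, p + t • x ∈ Metric.ball p (2 * t) := by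
    intro x hx
    rw [mem_ball_zero_iff] at hx
    rw [Metric.mem_ball, dist_eq_norm, add_sub_cancel_left, norm_smul,
      Real.norm_of_nonneg ht.le]
    nlinarith
  have hop : IsOpen (Metric.ball p (2 * t)) := Metric.isOpen_ball
  have hob : IsOpen (Metric.ball (0 : V n) 2) := Metric.isOpen_ball
  have haff : ContDiff ℝ ∞ fun x : V n => p + t • x :=
    contDiff_const.add (contDiff_id.const_smul t)
  have hw' : ∀ b, ContDiffOn ℝ ∞ (fun x => u b (p + t • x)) (Metric.ball 0 2) := fun b =>
    (hu b).comp haff.contDiffOn hmap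
  have hint' : ∀ b, IntegrableOn (fun x => u b (p + t • x) ^ 2) (Metric.ball 0 2) := by
    intro b
    have h1 : IntegrableOn (fun x => u b (p + x) ^ 2) (Metric.ball (0 : V n) (t * 2)) := by
      have h2 : (fun x => p + x) ⁻¹' (Metric.ball p (2 * t)) = Metric.ball (0 : V n) (t * 2) := by
        ext x
        simp [mul_comm]
      rw [← h2]
      exact ((measurePreserving_add_left volume p).integrableOn_comp_preimage
        (measurableEmbedding_addLeft p)).2 (hint b)
    have h3 : Metric.ball (0 : V n) 2 = (fun x => t • x) ⁻¹' Metric.ball (0 : V n) (t * 2) := by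
      ext x
      rw [mem_preimage, mem_ball_zero_iff, mem_ball_zero_iff, norm_smul,
        Real.norm_of_nonneg ht.le]
      exact (mul_lt_mul_iff_right₀ ht).symm
    have h4 := (integrable_comp_smul_iff (μ := (volume : Measure (V n)))
      ((Metric.ball (0 : V n) (t * 2)).indicator fun x => u b (p + x) ^ 2) ht.ne').2
      ((integrable_indicator_iff measurableSet_ball).2 h1)
    rw [← integrable_indicator_iff measurableSet_ball]
    refine h4.congr (Filter.Eventually.of_forall fun x => ?_)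
    show (Metric.ball (0 : V n) (t * 2)).indicator (fun x => u b (p + x) ^ 2) (t • x) = _
    by_cases hx : x ∈ Metric.ball (0 : V n) 2
    · rw [indicator_of_mem hx, indicator_of_mem (by rw [h3] at hx; exact hx)]
    · rw [indicator_of_notMem hx, indicator_of_notMem (by rw [h3] at hx; exact hx)]
  -- derivatives
  have d1 : ∀ (b : ι) (q : Fin n), ∀ x ∈ Metric.ball (0 : V n) 2,
      D (Pi.basisFun ℝ (Fin n)) q (fun x => u b (p + t • x)) x = t * pd q (u b) (p + t • x) := by
    intro b q x hx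
    rw [← D_pd q (u b)]
    exact D_scale (da hop (hu b) (hmap x hx)) q
  have d2 : ∀ (b : ι) (q r : Fin n), ∀ x ∈ Metric.ball (0 : V n) 2,
      D (Pi.basisFun ℝ (Fin n)) q (D (Pi.basisFun ℝ (Fin n)) r fun x => u b (p + t • x)) x =
      t ^ 2 * pd q (pd r (u b)) (p + t • x) := by
    intro b q r x hx
    have hx' := hmap x hx
    have hdd : DifferentiableAt ℝ (fun x => pd r (u b) (p + t • x)) x :=
      da hob ((contDiffOn_pd hop (hu b) r).comp haff.contDiffOn hmap) hx
    rw [D_congr hob (d1 b r) hx q, D_mul (differentiableAt_const _) hdd, D_const, zero_mul,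
      add_zero, D_scale (da hop (contDiffOn_pd hop (hu b) r) hx') q, D_pd q]
    ring
  have hSY : SY (Pi.basisFun ℝ (Fin n)) (Fintype.card (Fin n) + 1) M
      (fun i j x => s (p + t • x) i j) (fun a b l x => t * B l (p + t • x) a b)
      (fun _ _ _ => (0 : ℝ)) := by
    refine ⟨?_, ?_, ?_, ?_, ?_⟩
    · refine CO_of (a := fun x => s (p + t • x)) (fun i j => ((hs i j).comp haff).contDiffOn) ?_
      intro i j l hl x _
      have h1 : ContDiff ℝ ∞ fun x => s x i j - (1 : Matrix (Fin n) (Fin n) ℝ) i j :=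
        (hs i j).sub contDiff_const
      exact (iter_comp_aff h1 ht.le ht1 l).trans (hc i j l hl _)
    · exact fun a b l => contDiffOn_const.mul ((hB l a b).comp haff).contDiffOn
    · exact fun a b => contDiffOn_const
    · intro a b l
      have hsm : ContDiff ℝ ∞ fun x => B l (p + t • x) a b := (hB l a b).comp haff
      have h1 := Bd_of (b := Pi.basisFun ℝ (Fin n)) hob le_rfl norm_bF hM0
        (f := fun x => t * B l (p + t • x) a b) (contDiff_const.mul hsm).contDiffOn
        (Fintype.card (Fin n) + 1) (by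
          intro m hm x hx
          have h2 : iteratedFDeriv ℝ m (fun x => t * B l (p + t • x) a b) x =
              t • iteratedFDeriv ℝ m (fun x => B l (p + t • x) a b) x := by
            have h3 : (fun x => t * B l (p + t • x) a b) =
              t • fun x => B l (p + t • x) a b := rfl
            rw [h3]
            exact iteratedFDeriv_const_smul_apply
              ((hsm.of_le (by exact_mod_cast le_top)).contDiffAt)
          rw [h2, norm_smul, Real.norm_of_nonneg ht.le]
          have h4 := (iter_comp_aff (x := x) (p := p) (hB l a b) ht.le ht1 m).trans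
            (hA l a b m (by omega) _ (hO (hp (hmap x hx))))
          calc t * _ ≤ 1 * M := mul_le_mul ht1 (h4.trans (hAM l a b)) (norm_nonneg _) zero_le_one
            _ = M := one_mul M)
      rwa [one_pow, mul_one] at h1
    · intro a b
      have h1 := Bd_of (b := Pi.basisFun ℝ (Fin n)) hob le_rfl norm_bF hM0
        (f := fun _ => (0 : ℝ)) contDiffOn_const (Fintype.card (Fin n) + 1) (by
          intro m hm x hx
          have : iteratedFDeriv ℝ m (fun _ : V n => (0 : ℝ)) x = 0 := by
            rw [iteratedFDeriv_fun_zero]; rfl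
          rw [this, norm_zero]
          exact hM0)
      rwa [one_pow, mul_one] at h1
  have hSys : ∀ b, ∀ x ∈ Metric.ball (0 : V n) 2, Sys (Pi.basisFun ℝ (Fin n))
      (fun i j x => s (p + t • x) i j) (fun a b l x => t * B l (p + t • x) a b)
      (fun _ _ _ => (0 : ℝ)) (fun b x => u b (p + t • x)) b x = 0 := by
    intro b x hx
    unfold EI.Sys Lc Lo
    simp only [d1 _ _ x hx, d2 _ _ _ x hx, zero_mul, add_zero]
    have h1 := hL b _ (hmap x hx)
    rw [op_SL, Finset.sum_comm (s := Finset.univ (α := Fin n)) (t := Finset.univ (α := ι))] at h1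
    have h2 : t ^ 2 * ((∑ i, ∑ j, s (p + t • x) i j * pd i (pd j (u b)) (p + t • x)) +
        ∑ c, ∑ i, B i (p + t • x) b c * pd i (u c) (p + t • x)) = 0 := by rw [h1, mul_zero]
    rw [mul_add, Finset.mul_sum, Finset.mul_sum] at h2
    simp only [Finset.mul_sum] at h2
    rw [← h2]
    congr 1
    · exact Finset.sum_congr rfl fun i _ => Finset.sum_congr rfl fun j _ => by ring
    · exact Finset.sum_congr rfl fun i _ => Finset.sum_congr rfl fun j _ => by ring
  have hBd0 : ∀ b, Bd (Pi.basisFun ℝ (Fin n)) (Fintype.card (Fin n) + 1) (Metric.ball 0 2) 0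
      (Sys (Pi.basisFun ℝ (Fin n))
      (fun i j x => s (p + t • x) i j) (fun a b l x => t * B l (p + t • x) a b)
      (fun _ _ _ => (0 : ℝ)) (fun b x => u b (p + t • x)) b) := by
    intro b
    have h1 := Bd_of (b := Pi.basisFun ℝ (Fin n)) hob le_rfl norm_bF le_rfl
      (f := fun _ => (0 : ℝ)) contDiffOn_const (Fintype.card (Fin n) + 1) (by
        intro m hm x hx
        have : iteratedFDeriv ℝ m (fun _ : V n => (0 : ℝ)) x = 0 := by
          rw [iteratedFDeriv_fun_zero]; rfl
        rw [this, norm_zero])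
    rw [one_pow, mul_one] at h1
    exact h1.congr hob fun x hx => (hSys b x hx).symm
  have hsub : Metric.ball (0 : V n) 1 ⊆ Metric.ball 0 2 := Metric.ball_subset_ball (by norm_num)
  have key := h _ _ _ hSY (fun b x => u b (p + t • x)) hw' hint' 0 le_rfl hBd0
  simp only [add_zero] at key
  have hsum : ∑ b, ∫ x in Metric.ball (0 : V n) 2, u b (p + t • x) ^ 2 =
      (t ^ n)⁻¹ * ∑ b, ∫ x in Metric.ball p (2 * t), u b x ^ 2 := by
    rw [Finset.mul_sum]
    exact Finset.sum_congr rfl fun b _ => integral_aff (fun x => u b x ^ 2) p ht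
  have hsq : √(∑ b, ∫ x in Metric.ball (0 : V n) 2, u b (p + t • x) ^ 2) ≤
      √((t ^ n)⁻¹) * √(∑ b, ∫ x in Metric.ball p (2 * t), u b x ^ 2) := by
    rw [hsum, Real.sqrt_mul (by positivity)]
  have hpp : p + t • (0 : V n) = p := by simp
  have h1t : 1 ≤ t⁻¹ := (one_le_inv₀ ht).2 ht1
  have hA' : 0 ≤ C * (√((t ^ n)⁻¹) * √(∑ b, ∫ x in Metric.ball p (2 * t), u b x ^ 2)) := by
    positivity
  cases o with
  | none =>
    have h2 := key (fun x => u a (p + t • x)) ((hw' a).mono hsub)
      ((Hs_le (by omega) _).trans (Hs_le_Hv (Fintype.card (Fin n) + 1)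
        (fun b x => u b (p + t • x)) a))
    rw [hpp] at h2
    calc |jd none (u a) p| = |u a p| := rfl
      _ ≤ C * (√((t ^ n)⁻¹) * √(∑ b, ∫ x in Metric.ball p (2 * t), u b x ^ 2)) :=
        h2.trans (mul_le_mul_of_nonneg_left hsq hC.le)
      _ ≤ (C * (√((t ^ n)⁻¹) * √(∑ b, ∫ x in Metric.ball p (2 * t), u b x ^ 2))) * t⁻¹ :=
        le_mul_of_one_le_right hA' h1t
      _ = _ := by ring
  | some i =>
    have h2 := key (D (Pi.basisFun ℝ (Fin n)) i fun x => u a (p + t • x))
      ((cd_D hob (hw' a) i).mono hsub)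
      ((Hs_D _ i _).trans (Hs_le_Hv (Fintype.card (Fin n) + 1)
        (fun b x => u b (p + t • x)) a))
    rw [d1 a i 0 (Metric.mem_ball_self (by norm_num)), hpp, abs_mul, abs_of_pos ht] at h2
    have h8 : t * |pd i (u a) p| ≤
        C * (√((t ^ n)⁻¹) * √(∑ b, ∫ x in Metric.ball p (2 * t), u b x ^ 2)) :=
      h2.trans (mul_le_mul_of_nonneg_left hsq hC.le)
    calc |jd (some i) (u a) p| = t⁻¹ * (t * |pd i (u a) p|) := by
          show |pd i (u a) p| = _
          field_simp
      _ ≤ t⁻¹ * (C * (√((t ^ n)⁻¹) * √(∑ b, ∫ x in Metric.ball p (2 * t), u b x ^ 2))) :=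
          mul_le_mul_of_nonneg_left h8 (inv_nonneg.2 ht.le)
      _ = _ := by ring

end Vale.Agent.P088.HY.TN
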