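import Vale.Agent.P088.R2.H354.N.Tot

/-!
# The identity from the weak equation, for systems
-/

open MeasureTheory Set
open scoped ContDiff Matrix Topology

noncomputable section

set_option linter.unusedSectionVars false

namespace Vale.Agent.P088.HY.TN

open Vale.Agent.P088.LR G T3

variable {n : ℕ} {ι : Type} [Fintype ι] {O P D X X' Y Gm : Set (V n)}

/-- The derivative of the cut-off in a product. -/
def jc (o : Option (Fin n)) (χ : V n → ℝ) (x : V n) : ℝ :=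
  match o with
  | none => 0
  | some j => pd j χ x

theorem jc_cd {χ : V n → ℝ} (hχ : ContDiff ℝ ∞ χ) (o : Option (Fin n)) :
    ContDiff ℝ ∞ (jc o χ) := by
  cases o with
  | none => exact contDiff_const
  | some j => exact (hχ.fderiv_right (by simp)).clm_apply contDiff_const

theorem jc_cs {χ : V n → ℝ} (hχ : HasCompactSupport χ) (o : Option (Fin n)) :
    HasCompactSupport (jc o χ) := by
  cases o with
  | none => exact HasCompactSupport.zero
  | some j => exact hχ.fderiv_apply ℝ (Pi.single j 1)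

theorem jc_ts {χ : V n → ℝ} {O : Set (V n)} (h : tsupport χ ⊆ O) (o : Option (Fin n)) :
    tsupport (jc o χ) ⊆ O := by
  cases o with
  | none =>
    have : jc (none : Option (Fin n)) χ = fun _ => 0 := rfl
    rw [this]
    have h0 : tsupport (fun _ : V n => (0 : ℝ)) = ∅ := by
      rw [tsupport_eq_empty_iff]; rfl
    rw [h0]
    exact empty_subset _
  | some j => exact (tsupport_fderiv_apply_subset ℝ _).trans h

theorem jc_zero {χ : V n → ℝ} {x : V n} (h : ∀ j, pd j χ x = 0) (o : Option (Fin n)) :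
    jc o χ x = 0 := by
  cases o with
  | none => rfl
  | some j => exact h j

theorem jd_cmul (hO : IsOpen O) {χ g : V n → ℝ} (hχ : ContDiff ℝ ∞ χ) (hχO : tsupport χ ⊆ O)
    (hg : ContDiffOn ℝ ∞ g O) (o : Option (Fin n)) (x : V n) :
    jd o (fun x => χ x * g x) x = χ x * jd o g x + jc o χ x * g x := by
  cases o with
  | none => show χ x * g x = χ x * g x + 0 * g x; ring
  | some j =>
    by_cases hx : x ∈ O
    · show pd j (fun x => χ x * g x) x = χ x * pd j g x + pd j χ x * g x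
      rw [pd_mul (hχ.differentiable (by simp) x) (dAt1 hO hg hx) j]
      ring
    · have hx' : x ∉ tsupport χ := fun h => hx (hχO h)
      have hx2 : x ∉ tsupport (fun x => χ x * g x) := fun h =>
        hx' (closure_mono (fun y hy => left_ne_zero_of_mul hy) h)
      rw [jd_off_ts hx2, image_eq_zero_of_notMem_tsupport hx',
        jc_zero (fun j => pd_off_ts hx' j)]
      ring

theorem hintN {X : Set (V n)} (hO : IsOpen O) {b σ a f : V n → ℝ} (hb : ContDiff ℝ ∞ b)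
    (hbc : HasCompactSupport b) (hbO : tsupport b ⊆ O) (hσ : ContDiff ℝ ∞ σ)
    (ha : MemLp a 2 (volume.restrict X)) (hf : ContDiffOn ℝ ∞ f O) (o : Option (Fin n)) :
    IntegrableOn (fun x => (b x * σ x) * (a x * jd o f x)) X :=
  hint_mk hO hb hbc hbO hσ ha hf o

/-- The identity from the weak equation. -/
theorem JidN (hD : IsOpen D) (hO : IsOpen O) (hOD : O ⊆ D) {H₁ H₂ : Ib n ι → V n → ℝ}
    (hH₁ : ∀ m, ContDiff ℝ ∞ (H₁ m)) (hH₂ : ∀ m, ContDiff ℝ ∞ (H₂ m))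
    {χ : V n → ℝ} (hχ : ContDiff ℝ ∞ χ) (hχc : HasCompactSupport χ) (hχO : tsupport χ ⊆ O)
    {w g : ι → V n → ℝ} {dv : Fin n → ι → V n → ℝ} (hw : ∀ a, ContDiffOn ℝ 1 (w a) D)
    (hwG : ∀ a, ∀ x ∈ Gm ∩ D, w a x = 0)
    (hw1 : ∀ i a, MemLp (pd i (w a)) 2 (volume.restrict D))
    (hdv : ∀ i a, MemLp (dv i a) 2 (volume.restrict (D \ Gm)))
    (hg : ∀ a, ContDiffOn ℝ ∞ (g a) O)
    (had : ∀ c, ∀ x ∈ O \ Gm, ∑ i, pd i (Fl H₂ g i c) x = 0)
    (hwk : ∀ φ : ι → V n → ℝ, (∀ a, ContDiff ℝ ∞ (φ a)) → (∀ a, HasCompactSupport (φ a)) →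
      (∀ a, tsupport (φ a) ⊆ D) →
      (∫ x in D, ∑ m : Ib n ι, H₂ m x * (pd m.1 (w m.2.2.2) x * jd m.2.1 (φ m.2.2.1) x)) =
        ∫ x in D \ Gm, ∑ m : Ib n ι, (H₁ m x - H₂ m x) *
          (dv m.1 m.2.2.2 x * jd m.2.1 (φ m.2.2.1) x)) :
    (∫ x in D \ Gm, ∑ m : Ib n ι, (χ x * (H₂ m x - H₁ m x)) *
        (dv m.1 m.2.2.2 x * jd m.2.1 (g m.2.2.1) x)) =
      (∫ x in D \ Gm, ∑ m : Ib n ι, (jc m.2.1 χ x * (H₁ m x - H₂ m x)) *
        (dv m.1 m.2.2.2 x * jd none (g m.2.2.1) x)) +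
      (∫ x in D, ∑ m : Ib n ι, (pd m.1 χ x * H₂ m x) *
        (w m.2.2.2 x * jd m.2.1 (g m.2.2.1) x)) -
      ∫ x in D, ∑ m : Ib n ι, (jc m.2.1 χ x * H₂ m x) *
        (pd m.1 (w m.2.2.2) x * jd none (g m.2.2.1) x) := by
  have hφ := hwk (fun a x => χ x * g a x) (fun a => cut_mul1 hO hχ hχO (hg a))
    (fun a => hχc.mul_right)
    (fun a => (closure_mono fun y hy => left_ne_zero_of_mul hy).trans (hχO.trans hOD))
  simp only [jd_cmul hO hχ hχO (hg _)] at hφ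
  have hd12 : ∀ m, ContDiff ℝ ∞ fun x => H₁ m x - H₂ m x := fun m => (hH₁ m).sub (hH₂ m)
  have m1 : ∀ m : Ib n ι, IntegrableOn (fun x => (H₁ m x - H₂ m x) *
      (dv m.1 m.2.2.2 x * (χ x * jd m.2.1 (g m.2.2.1) x))) (D \ Gm) := fun m =>
    (hintN hO hχ hχc hχO (hd12 m) (hdv m.1 m.2.2.2) (hg m.2.2.1) m.2.1).congr
      (Filter.Eventually.of_forall fun x => by
        show (χ x * (H₁ m x - H₂ m x)) * (dv m.1 m.2.2.2 x * jd m.2.1 (g m.2.2.1) x) = _
        ring)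
  have m2 : ∀ m : Ib n ι, IntegrableOn (fun x => (H₁ m x - H₂ m x) *
      (dv m.1 m.2.2.2 x * (jc m.2.1 χ x * g m.2.2.1 x))) (D \ Gm) := fun m =>
    (hintN hO (jc_cd hχ m.2.1) (jc_cs hχc m.2.1) (jc_ts hχO m.2.1) (hd12 m)
      (hdv m.1 m.2.2.2) (hg m.2.2.1) none).congr
      (Filter.Eventually.of_forall fun x => by
        show (jc m.2.1 χ x * (H₁ m x - H₂ m x)) * (dv m.1 m.2.2.2 x * g m.2.2.1 x) = _
        ring)
  have m3 : ∀ m : Ib n ι, IntegrableOn (fun x => H₂ m x *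
      (pd m.1 (w m.2.2.2) x * (χ x * jd m.2.1 (g m.2.2.1) x))) D := fun m =>
    (hintN hO hχ hχc hχO (hH₂ m) (hw1 m.1 m.2.2.2) (hg m.2.2.1) m.2.1).congr
      (Filter.Eventually.of_forall fun x => by
        show (χ x * H₂ m x) * (pd m.1 (w m.2.2.2) x * jd m.2.1 (g m.2.2.1) x) = _
        ring)
  have m4 : ∀ m : Ib n ι, IntegrableOn (fun x => H₂ m x *
      (pd m.1 (w m.2.2.2) x * (jc m.2.1 χ x * g m.2.2.1 x))) D := fun m =>
    (hintN hO (jc_cd hχ m.2.1) (jc_cs hχc m.2.1) (jc_ts hχO m.2.1) (hH₂ m)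
      (hw1 m.1 m.2.2.2) (hg m.2.2.1) none).congr
      (Filter.Eventually.of_forall fun x => by
        show (jc m.2.1 χ x * H₂ m x) * (pd m.1 (w m.2.2.2) x * g m.2.2.1 x) = _
        ring)
  have n1 := integrable_finsetSum Finset.univ fun m _ => m1 m
  have n2 := integrable_finsetSum Finset.univ fun m _ => m2 m
  have n3 := integrable_finsetSum Finset.univ fun m _ => m3 m
  have n4 := integrable_finsetSum Finset.univ fun m _ => m4 m
  have eL : (∫ x in D, ∑ m : Ib n ι, H₂ m x * (pd m.1 (w m.2.2.2) x *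
      (χ x * jd m.2.1 (g m.2.2.1) x + jc m.2.1 χ x * g m.2.2.1 x))) =
      (∫ x in D, ∑ m : Ib n ι, H₂ m x *
        (pd m.1 (w m.2.2.2) x * (χ x * jd m.2.1 (g m.2.2.1) x))) +
      ∫ x in D, ∑ m : Ib n ι, H₂ m x *
        (pd m.1 (w m.2.2.2) x * (jc m.2.1 χ x * g m.2.2.1 x)) := by
    rw [← integral_add n3 n4]
    congr 1
    funext x
    rw [← Finset.sum_add_distrib]
    exact Finset.sum_congr rfl fun m _ => by ring
  have eR : (∫ x in D \ Gm, ∑ m : Ib n ι, (H₁ m x - H₂ m x) * (dv m.1 m.2.2.2 x *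
      (χ x * jd m.2.1 (g m.2.2.1) x + jc m.2.1 χ x * g m.2.2.1 x))) =
      (∫ x in D \ Gm, ∑ m : Ib n ι, (H₁ m x - H₂ m x) *
        (dv m.1 m.2.2.2 x * (χ x * jd m.2.1 (g m.2.2.1) x))) +
      ∫ x in D \ Gm, ∑ m : Ib n ι, (H₁ m x - H₂ m x) *
        (dv m.1 m.2.2.2 x * (jc m.2.1 χ x * g m.2.2.1 x)) := by
    rw [← integral_add n1 n2]
    congr 1
    funext x
    rw [← Finset.sum_add_distrib]
    exact Finset.sum_congr rfl fun m _ => by ring
  rw [eL, eR, ibp_wN hD hO hOD hH₂ hχ hχc hχO hw hwG hg had] at hφ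
  have f1 : (∫ x in D \ Gm, ∑ m : Ib n ι, (H₁ m x - H₂ m x) *
      (dv m.1 m.2.2.2 x * (χ x * jd m.2.1 (g m.2.2.1) x))) =
      -∫ x in D \ Gm, ∑ m : Ib n ι, (χ x * (H₂ m x - H₁ m x)) *
        (dv m.1 m.2.2.2 x * jd m.2.1 (g m.2.2.1) x) := by
    rw [← integral_neg]
    congr 1
    funext x
    rw [← Finset.sum_neg_distrib]
    exact Finset.sum_congr rfl fun m _ => by ring
  have f2 : (∫ x in D \ Gm, ∑ m : Ib n ι, (H₁ m x - H₂ m x) *
      (dv m.1 m.2.2.2 x * (jc m.2.1 χ x * g m.2.2.1 x))) =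
      ∫ x in D \ Gm, ∑ m : Ib n ι, (jc m.2.1 χ x * (H₁ m x - H₂ m x)) *
        (dv m.1 m.2.2.2 x * jd none (g m.2.2.1) x) := by
    congr 1
    funext x
    exact Finset.sum_congr rfl fun m _ => by rw [jd_none]; ring
  have f3 : (∫ x in D, ∑ m : Ib n ι, H₂ m x *
      (w m.2.2.2 x * (pd m.1 χ x * jd m.2.1 (g m.2.2.1) x))) =
      ∫ x in D, ∑ m : Ib n ι, (pd m.1 χ x * H₂ m x) *
        (w m.2.2.2 x * jd m.2.1 (g m.2.2.1) x) := by
    congr 1
    funext x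
    exact Finset.sum_congr rfl fun m _ => by ring
  have f4 : (∫ x in D, ∑ m : Ib n ι, H₂ m x *
      (pd m.1 (w m.2.2.2) x * (jc m.2.1 χ x * g m.2.2.1 x))) =
      ∫ x in D, ∑ m : Ib n ι, (jc m.2.1 χ x * H₂ m x) *
        (pd m.1 (w m.2.2.2) x * jd none (g m.2.2.1) x) := by
    congr 1
    funext x
    exact Finset.sum_congr rfl fun m _ => by rw [jd_none]; ring
  rw [f1, f2, f3, f4] at hφ
  linarith

end Vale.Agent.P088.HY.TN
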