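import Vale.Agent.P088.R2.H354.S11
import Vale.Agent.P088.R2.H354.N.Adj
import Vale.Agent.P088.R2.H354.N.Ine

/-!
# The bound by the far layer for pairs, normalised
-/

open MeasureTheory Set
open scoped ContDiff Matrix Topology

noncomputable section

set_option linter.unusedSectionVars false

namespace Vale.Agent.P088.HY.TN

open Vale.Agent.P088.LR hiding fr
open Vale.Agent.P088.LR.U Vale.Agent.P088.LR.H158 G T3
open Vale.Agent.P088.PJ (KC SmK dxk dyk Lk Rk TP kp bL bR Zt Qt dgB)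
open Vale.Agent.P088.S4 (pdv MoV nv StpN RL Da)
open Vale.Agent.P088.HY.T9 (fl fr cas sumL rM rM_ll rM_lr rM_rl rM_rr rM_mul rM_add rM_neg
  rM_sub ext4 cV mk_eq contDiff_mk pd_mk contDiff_cV contDiff_rM)

variable {n N : ℕ}

/-! ## Complex multiples of kernels -/

section

variable {U : Set (VV n)} {K : KC n N}

theorem SmK.cmul (hK : SmK U K) (c : ℂ) : SmK U fun z => c • K z := fun a b =>
  contDiffOn_const.mul (hK a b)

theorem dxk_cmul (hU : IsOpen U) (hK : SmK U K) {z : VV n} (hz : z ∈ U) (c : ℂ) (i : Fin n) :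
    dxk i (fun z => c • K z) z = c • dxk i K z := by
  ext a b
  show fderiv ℝ (fun z => c * K z a b) z _ = c * fderiv ℝ (fun z => K z a b) z _
  rw [fderiv_const_mul (SmK.da hU hK hz a b)]
  rfl

theorem dyk_cmul (hU : IsOpen U) (hK : SmK U K) {z : VV n} (hz : z ∈ U) (c : ℂ) (i : Fin n) :
    dyk i (fun z => c • K z) z = c • dyk i K z := by
  ext a b
  show fderiv ℝ (fun z => c * K z a b) z _ = c * fderiv ℝ (fun z => K z a b) z _
  rw [fderiv_const_mul (SmK.da hU hK hz a b)]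
  rfl

theorem dxk_cg (hU : IsOpen U) {K' : KC n N} (h : ∀ z ∈ U, K z = K' z) {z : VV n} (hz : z ∈ U)
    (i : Fin n) : dxk i K z = dxk i K' z := by
  ext a b
  have h1 : (fun z => K z a b) =ᶠ[𝓝 z] fun z => K' z a b :=
    Filter.eventually_of_mem (hU.mem_nhds hz) fun z hz => congrArg (fun A => A a b) (h z hz)
  show fderiv ℝ (fun z => K z a b) z _ = fderiv ℝ (fun z => K' z a b) z _
  rw [h1.fderiv_eq]

theorem dyk_cg (hU : IsOpen U) {K' : KC n N} (h : ∀ z ∈ U, K z = K' z) {z : VV n} (hz : z ∈ U)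
    (i : Fin n) : dyk i K z = dyk i K' z := by
  ext a b
  have h1 : (fun z => K z a b) =ᶠ[𝓝 z] fun z => K' z a b :=
    Filter.eventually_of_mem (hU.mem_nhds hz) fun z hz => congrArg (fun A => A a b) (h z hz)
  show fderiv ℝ (fun z => K z a b) z _ = fderiv ℝ (fun z => K' z a b) z _
  rw [h1.fderiv_eq]

theorem dxx_cmul (hU : IsOpen U) (hK : SmK U K) {z : VV n} (hz : z ∈ U) (c : ℂ) (i j : Fin n) :
    dxk i (dxk j (fun z => c • K z)) z = c • dxk i (dxk j K) z := by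
  rw [dxk_cg hU (fun z hz => dxk_cmul hU hK hz c j) hz i, dxk_cmul hU (SmK.dx hU hK j) hz]

theorem dyy_cmul (hU : IsOpen U) (hK : SmK U K) {z : VV n} (hz : z ∈ U) (c : ℂ) (i j : Fin n) :
    dyk i (dyk j (fun z => c • K z)) z = c • dyk i (dyk j K) z := by
  rw [dyk_cg hU (fun z hz => dyk_cmul hU hK hz c j) hz i, dyk_cmul hU (SmK.dy hU hK j) hz]

theorem dxy_cmul (hU : IsOpen U) (hK : SmK U K) {z : VV n} (hz : z ∈ U) (c : ℂ) (i j : Fin n) :
    dxk i (dyk j (fun z => c • K z)) z = c • dxk i (dyk j K) z := by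
  rw [dxk_cg hU (fun z hz => dyk_cmul hU hK hz c j) hz i, dxk_cmul hU (SmK.dy hU hK j) hz]

theorem Lk_cmul (hU : IsOpen U) (hK : SmK U K) {z : VV n} (hz : z ∈ U) (c : ℂ) (s : MF n)
    (β : Fin n → MC n N) : Lk s β (fun z => c • K z) z = c • Lk s β K z := by
  unfold Lk
  simp only [dxx_cmul hU hK hz, dxk_cmul hU hK hz, smul_add, Finset.smul_sum, Matrix.mul_smul]
  congr 1
  exact Finset.sum_congr rfl fun i _ => Finset.sum_congr rfl fun j _ => smul_comm _ _ _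

theorem Rk_cmul (hU : IsOpen U) (hK : SmK U K) {z : VV n} (hz : z ∈ U) (c : ℂ) (s : MF n)
    (β : Fin n → MC n N) : Rk s β (fun z => c • K z) z = c • Rk s β K z := by
  unfold Rk
  simp only [dyy_cmul hU hK hz, dyk_cmul hU hK hz, smul_add, Finset.smul_sum, Matrix.smul_mul]
  congr 1
  exact Finset.sum_congr rfl fun i _ => Finset.sum_congr rfl fun j _ => smul_comm _ _ _

theorem dgB_cmul (hU : IsOpen U) (hK : SmK U K) {x : V n} (hz : (x, x) ∈ U) (c : ℂ)
    (s₁ s₂ : MF n) (P₁ P₂ : MC n N) (G₁ G₂ : Fin n → MC n N) :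
    dgB s₁ s₂ P₁ P₂ G₁ G₂ (fun z => c • K z) x = c * dgB s₁ s₂ P₁ P₂ G₁ G₂ K x := by
  unfold dgB
  simp only [dxy_cmul hU hK hz, dxk_cmul hU hK hz, Matrix.mul_smul, Matrix.trace_smul,
    smul_eq_mul, mul_sub, Finset.mul_sum]

/-- The form in real form. -/
theorem dgB_re (hU : IsOpen U) (hK : SmK U K) {x : V n} (hz : (x, x) ∈ U)
    (s₁ s₂ : MF n) (P₁ P₂ : MC n N) (G₁ G₂ : Fin n → MC n N) :
    ∑ m : Ib n (Fin (N + N)), (HC (TP s₂ P₂) (kp s₂ G₂) m x - HC (TP s₁ P₁) (kp s₁ G₁) m x) *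
      dx m.1 (jy m.2.1 (kR K m.2.2.2 m.2.2.1)) (x, x) =
      2 * (dgB s₁ s₂ P₁ P₂ G₁ G₂ K x).re := by
  rw [sum_IbN]
  unfold dgB
  rw [Complex.sub_re, mul_sub, Complex.re_sum, Complex.re_sum, Finset.mul_sum, Finset.mul_sum,
    ← Finset.sum_sub_distrib]
  refine Finset.sum_congr rfl fun i _ => ?_
  rw [Complex.re_sum, Finset.mul_sum, sub_eq_add_neg, add_comm]
  congr 1
  · refine Finset.sum_congr rfl fun j _ => ?_
    rw [← trace_rM]
    refine Finset.sum_congr rfl fun p _ => ?_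
    rw [rM_mul, Matrix.mul_apply]
    refine Finset.sum_congr rfl fun q _ => ?_
    show (rM (TP s₂ P₂ j i x) p q - rM (TP s₁ P₁ j i x) p q) *
      dx i (dy j (kR K q p)) (x, x) = _
    rw [dxy_kR hU hK hz]
    unfold Zt kR
    rw [rM_sub, Matrix.sub_apply]
  · rw [← trace_rM, ← Finset.sum_neg_distrib]
    refine Finset.sum_congr rfl fun p _ => ?_
    rw [rM_mul, Matrix.mul_apply, ← Finset.sum_neg_distrib]
    refine Finset.sum_congr rfl fun q _ => ?_
    show (-rM (kp s₂ G₂ i x) p q - -rM (kp s₁ G₁ i x) p q) *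
      dx i (kR K q p) (x, x) = _
    rw [dx_kR hU hK hz]
    unfold Qt kR
    rw [rM_sub, Matrix.sub_apply]
    ring

end

/-! ## The coefficients -/

theorem unit_of {P : MC n N} {k : ℕ} (h : ClC k (1 / (2 * N + 2)) fun x => P x - 1) (x : V n) :
    IsUnit (P x).det := by
  have h0 : ∀ a b, ‖(P x - 1) a b‖ ≤ 1 / (2 * N + 2) := by
    intro a b
    have := h a b 0 (Nat.zero_le _) x
    rwa [norm_iteratedFDeriv_zero] at this
  rw [isUnit_iff_ne_zero]
  refine det_ne_zero_of_sum_row_lt_diag fun a => ?_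
  have hN : (0 : ℝ) ≤ N := by positivity
  have h1 : ∑ b ∈ Finset.univ.erase a, ‖P x a b‖ ≤ N * (1 / (2 * N + 2)) := by
    calc ∑ b ∈ Finset.univ.erase a, ‖P x a b‖ ≤
          ∑ _b ∈ Finset.univ.erase a, (1 / (2 * N + 2) : ℝ) := by
          refine Finset.sum_le_sum fun b hb => ?_
          have h2 := h0 a b
          rwa [Matrix.sub_apply, Matrix.one_apply_ne (Finset.ne_of_mem_erase hb).symm,
            sub_zero] at h2
      _ ≤ ∑ _b : Fin N, (1 / (2 * N + 2) : ℝ) :=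
          Finset.sum_le_sum_of_subset_of_nonneg (Finset.erase_subset _ _)
            fun _ _ _ => by positivity
      _ = _ := by rw [Finset.sum_const, Finset.card_univ, Fintype.card_fin, nsmul_eq_mul]
  have h2 : 1 - 1 / (2 * N + 2) ≤ ‖P x a a‖ := by
    have h3 := h0 a a
    rw [Matrix.sub_apply, Matrix.one_apply_eq] at h3
    have h4 := norm_sub_norm_le (1 : ℂ) (P x a a)
    rw [norm_one, norm_sub_rev] at h4
    linarith
  have h3 : (N : ℝ) * (1 / (2 * N + 2)) < 1 - 1 / (2 * N + 2) := by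
    rw [mul_one_div, lt_sub_iff_add_lt, ← add_div, div_lt_one (by positivity)]
    linarith
  linarith

theorem cl_mono {F : Type*} [NormedAddCommGroup F] [NormedSpace ℝ F] {k : ℕ} {δ δ' : ℝ}
    {f : V n → F} (h : Cl k δ f) (hδ : δ ≤ δ') : Cl k δ' f := fun l hl x => (h l hl x).trans hδ

/-- **The bound by the far layer for pairs, normalised.** -/
theorem s11N (n N : ℕ) : ∃ (k : ℕ) (δ : ℝ), 0 < δ ∧
    ∀ (G : Set (V n)) (j₀ : Fin N) (s₁ s₂ : MF n) (P₁ P₂ : MC n N)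
      (G₁ G₂ β Y D : Fin n → MC n N), IsOpen G → Eb 0 1 ⊆ G →
    RL k δ (Eb 0 24) Gᶜ j₀ s₁ s₂ P₁ P₂ G₁ G₂ β Y D →
    StpN (Eb 0 24) G (TP s₁ P₁) (kp s₁ G₁) (TP s₂ P₂) (kp s₂ G₂) →
    ∀ (O : Set (V n)) (χ : V n → ℝ), IsOpen O → O ⊆ Eb 0 24 → Ac n (991 / 1000) 20 ⊆ O →
    ContDiff ℝ ∞ χ → (∀ x ∉ Ac n (998 / 1000) 12, χ x = 0) →
    (∀ x ∈ Ao n (999 / 1000) 11, χ x = 1) →
    ∃ B : ℝ, 0 ≤ B ∧ ∀ (K : KC n N) (S : ℝ), 0 ≤ S → SmK (O ×ˢ O) K →
      (∀ z ∈ O ×ˢ O, Lk s₁ β K z = 0) → (∀ z ∈ O ×ˢ O, Rk s₂ (bR s₂ P₂ G₂) K z = 0) →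
      (∀ x ∈ Ac n (991 / 1000) 20, ∀ y ∈ Ac n 10 20, ∀ a b,
        ‖K (x, y) a b‖ ≤ S ∧ ‖K (y, x) a b‖ ≤ S) →
      ‖∫ x, (χ x : ℂ) * dgB s₁ s₂ P₁ P₂ G₁ G₂ K x‖ ≤ B * S := by
  refine ⟨Fintype.card (Fin n) + 1 + 1, min (1 / (2 * Fintype.card (Fin n) + 2)) (1 / (2 * N + 2)),
    by positivity, ?_⟩
  intro G j₀ s₁ s₂ P₁ P₂ G₁ G₂ β Y D hoG hb1 hR h3 O χ hO hOD hPO hχs hχ0 hχ1
  obtain ⟨t, ht⟩ : ∃ t : ℝ, t = 1 / (1000 * (n + 1)) := ⟨_, rfl⟩
  have hn : (0 : ℝ) ≤ n := by positivity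
  have ht0 : 0 < t := by rw [ht]; positivity
  have ht1 : t ≤ 1 := by
    rw [ht, div_le_one (by positivity)]
    nlinarith
  have hnt : (n + 1) * (2 * t) = 2 / 1000 := by
    rw [ht]
    field_simp
  have hb : ∀ {p x : V n}, x ∈ Metric.ball p (2 * t) →
      √(sq p) - 2 / 1000 ≤ √(sq x) ∧ √(sq x) ≤ √(sq p) + 2 / 1000 := by
    intro p x hx
    have h := rt_ball (by positivity) hx
    rw [hnt] at h
    exact h
  -- the coefficients
  have cf₁ : Cf s₁ P₁ G₁ := ⟨hR.d₁.ss, hR.d₁.sy, hR.d₁.sP, hR.d₁.sG,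
    unit_of fun a b => cl_mono (hR.d₁.cP a b) (min_le_right _ _)⟩
  have cf₂ : Cf s₂ P₂ G₂ := ⟨hR.d₂.ss, hR.d₂.sy, hR.d₂.sP, hR.d₂.sG,
    unit_of fun a b => cl_mono (hR.d₂.cP a b) (min_le_right _ _)⟩
  have hβ : ∀ i a b, ContDiff ℝ ∞ fun x => rM (β i x) a b := fun i a b =>
    contDiff_rM (hR.sβ i) a b
  have hbR : ∀ i a b, ContDiff ℝ ∞ fun x => (rM (bR s₂ P₂ G₂ i x))ᵀ a b := fun i a b =>
    contDiff_rM (cf₂.sbR i) b a
  have hOb : O ⊆ Metric.closedBall 0 24 := by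
    intro x hx
    have h1 := (mem_Eb0 (by norm_num)).1 (hOD hx)
    rw [mem_closedBall_zero_iff, pi_norm_le_iff_of_nonneg (by norm_num)]
    intro i
    have h2 : x i ^ 2 ≤ sq x := Finset.single_le_sum (f := fun j => x j ^ 2)
      (fun j _ => sq_nonneg _) (Finset.mem_univ i)
    rw [Real.norm_eq_abs, ← Real.sqrt_sq_eq_abs]
    exact (Real.sqrt_le_sqrt h2).trans h1.le
  obtain ⟨C₁, hC₁, hI₁⟩ := intS_of n (Fin (N + N)) s₁ (fun i x => rM (β i x)) hR.d₁.ss
    (fun i j => cl_mono (hR.d₁.cs i j) (min_le_left _ _)) hβ 24 O hOb t ht0 ht1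
  obtain ⟨C₂, hC₂, hI₂⟩ := intS_of n (Fin (N + N)) s₂ (fun i x => (rM (bR s₂ P₂ G₂ i x))ᵀ)
    hR.d₂.ss (fun i j => cl_mono (hR.d₂.cs i j) (min_le_left _ _)) hbR 24 O hOb t ht0 ht1
  have hIm : ∀ {T : Sys n (Fin (N + N))} {c c' : ℝ}, c ≤ c' → IntS T O (2 * t) c →
      IntS T O (2 * t) c' := fun hc hI p hp u hu hL hi o a =>
    (hI p hp u hu hL hi o a).trans (mul_le_mul_of_nonneg_right hc (Real.sqrt_nonneg _))
  have hDc : ∀ x, x ∈ Eb (0 : V n) 24 ∩ Gᶜ ↔ x ∈ Eb (0 : V n) 24 ∧ x ∉ G := fun x => Iff.rfl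
  -- the cut-offs
  obtain ⟨η, hηs, hηc, hηO, hη1⟩ := exists_cut (n := n) (isOpen_Ao (995 / 1000) 19)
    (isCompact_Ac (997 / 1000) 18) fun x hx =>
      ⟨lt_of_lt_of_le (by norm_num) hx.1, lt_of_le_of_lt hx.2 (by norm_num)⟩
  have hχt : tsupport χ ⊆ Ac n (998 / 1000) 12 := by
    refine closure_minimal (fun x hx => ?_) (isClosed_Ac _ _)
    by_contra h
    exact hx (hχ0 x h)
  have hG1 : ∀ x : V n, √(sq x) < 1 → x ∈ G := fun x hx => hb1 ((mem_Eb0 one_pos).2 hx)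
  have hoff : ∀ p ∈ tsupport χ \ G, 1 ≤ √(sq p) ∧ √(sq p) ≤ 12 := fun p hp =>
    ⟨not_lt.1 fun h => hp.2 (hG1 p h), (hχt hp.1).2⟩
  have hχO : tsupport χ ⊆ O := fun x hx =>
    hPO ⟨le_trans (by norm_num) (hχt hx).1, le_trans (hχt hx).2 (by norm_num)⟩
  have hgeo : GeoN (SL s₁ fun i x => rM (β i x)) (SL s₂ fun i x => (rM (bR s₂ P₂ G₂ i x))ᵀ)
      (MR (TP s₁ P₁) (kp s₁ G₁)) (fun a b x => rM (P₁ x) a b) (HC (TP s₁ P₁) (kp s₁ G₁))
      (HC (TP s₂ P₂) (kp s₂ G₂)) (Eb 0 24) G O (Ac n (991 / 1000) 20) (Ac n 18 19) (Ac n 10 20)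
      χ η (2 * t) (C₁ + C₂) :=
    { oD := isOpen_Eb 0 24
      oO := hO
      OD := hOD
      cP := isCompact_Ac _ _
      PO := hPO
      oG := hoG
      cF := isCompact_Ac _ _
      h₁ := HC_cd (fun i j => cf₁.sT i j) cf₁.sκ
      h₂ := HC_cd (fun i j => cf₂.sT i j) cf₂.sκ
      sS := fun a w => cont_SL hR.d₁.ss (fun i a b => (hβ i a b).continuous) a w
      sp := fun a b => (contDiff_rM hR.d₁.sP a b).continuous
      mo := fun u hu x hx a => cf₁.mo hu (fun i => hR.eβ i x hx) a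
      ad := fun g hg he c x hx =>
        cf₂.ad hO hg hx.1 (fun a => he a x hx.1) (hR.d₂.dq x ⟨hOD hx.1, hx.2⟩) c
      eqH := by
        intro x hx m
        have hx' : x ∉ Gᶜ := fun h => h hx.1
        have e1 : ∀ i j, TP s₂ P₂ i j x = TP s₁ P₁ i j x := fun i j => by
          unfold TP
          rw [hR.os x hx.2 hx', hR.oP x hx.2 hx']
        have e2 : ∀ i, kp s₂ G₂ i x = kp s₁ G₁ i x := fun i => by
          unfold kp
          rw [hR.os x hx.2 hx']
          exact Finset.sum_congr rfl fun j _ => by rw [hR.oG j x hx.2 hx']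
        obtain ⟨i, o, p, q⟩ := m
        cases o with
        | none => show -rM (kp s₂ G₂ i x) p q = -rM (kp s₁ G₁ i x) p q; rw [e2]
        | some j => show rM (TP s₂ P₂ j i x) p q = rM (TP s₁ P₁ j i x) p q; rw [e1]
      ie₁ := hIm (by linarith) hI₁
      ie₂ := hIm (by linarith) hI₂
      C0 := by positivity
      r0 := by positivity
      χs := hχs
      χc := HasCompactSupport.of_support_subset_isCompact (isCompact_Ac (998 / 1000) 12)
        ((subset_tsupport χ).trans hχt)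
      χO := hχO
      ηs := hηs
      ηc := hηc
      ηP := hηO.trans fun x hx =>
        ⟨le_trans (by norm_num) hx.1.le, le_trans hx.2.le (by norm_num)⟩
      fa := by
        intro x hxD hx
        have h1 : 1 ≤ √(sq x) := not_lt.1 fun h => hxD.2 (hG1 x h)
        by_cases h2 : √(sq x) < 18
        · have h3 : x ∈ Ao n (997 / 1000) 18 := ⟨lt_of_lt_of_le (by norm_num) h1, h2⟩
          have h4 : ∀ y ∈ Ao n (997 / 1000) 18, η y = 1 := fun y hy =>
            hη1 y ⟨hy.1.le, hy.2.le⟩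
          exact ⟨fun i => pd_zero_of (isOpen_Ao _ _) h4 h3 i, fun i j =>
            pd_zero_of (isOpen_Ao _ _) (fun y hy => pd_zero_of (isOpen_Ao _ _) h4 hy j) h3 i⟩
        · push Not at h2
          have h3 : x ∉ tsupport η := by
            intro h
            exact hx ⟨h2, (hηO h).2.le⟩
          exact ⟨fun i => pd_off_ts h3 i, fun i j => pd2_off_ts h3 i j⟩
      fab := by
        intro x hx y hy
        have h := hb hy
        exact ⟨by linarith [hx.1, h.1], by linarith [hx.2, h.2]⟩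
      fbP := fun x hx => ⟨le_trans (by norm_num) hx.1, hx.2⟩
      q₁ := by
        intro p hp x hx
        have h := hb hx
        have h' := hoff p hp
        exact ⟨by linarith [h.1, h'.1], by linarith [h.2, h'.2]⟩
      q₂ := by
        intro p hp x hx
        have h := hb hx
        have h' := hoff p hp
        exact hη1 x ⟨by linarith [h.1, h'.1], by linarith [h.2, h'.2]⟩
      q₄ := by
        intro p hp hi x hx
        have h := hb hx
        have h' := hoff p hp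
        have h11 : 11 ≤ √(sq p) := by
          by_contra hc
          push Not at hc
          obtain ⟨i, hi⟩ := hi
          exact hi (pd_zero_of (isOpen_Ao (999 / 1000) 11) hχ1
            ⟨lt_of_lt_of_le (by norm_num) h'.1, hc⟩ i)
        exact ⟨by linarith [h.1], by linarith [h.2, h'.2]⟩
      q₅ := by
        intro p hp x hx
        have h := hb hx
        have h' := hηO hp
        exact ⟨by linarith [h.1, h'.1], by linarith [h.2, h'.2]⟩ }
  have hst := stpR_of (isOpen_Eb 0 24) hoG.measurableSet (fun i j => cf₁.sT i j)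
    (fun i j => cf₂.sT i j) cf₁.sκ cf₂.sκ h3
  obtain ⟨B, hB, hfin⟩ := trfR hgeo hst
  refine ⟨B, hB, ?_⟩
  intro K S hS hK hL hRk hfar
  have hU : IsOpen (O ×ˢ O) := hO.prod hO
  -- the bound for the real part
  have main : ∀ K : KC n N, SmK (O ×ˢ O) K → (∀ z ∈ O ×ˢ O, Lk s₁ β K z = 0) →
      (∀ z ∈ O ×ˢ O, Rk s₂ (bR s₂ P₂ G₂) K z = 0) →
      (∀ x ∈ Ac n (991 / 1000) 20, ∀ y ∈ Ac n 10 20, ∀ a b,
        ‖K (x, y) a b‖ ≤ S ∧ ‖K (y, x) a b‖ ≤ S) →
      |∫ x, χ x * (dgB s₁ s₂ P₁ P₂ G₁ G₂ K x).re| ≤ B * S / 2 := by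
    intro K hK hL hRk hfar
    have h1 := hfin (kR K) S hS (fun a b => cd_kR hK a b)
      (fun a b z hz => by rw [opx_kR hU hK hz, hL z hz, rM_zero]; rfl)
      (fun a b z hz => by rw [opy_kR hU hK hz, hRk z hz, rM_zero]; rfl)
      (fun x hx y hy a b => ⟨abs_rM_le (fun a b => (hfar x hx y hy a b).1) a b,
        abs_rM_le (fun a b => (hfar x hx y hy a b).2) a b⟩)
    have h2 : ∫ x, χ x * ∑ m : Ib n (Fin (N + N)),
        (HC (TP s₂ P₂) (kp s₂ G₂) m x - HC (TP s₁ P₁) (kp s₁ G₁) m x) *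
        dx m.1 (jy m.2.1 (kR K m.2.2.2 m.2.2.1)) (x, x) =
        2 * ∫ x, χ x * (dgB s₁ s₂ P₁ P₂ G₁ G₂ K x).re := by
      rw [← integral_const_mul]
      refine integral_congr_ae (Filter.Eventually.of_forall fun x => ?_)
      by_cases hx : x ∈ O
      · show χ x * _ = 2 * (χ x * _)
        rw [dgB_re hU hK (show (x, x) ∈ O ×ˢ O from ⟨hx, hx⟩)]
        ring
      · have h3 : χ x = 0 := by
          by_contra hc
          exact hx (hχO (subset_tsupport χ hc))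
        show χ x * _ = 2 * (χ x * _)
        rw [h3]; ring
    rw [h2, abs_mul, abs_two] at h1
    linarith
  have h1 := main K hK hL hRk hfar
  have h2 := main (fun z => (-Complex.I) • K z) (SmK.cmul hK _)
    (fun z hz => by rw [Lk_cmul hU hK hz, hL z hz, smul_zero])
    (fun z hz => by rw [Rk_cmul hU hK hz, hRk z hz, smul_zero])
    (fun x hx y hy a b => by
      have h := hfar x hx y hy a b
      simp only [Matrix.smul_apply, smul_eq_mul, norm_mul, norm_neg, Complex.norm_I, one_mul]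
      exact h)
  have h2' : ∫ x, χ x * (dgB s₁ s₂ P₁ P₂ G₁ G₂ (fun z => (-Complex.I) • K z) x).re =
      ∫ x, χ x * (dgB s₁ s₂ P₁ P₂ G₁ G₂ K x).im := by
    refine integral_congr_ae (Filter.Eventually.of_forall fun x => ?_)
    by_cases hx : x ∈ O
    · show χ x * _ = χ x * _
      rw [dgB_cmul hU hK (show (x, x) ∈ O ×ˢ O from ⟨hx, hx⟩)]
      simp
    · have h3 : χ x = 0 := by
        by_contra hc
        exact hx (hχO (subset_tsupport χ hc))
      show χ x * _ = χ x * _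
      rw [h3]; ring
  rw [h2'] at h2
  by_cases hint : Integrable fun x => (χ x : ℂ) * dgB s₁ s₂ P₁ P₂ G₁ G₂ K x
  · have r1 := integral_re (𝕜 := ℂ) hint
    have r2 := integral_im (𝕜 := ℂ) hint
    have r1' : (∫ x, (χ x : ℂ) * dgB s₁ s₂ P₁ P₂ G₁ G₂ K x).re =
        ∫ x, χ x * (dgB s₁ s₂ P₁ P₂ G₁ G₂ K x).re := by
      refine r1.symm.trans (integral_congr_ae (Filter.Eventually.of_forall fun x => ?_))
      exact Complex.re_ofReal_mul _ _
    have r2' : (∫ x, (χ x : ℂ) * dgB s₁ s₂ P₁ P₂ G₁ G₂ K x).im =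
        ∫ x, χ x * (dgB s₁ s₂ P₁ P₂ G₁ G₂ K x).im := by
      refine r2.symm.trans (integral_congr_ae (Filter.Eventually.of_forall fun x => ?_))
      exact Complex.im_ofReal_mul _ _
    refine (Complex.norm_le_abs_re_add_abs_im _).trans ?_
    rw [r1', r2']
    linarith
  · rw [integral_undef hint, norm_zero]
    positivity

end Vale.Agent.P088.HY.TN
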