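import Vale.Agent.P088.R2.H354.N.S11

/-!
# The bound by the far layer for pairs, normalised, with a parameter
-/

open MeasureTheory Set
open scoped ContDiff Matrix Topology

noncomputable section

set_option linter.unusedSectionVars false

namespace Vale.Agent.P088.HY.TN

open Vale.Agent.P088.LR hiding fr
open Vale.Agent.P088.LR.U Vale.Agent.P088.LR.H158 G T3
open Vale.Agent.P088.PJ (KC SmK dxk dyk Lk Rk TP kp bL bR Zt Qt dgB)
open Vale.Agent.P088.S4 (pdv MoV nv StpN RL Da)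
open Vale.Agent.P088.HY.T9 (fl fr cas sumL rM rM_ll rM_lr rM_rl rM_rr rM_mul rM_add rM_neg
  rM_sub ext4 cV mk_eq contDiff_mk pd_mk contDiff_cV contDiff_rM)

variable {n N : ℕ}

/-- **The bound by the far layer for pairs, normalised.** The inner radii are `1 - O(θ)`. -/
theorem s11Nt (n N : ℕ) : ∃ (k : ℕ) (δ : ℝ), 0 < δ ∧
    ∀ (G : Set (V n)) (j₀ : Fin N) (s₁ s₂ : MF n) (P₁ P₂ : MC n N)
      (G₁ G₂ β Y D : Fin n → MC n N), IsOpen G → Eb 0 1 ⊆ G →
    RL k δ (Eb 0 24) Gᶜ j₀ s₁ s₂ P₁ P₂ G₁ G₂ β Y D →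
    StpN (Eb 0 24) G (TP s₁ P₁) (kp s₁ G₁) (TP s₂ P₂) (kp s₂ G₂) →
    ∀ θ : ℝ, 0 < θ → θ ≤ 1 / 100 →
    ∀ (O : Set (V n)) (χ : V n → ℝ), IsOpen O → O ⊆ Eb 0 24 → Ac n (1 - 9 / 10 * θ) 20 ⊆ O →
    ContDiff ℝ ∞ χ → (∀ x ∉ Ac n (1 - θ / 5) 12, χ x = 0) →
    (∀ x ∈ Ao n (1 - θ / 10) 11, χ x = 1) →
    ∃ B : ℝ, 0 ≤ B ∧ ∀ (K : KC n N) (S : ℝ), 0 ≤ S → SmK (O ×ˢ O) K →
      (∀ z ∈ O ×ˢ O, Lk s₁ β K z = 0) → (∀ z ∈ O ×ˢ O, Rk s₂ (bR s₂ P₂ G₂) K z = 0) →
      (∀ x ∈ Ac n (1 - 9 / 10 * θ) 20, ∀ y ∈ Ac n 10 20, ∀ a b,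
        ‖K (x, y) a b‖ ≤ S ∧ ‖K (y, x) a b‖ ≤ S) →
      ‖∫ x, (χ x : ℂ) * dgB s₁ s₂ P₁ P₂ G₁ G₂ K x‖ ≤ B * S := by
  refine ⟨Fintype.card (Fin n) + 1 + 1, min (1 / (2 * Fintype.card (Fin n) + 2)) (1 / (2 * N + 2)),
    by positivity, ?_⟩
  intro G j₀ s₁ s₂ P₁ P₂ G₁ G₂ β Y D hoG hb1 hR h3 θ hθ0 hθ1 O χ hO hOD hPO hχs hχ0 hχ1
  obtain ⟨t, ht⟩ : ∃ t : ℝ, t = θ / (10 * (n + 1)) := ⟨_, rfl⟩
  have hn : (0 : ℝ) ≤ n := by positivity
  have ht0 : 0 < t := by rw [ht]; positivity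
  have ht1 : t ≤ 1 := by
    rw [ht, div_le_one (by positivity)]
    nlinarith
  have hnt : (n + 1) * (2 * t) = θ / 5 := by
    rw [ht]
    field_simp
    ring
  have hb : ∀ {p x : V n}, x ∈ Metric.ball p (2 * t) →
      √(sq p) - θ / 5 ≤ √(sq x) ∧ √(sq x) ≤ √(sq p) + θ / 5 := by
    intro p x hx
    have h := rt_ball (by positivity) hx
    rw [hnt] at h
    exact h
  -- the coefficients
  have cf₁ : Cf s₁ P₁ G₁ := ⟨hR.d₁.ss, hR.d₁.sy, hR.d₁.sP, hR.d₁.sG,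
    unit_of fun a b => cl_mono (hR.d₁.cP a b) (min_le_right _ _)⟩
  have cf₂ : Cf s₂ P₂ G₂ := ⟨hR.d₂.ss, hR.d₂.sy, hR.d₂.sP, hR.d₂.sG,
    unit_of fun a b => cl_mono (hR.d₂.cP a b) (min_le_right _ _)⟩
  have hβ : ∀ i a b, ContDiff ℝ ∞ fun x => rM (β i x) a b := fun i a b =>
    contDiff_rM (hR.sβ i) a b
  have hbR : ∀ i a b, ContDiff ℝ ∞ fun x => (rM (bR s₂ P₂ G₂ i x))ᵀ a b := fun i a b =>
    contDiff_rM (cf₂.sbR i) b a
  have hOb : O ⊆ Metric.closedBall 0 24 := by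
    intro x hx
    have h1 := (mem_Eb0 (by linarith)).1 (hOD hx)
    rw [mem_closedBall_zero_iff, pi_norm_le_iff_of_nonneg (by linarith)]
    intro i
    have h2 : x i ^ 2 ≤ sq x := Finset.single_le_sum (f := fun j => x j ^ 2)
      (fun j _ => sq_nonneg _) (Finset.mem_univ i)
    rw [Real.norm_eq_abs, ← Real.sqrt_sq_eq_abs]
    exact (Real.sqrt_le_sqrt h2).trans h1.le
  obtain ⟨C₁, hC₁, hI₁⟩ := intS_of n (Fin (N + N)) s₁ (fun i x => rM (β i x)) hR.d₁.ss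
    (fun i j => cl_mono (hR.d₁.cs i j) (min_le_left _ _)) hβ 24 O hOb t ht0 ht1
  obtain ⟨C₂, hC₂, hI₂⟩ := intS_of n (Fin (N + N)) s₂ (fun i x => (rM (bR s₂ P₂ G₂ i x))ᵀ)
    hR.d₂.ss (fun i j => cl_mono (hR.d₂.cs i j) (min_le_left _ _)) hbR 24 O hOb t ht0 ht1
  have hIm : ∀ {T : Sys n (Fin (N + N))} {c c' : ℝ}, c ≤ c' → IntS T O (2 * t) c →
      IntS T O (2 * t) c' := fun hc hI p hp u hu hL hi o a =>
    (hI p hp u hu hL hi o a).trans (mul_le_mul_of_nonneg_right hc (Real.sqrt_nonneg _))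
  have hDc : ∀ x, x ∈ Eb (0 : V n) 24 ∩ Gᶜ ↔ x ∈ Eb (0 : V n) 24 ∧ x ∉ G := fun x => Iff.rfl
  -- the cut-offs
  obtain ⟨η, hηs, hηc, hηO, hη1⟩ := exists_cut (n := n) (isOpen_Ao (1 - θ / 2) 19)
    (isCompact_Ac (1 - 3 / 10 * θ) 18) fun x hx =>
      ⟨lt_of_lt_of_le (by linarith) hx.1, lt_of_le_of_lt hx.2 (by linarith)⟩
  have hχt : tsupport χ ⊆ Ac n (1 - θ / 5) 12 := by
    refine closure_minimal (fun x hx => ?_) (isClosed_Ac _ _)
    by_contra h
    exact hx (hχ0 x h)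
  have hG1 : ∀ x : V n, √(sq x) < 1 → x ∈ G := fun x hx => hb1 ((mem_Eb0 one_pos).2 hx)
  have hoff : ∀ p ∈ tsupport χ \ G, 1 ≤ √(sq p) ∧ √(sq p) ≤ 12 := fun p hp =>
    ⟨not_lt.1 fun h => hp.2 (hG1 p h), (hχt hp.1).2⟩
  have hχO : tsupport χ ⊆ O := fun x hx =>
    hPO ⟨le_trans (by linarith) (hχt hx).1, le_trans (hχt hx).2 (by linarith)⟩
  have hgeo : GeoN (SL s₁ fun i x => rM (β i x)) (SL s₂ fun i x => (rM (bR s₂ P₂ G₂ i x))ᵀ)
      (MR (TP s₁ P₁) (kp s₁ G₁)) (fun a b x => rM (P₁ x) a b) (HC (TP s₁ P₁) (kp s₁ G₁))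
      (HC (TP s₂ P₂) (kp s₂ G₂)) (Eb 0 24) G O (Ac n (1 - 9 / 10 * θ) 20) (Ac n 18 19) (Ac n 10 20)
      χ η (2 * t) (C₁ + C₂) :=
    { oD := isOpen_Eb 0 24
      oO := hO
      OD := hOD
      cP := isCompact_Ac _ _
      PO := hPO
      oG := hoG
      cF := isCompact_Ac _ _
      h₁ := HC_cd (fun i j => cf₁.sT i j) cf₁.sκ
      h₂ := HC_cd (fun i j => cf₂.sT i j) cf₂.sκ
      sS := fun a w => cont_SL hR.d₁.ss (fun i a b => (hβ i a b).continuous) a w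
      sp := fun a b => (contDiff_rM hR.d₁.sP a b).continuous
      mo := fun u hu x hx a => cf₁.mo hu (fun i => hR.eβ i x hx) a
      ad := fun g hg he c x hx =>
        cf₂.ad hO hg hx.1 (fun a => he a x hx.1) (hR.d₂.dq x ⟨hOD hx.1, hx.2⟩) c
      eqH := by
        intro x hx m
        have hx' : x ∉ Gᶜ := fun h => h hx.1
        have e1 : ∀ i j, TP s₂ P₂ i j x = TP s₁ P₁ i j x := fun i j => by
          unfold TP
          rw [hR.os x hx.2 hx', hR.oP x hx.2 hx']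
        have e2 : ∀ i, kp s₂ G₂ i x = kp s₁ G₁ i x := fun i => by
          unfold kp
          rw [hR.os x hx.2 hx']
          exact Finset.sum_congr rfl fun j _ => by rw [hR.oG j x hx.2 hx']
        obtain ⟨i, o, p, q⟩ := m
        cases o with
        | none => show -rM (kp s₂ G₂ i x) p q = -rM (kp s₁ G₁ i x) p q; rw [e2]
        | some j => show rM (TP s₂ P₂ j i x) p q = rM (TP s₁ P₁ j i x) p q; rw [e1]
      ie₁ := hIm (by linarith) hI₁
      ie₂ := hIm (by linarith) hI₂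
      C0 := by positivity
      r0 := by positivity
      χs := hχs
      χc := HasCompactSupport.of_support_subset_isCompact (isCompact_Ac (1 - θ / 5) 12)
        ((subset_tsupport χ).trans hχt)
      χO := hχO
      ηs := hηs
      ηc := hηc
      ηP := hηO.trans fun x hx =>
        ⟨le_trans (by linarith) hx.1.le, le_trans hx.2.le (by linarith)⟩
      fa := by
        intro x hxD hx
        have h1 : 1 ≤ √(sq x) := not_lt.1 fun h => hxD.2 (hG1 x h)
        by_cases h2 : √(sq x) < 18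
        · have h3 : x ∈ Ao n (1 - 3 / 10 * θ) 18 := ⟨lt_of_lt_of_le (by linarith) h1, h2⟩
          have h4 : ∀ y ∈ Ao n (1 - 3 / 10 * θ) 18, η y = 1 := fun y hy =>
            hη1 y ⟨hy.1.le, hy.2.le⟩
          exact ⟨fun i => pd_zero_of (isOpen_Ao _ _) h4 h3 i, fun i j =>
            pd_zero_of (isOpen_Ao _ _) (fun y hy => pd_zero_of (isOpen_Ao _ _) h4 hy j) h3 i⟩
        · push Not at h2
          have h3 : x ∉ tsupport η := by
            intro h
            exact hx ⟨h2, (hηO h).2.le⟩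
          exact ⟨fun i => pd_off_ts h3 i, fun i j => pd2_off_ts h3 i j⟩
      fab := by
        intro x hx y hy
        have h := hb hy
        exact ⟨by linarith [hx.1, h.1], by linarith [hx.2, h.2]⟩
      fbP := fun x hx => ⟨le_trans (by linarith) hx.1, hx.2⟩
      q₁ := by
        intro p hp x hx
        have h := hb hx
        have h' := hoff p hp
        exact ⟨by linarith [h.1, h'.1], by linarith [h.2, h'.2]⟩
      q₂ := by
        intro p hp x hx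
        have h := hb hx
        have h' := hoff p hp
        exact hη1 x ⟨by linarith [h.1, h'.1], by linarith [h.2, h'.2]⟩
      q₄ := by
        intro p hp hi x hx
        have h := hb hx
        have h' := hoff p hp
        have h11 : 11 ≤ √(sq p) := by
          by_contra hc
          push Not at hc
          obtain ⟨i, hi⟩ := hi
          exact hi (pd_zero_of (isOpen_Ao (1 - θ / 10) 11) hχ1
            ⟨lt_of_lt_of_le (by linarith) h'.1, hc⟩ i)
        exact ⟨by linarith [h.1], by linarith [h.2, h'.2]⟩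
      q₅ := by
        intro p hp x hx
        have h := hb hx
        have h' := hηO hp
        exact ⟨by linarith [h.1, h'.1], by linarith [h.2, h'.2]⟩ }
  have hst := stpR_of (isOpen_Eb 0 24) hoG.measurableSet (fun i j => cf₁.sT i j)
    (fun i j => cf₂.sT i j) cf₁.sκ cf₂.sκ h3
  obtain ⟨B, hB, hfin⟩ := trfR hgeo hst
  refine ⟨B, hB, ?_⟩
  intro K S hS hK hL hRk hfar
  have hU : IsOpen (O ×ˢ O) := hO.prod hO
  -- the bound for the real part
  have main : ∀ K : KC n N, SmK (O ×ˢ O) K → (∀ z ∈ O ×ˢ O, Lk s₁ β K z = 0) →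
      (∀ z ∈ O ×ˢ O, Rk s₂ (bR s₂ P₂ G₂) K z = 0) →
      (∀ x ∈ Ac n (1 - 9 / 10 * θ) 20, ∀ y ∈ Ac n 10 20, ∀ a b,
        ‖K (x, y) a b‖ ≤ S ∧ ‖K (y, x) a b‖ ≤ S) →
      |∫ x, χ x * (dgB s₁ s₂ P₁ P₂ G₁ G₂ K x).re| ≤ B * S / 2 := by
    intro K hK hL hRk hfar
    have h1 := hfin (kR K) S hS (fun a b => cd_kR hK a b)
      (fun a b z hz => by rw [opx_kR hU hK hz, hL z hz, rM_zero]; rfl)
      (fun a b z hz => by rw [opy_kR hU hK hz, hRk z hz, rM_zero]; rfl)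
      (fun x hx y hy a b => ⟨abs_rM_le (fun a b => (hfar x hx y hy a b).1) a b,
        abs_rM_le (fun a b => (hfar x hx y hy a b).2) a b⟩)
    have h2 : ∫ x, χ x * ∑ m : Ib n (Fin (N + N)),
        (HC (TP s₂ P₂) (kp s₂ G₂) m x - HC (TP s₁ P₁) (kp s₁ G₁) m x) *
        dx m.1 (jy m.2.1 (kR K m.2.2.2 m.2.2.1)) (x, x) =
        2 * ∫ x, χ x * (dgB s₁ s₂ P₁ P₂ G₁ G₂ K x).re := by
      rw [← integral_const_mul]
      refine integral_congr_ae (Filter.Eventually.of_forall fun x => ?_)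
      by_cases hx : x ∈ O
      · show χ x * _ = 2 * (χ x * _)
        rw [dgB_re hU hK (show (x, x) ∈ O ×ˢ O from ⟨hx, hx⟩)]
        ring
      · have h3 : χ x = 0 := by
          by_contra hc
          exact hx (hχO (subset_tsupport χ hc))
        show χ x * _ = 2 * (χ x * _)
        rw [h3]; ring
    rw [h2, abs_mul, abs_two] at h1
    linarith
  have h1 := main K hK hL hRk hfar
  have h2 := main (fun z => (-Complex.I) • K z) (SmK.cmul hK _)
    (fun z hz => by rw [Lk_cmul hU hK hz, hL z hz, smul_zero])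
    (fun z hz => by rw [Rk_cmul hU hK hz, hRk z hz, smul_zero])
    (fun x hx y hy a b => by
      have h := hfar x hx y hy a b
      simp only [Matrix.smul_apply, smul_eq_mul, norm_mul, norm_neg, Complex.norm_I, one_mul]
      exact h)
  have h2' : ∫ x, χ x * (dgB s₁ s₂ P₁ P₂ G₁ G₂ (fun z => (-Complex.I) • K z) x).re =
      ∫ x, χ x * (dgB s₁ s₂ P₁ P₂ G₁ G₂ K x).im := by
    refine integral_congr_ae (Filter.Eventually.of_forall fun x => ?_)
    by_cases hx : x ∈ O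
    · show χ x * _ = χ x * _
      rw [dgB_cmul hU hK (show (x, x) ∈ O ×ˢ O from ⟨hx, hx⟩)]
      simp
    · have h3 : χ x = 0 := by
        by_contra hc
        exact hx (hχO (subset_tsupport χ hc))
      show χ x * _ = χ x * _
      rw [h3]; ring
  rw [h2'] at h2
  by_cases hint : Integrable fun x => (χ x : ℂ) * dgB s₁ s₂ P₁ P₂ G₁ G₂ K x
  · have r1 := integral_re (𝕜 := ℂ) hint
    have r2 := integral_im (𝕜 := ℂ) hint
    have r1' : (∫ x, (χ x : ℂ) * dgB s₁ s₂ P₁ P₂ G₁ G₂ K x).re =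
        ∫ x, χ x * (dgB s₁ s₂ P₁ P₂ G₁ G₂ K x).re := by
      refine r1.symm.trans (integral_congr_ae (Filter.Eventually.of_forall fun x => ?_))
      exact Complex.re_ofReal_mul _ _
    have r2' : (∫ x, (χ x : ℂ) * dgB s₁ s₂ P₁ P₂ G₁ G₂ K x).im =
        ∫ x, χ x * (dgB s₁ s₂ P₁ P₂ G₁ G₂ K x).im := by
      refine r2.symm.trans (integral_congr_ae (Filter.Eventually.of_forall fun x => ?_))
      exact Complex.im_ofReal_mul _ _
    refine (Complex.norm_le_abs_re_add_abs_im _).trans ?_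
    rw [r1', r2']
    linarith
  · rw [integral_undef hint, norm_zero]
    positivity

end Vale.Agent.P088.HY.TN
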