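import Vale.Agent.P088.R2.H455.S4.Core4
import Vale.Agent.P088.R2.H354.N.Rl

/-!
# The transfer of finite families for pairs in real form
-/

open MeasureTheory Set
open scoped ContDiff Matrix Topology

noncomputable section

set_option linter.unusedSectionVars false

namespace Vale.Agent.P088.HY.TN

open Vale.Agent.P088.LR hiding fr
open Vale.Agent.P088.LR.U Vale.Agent.P088.LR.H158 G T3
open Vale.Agent.P088.S4 (pdv MoV nv StpN)
open Vale.Agent.P088.HY.T9 (fl fr cas sumL rM rM_ll rM_lr rM_rl rM_rr rM_mul rM_add rM_neg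
  rM_sub ext4 cV mk_eq contDiff_mk pd_mk contDiff_cV contDiff_rM)

variable {n N : ℕ}

/-- The coefficients of the bilinear form. -/
def HC (T : Fin n → Fin n → MC n N) (κ : Fin n → MC n N) (m : Ib n (Fin (N + N))) (x : V n) : ℝ :=
  match m with
  | (i, some j, p, q) => rM (T j i x) p q
  | (i, none, p, q) => -rM (κ i x) p q

/-- The real form of the operator `M`. -/
def MR (T : Fin n → Fin n → MC n N) (κ : Fin n → MC n N) (u : Fin (N + N) → V n → ℝ)
    (p : Fin (N + N)) (x : V n) : ℝ := rv (MoV T κ (cV u) x) p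

theorem HC_cd {T : Fin n → Fin n → MC n N} {κ : Fin n → MC n N} (hT : ∀ i j, SmC (T i j))
    (hκ : ∀ i, SmC (κ i)) (m : Ib n (Fin (N + N))) : ContDiff ℝ ∞ (HC T κ m) := by
  obtain ⟨i, o, p, q⟩ := m
  cases o with
  | none => exact (contDiff_rM (hκ i) p q).neg
  | some j => exact contDiff_rM (hT j i) p q

theorem sum_IbN (f : Ib n (Fin (N + N)) → ℝ) : ∑ m, f m =
    ∑ i, ((∑ p, ∑ q, f (i, none, p, q)) + ∑ j, ∑ p, ∑ q, f (i, some j, p, q)) := by
  rw [Fintype.sum_prod_type]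
  refine Finset.sum_congr rfl fun i _ => ?_
  rw [Fintype.sum_prod_type, Fintype.sum_option]
  simp only [Fintype.sum_prod_type]

/-- The bilinear form in real form. -/
theorem sum_HC (T : Fin n → Fin n → MC n N) (κ : Fin n → MC n N) (x : V n)
    (g : Fin n → Fin N → ℂ) (φ : Fin (N + N) → V n → ℝ) (dφ : Fin n → Fin (N + N) → V n → ℝ) :
    ((∑ i, ∑ j, cW (dφ j) x ⬝ᵥ (T j i x *ᵥ g i)) - ∑ i, cW φ x ⬝ᵥ (κ i x *ᵥ g i)).re =
      ∑ m : Ib n (Fin (N + N)), HC T κ m x * (rv (g m.1) m.2.2.2 *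
        m.2.1.elim (φ m.2.2.1 x) fun j => dφ j m.2.2.1 x) := by
  rw [sum_IbN, Complex.sub_re, Complex.re_sum, Complex.re_sum]
  simp only [Complex.re_sum, re_cW, rv_mulVec]
  rw [← Finset.sum_sub_distrib]
  refine Finset.sum_congr rfl fun i _ => ?_
  have e1 : ∀ p q, HC T κ (i, none, p, q) x * (rv (g i) q * φ p x) =
      -(φ p x * (rM (κ i x) p q * rv (g i) q)) := fun p q => by
    show -rM (κ i x) p q * (rv (g i) q * φ p x) = _
    ring
  have e2 : ∀ j p q, HC T κ (i, some j, p, q) x * (rv (g i) q * dφ j p x) =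
      dφ j p x * (rM (T j i x) p q * rv (g i) q) := fun j p q => by
    show rM (T j i x) p q * (rv (g i) q * dφ j p x) = _
    ring
  simp only [Option.elim, e1, e2, Finset.mul_sum, Finset.sum_neg_distrib]
  ring

theorem pd_re' {f : V n → ℂ} {x : V n} (hf : DifferentiableAt ℝ f x) (i : Fin n) :
    pd i (fun z => (f z).re) x = (pd i f x).re := fd_re hf _

theorem pd_im' {f : V n → ℂ} {x : V n} (hf : DifferentiableAt ℝ f x) (i : Fin n) :
    pd i (fun z => (f z).im) x = (pd i f x).im := fd_im hf _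

theorem pd_rv {w : V n → Fin N → ℂ} {x : V n} (hw : ∀ a, DifferentiableAt ℝ (fun y => w y a) x)
    (i : Fin n) (p : Fin (N + N)) : pd i (fun y => rv (w y) p) x = rv (pdv i w x) p := by
  refine cas (P := fun p => pd i (fun y => rv (w y) p) x = rv (pdv i w x) p) (fun a => ?_)
    (fun a => ?_) p
  · simp only [rv_l]
    exact pd_re' (hw a) i
  · simp only [rv_r]
    exact pd_im' (hw a) i

theorem pdv_cV {u : Fin (N + N) → V n → ℝ} (hu : ∀ p, ContDiff ℝ ∞ (u p)) (i : Fin n) (x : V n) :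
    pdv i (cV u) x = cV (fun p => pd i (u p)) x := by
  funext a
  exact pd_mk ((hu _).differentiable (by simp) x) ((hu _).differentiable (by simp) x) i

theorem pdv_cW {u : Fin (N + N) → V n → ℝ} (hu : ∀ p, ContDiff ℝ ∞ (u p)) (i : Fin n) (x : V n) :
    pdv i (cW u) x = cW (fun p => pd i (u p)) x := by
  funext a
  show pd i (fun y => (⟨u (fl a) y, -u (fr a) y⟩ : ℂ)) x = _
  rw [pd_mk ((hu _).differentiable (by simp) x) (((hu _).neg).differentiable (by simp) x) i]
  show (⟨pd i (u (fl a)) x, pd i (fun y => -u (fr a) y) x⟩ : ℂ) = ⟨_, -pd i (u (fr a)) x⟩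
  congr 1
  show fderiv ℝ (fun y => -u (fr a) y) x _ = _
  rw [fderiv_fun_neg]
  rfl

theorem ts_cV {u : Fin (N + N) → V n → ℝ} : tsupport (cV u) ⊆ ⋃ p, tsupport (u p) := by
  refine closure_minimal (fun x hx => ?_) (isClosed_iUnion_of_finite fun p => isClosed_closure)
  by_contra h
  simp only [mem_iUnion, not_exists] at h
  refine hx ?_
  funext a
  show (⟨u (fl a) x, u (fr a) x⟩ : ℂ) = 0
  rw [image_eq_zero_of_notMem_tsupport (h _), image_eq_zero_of_notMem_tsupport (h _)]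
  rfl

theorem ts_cW {u : Fin (N + N) → V n → ℝ} : tsupport (cW u) ⊆ ⋃ p, tsupport (u p) := by
  refine closure_minimal (fun x hx => ?_) (isClosed_iUnion_of_finite fun p => isClosed_closure)
  by_contra h
  simp only [mem_iUnion, not_exists] at h
  refine hx ?_
  funext a
  show (⟨u (fl a) x, -u (fr a) x⟩ : ℂ) = 0
  rw [image_eq_zero_of_notMem_tsupport (h _), image_eq_zero_of_notMem_tsupport (h _), neg_zero]
  rfl

theorem cpt_iU {u : Fin (N + N) → V n → ℝ} (h : ∀ p, HasCompactSupport (u p)) :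
    IsCompact (⋃ p, tsupport (u p)) := isCompact_iUnion fun p => h p

theorem hcs_of {E : Type*} [Zero E] {f : V n → E} {Q : Set (V n)} (hQ : IsCompact Q)
    (h : tsupport f ⊆ Q) : HasCompactSupport f :=
  hQ.of_isClosed_subset isClosed_closure h

theorem contDiff_cW {u : Fin (N + N) → V n → ℝ} (hu : ∀ p, ContDiff ℝ ∞ (u p)) :
    ContDiff ℝ ∞ (cW u) := by
  rw [contDiff_pi]
  exact fun b => contDiff_mk (hu _) (hu _).neg

theorem memLp_rv {w : V n → Fin N → ℂ} {μ : Measure (V n)}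
    (hw : ∀ a, MemLp (fun x => w x a) 2 μ) (p : Fin (N + N)) :
    MemLp (fun x => rv (w x) p) 2 μ := by
  refine cas (P := fun p => MemLp (fun x => rv (w x) p) 2 μ) (fun a => ?_) (fun a => ?_) p
  · simp only [rv_l]
    exact (hw a).re
  · simp only [rv_r]
    exact (hw a).im

/-- Integrability of the terms of the bilinear form. -/
theorem term_int {T : MC n N} (hT : SmC T) {φ g : V n → Fin N → ℂ} (hφ : Continuous φ)
    (hc : HasCompactSupport φ) {μ : Measure (V n)} [IsFiniteMeasureOnCompacts μ]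
    (hg : ∀ a, MemLp (fun x => g x a) 2 μ) :
    Integrable (fun x => φ x ⬝ᵥ (T x *ᵥ g x)) μ := by
  have h1 : (fun x => φ x ⬝ᵥ (T x *ᵥ g x)) = fun x => ∑ a, ∑ b, (φ x a * T x a b) * g x b := by
    funext x
    simp only [dotProduct, Matrix.mulVec, Finset.mul_sum]
    exact Finset.sum_congr rfl fun a _ => Finset.sum_congr rfl fun b _ => by ring
  rw [h1]
  refine integrable_finsetSum _ fun a _ => integrable_finsetSum _ fun b _ => ?_
  have h2 : Continuous fun x => φ x a * T x a b :=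
    ((continuous_apply a).comp hφ).mul (hT a b).continuous
  have h3 : HasCompactSupport fun x => φ x a * T x a b := by
    refine hcs_of hc (closure_mono fun x hx => ?_)
    intro h
    refine hx ?_
    have h' : φ x = 0 := h
    simp [h']
  exact MemLp.integrable_mul (h2.memLp_of_hasCompactSupport (p := 2) h3) (hg b)

/-- **From complex to real form.** -/
theorem stpR_of {D Gm : Set (V n)} (hD : IsOpen D) (hG : MeasurableSet Gm)
    {T₁ T₂ : Fin n → Fin n → MC n N} {κ₁ κ₂ : Fin n → MC n N}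
    (hT₁ : ∀ i j, SmC (T₁ i j)) (hT₂ : ∀ i j, SmC (T₂ i j)) (hκ₁ : ∀ i, SmC (κ₁ i))
    (hκ₂ : ∀ i, SmC (κ₂ i)) (h : StpN D Gm T₁ κ₁ T₂ κ₂) :
    StpR D Gm (MR T₁ κ₁) (HC T₁ κ₁) (HC T₂ κ₂) := by
  obtain ⟨C₀, hC₀, h⟩ := h
  refine ⟨C₀, hC₀, fun d f hf hfc hfD ε hε => ?_⟩
  obtain ⟨w, dv, h1, h2, h3, h4, h5, h6, h7⟩ := h d (fun q => cV (f q))
    (fun q => contDiff_cV (hf q)) (fun q => hcs_of (cpt_iU (hfc q)) ts_cV)
    (fun q => ts_cV.trans (iUnion_subset (hfD q))) ε hε
  have hwd : ∀ q, ∀ x ∈ D, ∀ a, DifferentiableAt ℝ (fun y => w q y a) x := fun q x hx a =>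
    differentiableAt_pi.1 (((h1 q).contDiffAt (hD.mem_nhds hx)).differentiableAt (by simp)) a
  have hpd : ∀ q i p, ∀ x ∈ D, pd i (fun y => rv (w q y) p) x = rv (pdv i (w q) x) p :=
    fun q i p x hx => pd_rv (hwd q x hx) i p
  refine ⟨fun q p x => rv (w q x) p, fun q i p x => rv (dv q i x) p, ?_, ?_, ?_, ?_, ?_, ?_, ?_⟩
  · intro q p
    have hre : ∀ a, ContDiffOn ℝ 1 (fun x => w q x a) D := fun a =>
      (contDiffOn_pi.1 (h1 q)) a
    refine cas (P := fun p => ContDiffOn ℝ 1 (fun x => rv (w q x) p) D) (fun a => ?_)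
      (fun a => ?_) p
    · simp only [rv_l]
      exact Complex.reCLM.contDiff.comp_contDiffOn (hre a)
    · simp only [rv_r]
      exact Complex.imCLM.contDiff.comp_contDiffOn (hre a)
  · intro q p x hx
    show rv (w q x) p = 0
    rw [h2 q x hx, rv_zero]
  · exact fun q p => memLp_rv (h3 q) p
  · intro q i p
    refine (memLp_rv (w := fun x => pdv i (w q) x) (h4 q i) p).ae_eq ?_
    refine (ae_restrict_iff' hD.measurableSet).2 (Filter.Eventually.of_forall fun x hx => ?_)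
    exact (hpd q i p x hx).symm
  · exact fun q i p => memLp_rv (w := fun x => dv q i x) (h5 q i) p
  · intro q φ hφ hφc hφD
    have k1 := h6 q (cW φ) (contDiff_cW hφ) (hcs_of (cpt_iU hφc) ts_cW)
      (ts_cW.trans (iUnion_subset hφD))
    simp only [pdv_cW hφ] at k1
    have hφp : ∀ j p, ContDiff ℝ ∞ (pd j (φ p)) := fun j p => LR.H158.contDiff_pd (hφ p) j
    have hcW : ∀ j, Continuous (cW fun p => pd j (φ p)) := fun j =>
      (contDiff_cW (hφp j)).continuous
    have hcs : ∀ j, HasCompactSupport (cW fun p => pd j (φ p)) := by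
      intro j
      refine hcs_of (cpt_iU hφc) (ts_cW.trans (iUnion_mono fun p => ?_))
      refine closure_minimal (fun x hx => ?_) isClosed_closure
      by_contra hc
      exact hx (pd_off_ts hc j)
    have hcW0 : Continuous (cW φ) := (contDiff_cW hφ).continuous
    have hcs0 : HasCompactSupport (cW φ) := hcs_of (cpt_iU hφc) ts_cW
    have hi1 : Integrable (fun x => (∑ i, ∑ j, cW (fun p => pd j (φ p)) x ⬝ᵥ
        (T₂ j i x *ᵥ pdv i (w q) x)) - ∑ i, cW φ x ⬝ᵥ (κ₂ i x *ᵥ pdv i (w q) x))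
        (volume.restrict D) := by
      refine Integrable.sub (integrable_finsetSum _ fun i _ => integrable_finsetSum _
        fun j _ => ?_) (integrable_finsetSum _ fun i _ => ?_)
      · exact term_int (hT₂ j i) (hcW j) (hcs j) (h4 q i)
      · exact term_int (hκ₂ i) hcW0 hcs0 (h4 q i)
    have hsub : ∀ {A B : MC n N}, SmC A → SmC B → SmC fun x => A x - B x := fun hA hB a b =>
      (hA a b).sub (hB a b)
    have hi2 : Integrable (fun x => (∑ i, ∑ j, cW (fun p => pd j (φ p)) x ⬝ᵥ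
        ((T₁ j i x - T₂ j i x) *ᵥ dv q i x)) - ∑ i, cW φ x ⬝ᵥ ((κ₁ i x - κ₂ i x) *ᵥ dv q i x))
        (volume.restrict (D \ Gm)) := by
      refine Integrable.sub (integrable_finsetSum _ fun i _ => integrable_finsetSum _
        fun j _ => ?_) (integrable_finsetSum _ fun i _ => ?_)
      · exact term_int (hsub (hT₁ j i) (hT₂ j i)) (hcW j) (hcs j) (h5 q i)
      · exact term_int (hsub (hκ₁ i) (hκ₂ i)) hcW0 hcs0 (h5 q i)
    have k2 := congrArg Complex.re k1
    have r1 := integral_re (𝕜 := ℂ) hi1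
    have r2 := integral_re (𝕜 := ℂ) hi2
    have k3 : ∫ x in D, ((∑ i, ∑ j, cW (fun p => pd j (φ p)) x ⬝ᵥ
        (T₂ j i x *ᵥ pdv i (w q) x)) - ∑ i, cW φ x ⬝ᵥ (κ₂ i x *ᵥ pdv i (w q) x)).re =
        ∫ x in D \ Gm, ((∑ i, ∑ j, cW (fun p => pd j (φ p)) x ⬝ᵥ
        ((T₁ j i x - T₂ j i x) *ᵥ dv q i x)) -
          ∑ i, cW φ x ⬝ᵥ ((κ₁ i x - κ₂ i x) *ᵥ dv q i x)).re := r1.trans (k2.trans r2.symm)
    have e1 : ∫ x in D, ((∑ i, ∑ j, cW (fun p => pd j (φ p)) x ⬝ᵥ
        (T₂ j i x *ᵥ pdv i (w q) x)) - ∑ i, cW φ x ⬝ᵥ (κ₂ i x *ᵥ pdv i (w q) x)).re =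
        ∫ x in D, ∑ m : Ib n (Fin (N + N)), HC T₂ κ₂ m x *
          (pd m.1 (fun x => rv (w q x) m.2.2.2) x * jd m.2.1 (φ m.2.2.1) x) := by
      refine setIntegral_congr_fun hD.measurableSet fun x hx => ?_
      show ((∑ i, ∑ j, cW (fun p => pd j (φ p)) x ⬝ᵥ
        (T₂ j i x *ᵥ pdv i (w q) x)) - ∑ i, cW φ x ⬝ᵥ (κ₂ i x *ᵥ pdv i (w q) x)).re = _
      rw [sum_HC T₂ κ₂ x (fun i => pdv i (w q) x) φ (fun j p => pd j (φ p))]
      refine Finset.sum_congr rfl fun m _ => ?_
      rw [hpd q m.1 m.2.2.2 x hx]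
      congr 2
      cases m.2.1 <;> rfl
    have e2 : ∫ x in D \ Gm, ((∑ i, ∑ j, cW (fun p => pd j (φ p)) x ⬝ᵥ
        ((T₁ j i x - T₂ j i x) *ᵥ dv q i x)) -
          ∑ i, cW φ x ⬝ᵥ ((κ₁ i x - κ₂ i x) *ᵥ dv q i x)).re =
        ∫ x in D \ Gm, ∑ m : Ib n (Fin (N + N)), (HC T₁ κ₁ m x - HC T₂ κ₂ m x) *
          (rv (dv q m.1 x) m.2.2.2 * jd m.2.1 (φ m.2.2.1) x) := by
      refine integral_congr_ae (Filter.Eventually.of_forall fun x => ?_)
      show ((∑ i, ∑ j, cW (fun p => pd j (φ p)) x ⬝ᵥ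
        ((T₁ j i x - T₂ j i x) *ᵥ dv q i x)) -
          ∑ i, cW φ x ⬝ᵥ ((κ₁ i x - κ₂ i x) *ᵥ dv q i x)).re = _
      rw [sum_HC (fun j i x => T₁ j i x - T₂ j i x) (fun i x => κ₁ i x - κ₂ i x) x
        (fun i => dv q i x) φ (fun j p => pd j (φ p))]
      refine Finset.sum_congr rfl fun m _ => ?_
      obtain ⟨i, o, p, r⟩ := m
      cases o with
      | none =>
        show -rM (κ₁ i x - κ₂ i x) p r * (rv (dv q i x) r * φ p x) =
          (-rM (κ₁ i x) p r - -rM (κ₂ i x) p r) * (rv (dv q i x) r * φ p x)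
        rw [rM_sub, Matrix.sub_apply]
        ring
      | some j =>
        show rM (T₁ j i x - T₂ j i x) p r * (rv (dv q i x) r * pd j (φ p) x) =
          (rM (T₁ j i x) p r - rM (T₂ j i x) p r) * (rv (dv q i x) r * pd j (φ p) x)
        rw [rM_sub, Matrix.sub_apply]
    rw [← e1, ← e2]
    exact k3
  · intro c
    obtain ⟨b1, b2⟩ := h7 c
    have hDG : MeasurableSet (D \ Gm) := hD.measurableSet.diff hG
    have hpv : ∀ q i x, pdv i (cV (f q)) x = cV (fun p => pd i (f q p)) x := fun q i x =>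
      pdv_cV (hf q) i x
    have a1 : ∀ x, ∑ i, nv (∑ q, (c q : ℂ) • (dv q i x - pdv i (cV (f q)) x)) =
        ∑ a, ∑ i, (∑ q, c q * (rv (dv q i x) a - pd i (f q a) x)) ^ 2 := by
      intro x
      rw [Finset.sum_comm]
      refine Finset.sum_congr rfl fun i _ => ?_
      unfold nv
      rw [← sum_rv_sq]
      refine Finset.sum_congr rfl fun p _ => ?_
      rw [rv_sum]
      congr 1
      refine Finset.sum_congr rfl fun q _ => ?_
      rw [rv_smul, rv_sub, hpv, rv_cV]
    have a2 : ∀ x, nv (∑ q, (c q : ℂ) • MoV T₁ κ₁ (cV (f q)) x) =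
        ∑ a, (∑ q, c q * MR T₁ κ₁ (f q) a x) ^ 2 := by
      intro x
      unfold nv
      rw [← sum_rv_sq]
      refine Finset.sum_congr rfl fun p _ => ?_
      rw [rv_sum]
      congr 1
      refine Finset.sum_congr rfl fun q _ => ?_
      rw [rv_smul]
      rfl
    have a3 : ∀ x, nv (∑ q, (c q : ℂ) • cV (f q) x) +
        ∑ i, nv (∑ q, (c q : ℂ) • pdv i (cV (f q)) x) =
        ∑ a, ((∑ q, c q * f q a x) ^ 2 + ∑ i, (∑ q, c q * pd i (f q a) x) ^ 2) := by
      intro x
      rw [Finset.sum_add_distrib, Finset.sum_comm (s := Finset.univ (α := Fin (N + N)))]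
      congr 1
      · unfold nv
        rw [← sum_rv_sq]
        refine Finset.sum_congr rfl fun p _ => ?_
        rw [rv_sum]
        congr 1
        refine Finset.sum_congr rfl fun q _ => ?_
        rw [rv_smul, rv_cV]
      · refine Finset.sum_congr rfl fun i _ => ?_
        unfold nv
        rw [← sum_rv_sq]
        refine Finset.sum_congr rfl fun p _ => ?_
        rw [rv_sum]
        congr 1
        refine Finset.sum_congr rfl fun q _ => ?_
        rw [rv_smul, hpv, rv_cV]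
    have a4 : ∀ x ∈ D, nv (∑ q, (c q : ℂ) • w q x) +
        ∑ i, nv (∑ q, (c q : ℂ) • pdv i (w q) x) =
        ∑ a, ((∑ q, c q * rv (w q x) a) ^ 2 +
          ∑ i, (∑ q, c q * pd i (fun x => rv (w q x) a) x) ^ 2) := by
      intro x hx
      rw [Finset.sum_add_distrib, Finset.sum_comm (s := Finset.univ (α := Fin (N + N)))]
      congr 1
      · unfold nv
        rw [← sum_rv_sq]
        refine Finset.sum_congr rfl fun p _ => ?_
        rw [rv_sum]
        congr 1
        refine Finset.sum_congr rfl fun q _ => ?_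
        rw [rv_smul]
      · refine Finset.sum_congr rfl fun i _ => ?_
        unfold nv
        rw [← sum_rv_sq]
        refine Finset.sum_congr rfl fun p _ => ?_
        rw [rv_sum]
        congr 1
        refine Finset.sum_congr rfl fun q _ => ?_
        rw [rv_smul, hpd q i p x hx]
    simp only [a1, a2, a3] at b1 b2
    refine ⟨b1, ?_⟩
    rw [setIntegral_congr_fun hD.measurableSet a4] at b2
    exact b2

end Vale.Agent.P088.HY.TN
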