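import Vale.Agent.P088.R2.H354.N.Trg

/-!
# The bound by the far layer for systems: sums over the family, the identity
-/

open MeasureTheory Set
open scoped ContDiff Matrix Topology

noncomputable section

set_option linter.unusedSectionVars false

namespace Vale.Agent.P088.HY.TN

open Vale.Agent.P088.LR G T3

variable {n : ℕ} {ι : Type} [Fintype ι] {O P D X X' Y : Set (V n)}

theorem tot_bdN {J : Type} [Fintype J] (hO : IsOpen O) {S : Sys n ι} {r C : ℝ}
    (hI : IntS S O r C) (hC : 0 ≤ C)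
    {d : ℕ} {g : Fin d → ι → V n → ℝ} (hg : ∀ q b, ContDiffOn ℝ ∞ (g q b) O)
    (hgl : ∀ q b, ∀ x ∈ O, op S (g q) b x = 0) (hr : 0 < r) (hX : MeasurableSet X)
    (hXf : volume X < ⊤) (hX' : MeasurableSet X') (hXX' : X ⊆ X')
    (hY : IsCompact Y) (hYO : Y ⊆ O) (hXY : ∀ x ∈ X, Metric.ball x r ⊆ Y)
    {c : J → V n → ℝ} {a : Fin d → J → V n → ℝ} {o : J → Option (Fin n)} {b : J → ι}
    (ha : ∀ q m, MemLp (a q m) 2 (volume.restrict X))
    (h0 : ∀ x ∈ X' \ X, ∀ m q, c m x * (a q m x * jd (o m) (g q (b m)) x) = 0)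
    (hint : ∀ m q, IntegrableOn (fun x => c m x * (a q m x * jd (o m) (g q (b m)) x)) X')
    {M : ℝ} (hM : 0 ≤ M) (hcM : ∀ m, ∀ x ∈ X, |c m x| ≤ M) {c' T : ℝ} (hc' : 0 ≤ c')
    (hT : 0 < T)
    (hb : ∀ m, ∀ y ∈ Y, ∀ b, (∫ x in X, (∑ q, g q b y * a q m x) ^ 2) ≤ (c' * T) ^ 2) :
    |∑ q, ∫ x in X', ∑ m, c m x * (a q m x * jd (o m) (g q (b m)) x)| ≤
      Fintype.card J * (M * ((1 + volume.real X) *
        ((C * (√(Fintype.card ι) * c' * √(volume.real Y)) + 1) * T))) := by
  have e1 : ∑ q, ∫ x in X', ∑ m, c m x * (a q m x * jd (o m) (g q (b m)) x) =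
      ∑ m, ∫ x in X, c m x * ∑ q, a q m x * jd (o m) (g q (b m)) x := by
    have h1 : ∀ q, ∫ x in X', ∑ m, c m x * (a q m x * jd (o m) (g q (b m)) x) =
        ∑ m, ∫ x in X', c m x * (a q m x * jd (o m) (g q (b m)) x) := fun q =>
      integral_finsetSum _ fun m _ => hint m q
    simp only [h1]
    rw [Finset.sum_comm]
    refine Finset.sum_congr rfl fun m _ => ?_
    rw [← integral_finsetSum _ fun q _ => hint m q]
    have h2 : ∫ x in X', ∑ q, c m x * (a q m x * jd (o m) (g q (b m)) x) =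
        ∫ x in X, ∑ q, c m x * (a q m x * jd (o m) (g q (b m)) x) :=
      setIntegral_eq_of_subset_of_forall_sdiff_eq_zero hX' hXX' fun x hx =>
        Finset.sum_eq_zero fun q _ => h0 x hx m q
    rw [h2]
    exact integral_congr_ae (Filter.Eventually.of_forall fun x => (Finset.mul_sum _ _ _).symm)
  rw [e1]
  have hv : 0 ≤ volume.real Y := measureReal_nonneg
  have hv2 : √(volume.real Y) ^ 2 = volume.real Y := Real.sq_sqrt hv
  have hk2 : √(Fintype.card ι : ℝ) ^ 2 = Fintype.card ι := Real.sq_sqrt (Nat.cast_nonneg _)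
  have hsum : ∀ m, |∫ x in X, c m x * ∑ q, a q m x * jd (o m) (g q (b m)) x| ≤
      M * ((1 + volume.real X) *
        ((C * (√(Fintype.card ι) * c' * √(volume.real Y)) + 1) * T)) := by
    intro m
    obtain ⟨i1, i2⟩ := diag_bdN hO hI hC hg hgl hr hX hY hYO hXY (a := fun q => a q m)
      (fun q => ha q m) (hb m) (o m) (b m)
    refine l1_bd hXf hM (hcM m) hX i1 (by positivity) (i2.trans ?_)
    have e2 : C ^ 2 * (Fintype.card ι * ((c' * T) ^ 2 * volume.real Y)) =
        (C * (√(Fintype.card ι) * c' * √(volume.real Y)) * T) ^ 2 := by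
      calc _ = C ^ 2 * (√(Fintype.card ι : ℝ) ^ 2 * ((c' * T) ^ 2 * √(volume.real Y) ^ 2)) := by
            rw [hv2, hk2]
        _ = _ := by ring
    rw [e2]
    refine pow_le_pow_left₀ (by positivity) ?_ 2
    have : 0 < T := hT
    linarith
  calc _ ≤ ∑ _m : J, M * ((1 + volume.real X) *
        ((C * (√(Fintype.card ι) * c' * √(volume.real Y)) + 1) * T)) :=
        (Finset.abs_sum_le_sum_abs _ _).trans (Finset.sum_le_sum fun m _ => hsum m)
    _ = _ := by simp only [Finset.sum_const, Finset.card_univ, nsmul_eq_mul]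

/-! ## Integration by parts -/

/-- The flux of a row. -/
def Fl (H : Ib n ι → V n → ℝ) (g : ι → V n → ℝ) (i : Fin n) (c : ι) (x : V n) : ℝ :=
  ∑ o, ∑ a, H (i, o, a, c) x * jd o (g a) x

theorem cd_Fl (hO : IsOpen O) {H : Ib n ι → V n → ℝ} (hH : ∀ m, ContDiff ℝ ∞ (H m))
    {g : ι → V n → ℝ} (hg : ∀ a, ContDiffOn ℝ ∞ (g a) O) (i : Fin n) (c : ι) :
    ContDiffOn ℝ ∞ (Fl H g i c) O :=
  ContDiffOn.sum fun o _ => ContDiffOn.sum fun a _ =>
    (hH _).contDiffOn.mul (cd_jd hO (hg a) o)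

theorem sum_Ib (F : Fin n → Option (Fin n) → ι → ι → ℝ) :
    ∑ m : Ib n ι, F m.1 m.2.1 m.2.2.1 m.2.2.2 = ∑ i, ∑ c, ∑ o, ∑ a, F i o a c := by
  rw [Fintype.sum_prod_type]
  refine Finset.sum_congr rfl fun i _ => ?_
  rw [Fintype.sum_prod_type]
  have h1 : ∀ o : Option (Fin n), ∑ y : ι × ι, F i o y.1 y.2 = ∑ c, ∑ a, F i o a c := fun o => by
    rw [Fintype.sum_prod_type, Finset.sum_comm]
  simp only [h1]
  exact Finset.sum_comm

/-- `∫ χ H(∂w, g) = - ∫ H(w ∂χ, g)` if the flux of `g` is divergence free where `w ≠ 0`. -/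
theorem ibp_wN (hD : IsOpen D) (hO : IsOpen O) (hOD : O ⊆ D) {Gm : Set (V n)}
    {H : Ib n ι → V n → ℝ} (hH : ∀ m, ContDiff ℝ ∞ (H m))
    {χ : V n → ℝ} (hχ : ContDiff ℝ ∞ χ) (hχc : HasCompactSupport χ) (hχO : tsupport χ ⊆ O)
    {w g : ι → V n → ℝ} (hw : ∀ a, ContDiffOn ℝ 1 (w a) D)
    (hwG : ∀ a, ∀ x ∈ Gm ∩ D, w a x = 0) (hg : ∀ a, ContDiffOn ℝ ∞ (g a) O)
    (had : ∀ c, ∀ x ∈ O \ Gm, ∑ i, pd i (Fl H g i c) x = 0) :
    (∫ x in D, ∑ m : Ib n ι, H m x * (pd m.1 (w m.2.2.2) x * (χ x * jd m.2.1 (g m.2.2.1) x))) =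
      -∫ x in D, ∑ m : Ib n ι,
        H m x * (w m.2.2.2 x * (pd m.1 χ x * jd m.2.1 (g m.2.2.1) x)) := by
  set Z : Fin n → ι → V n → ℝ := fun i c x => χ x * Fl H g i c x with hZ
  have hZs : ∀ i c, ContDiff ℝ ∞ (Z i c) := fun i c => cut_mul1 hO hχ hχO (cd_Fl hO hH hg i c)
  have hZt : ∀ i c, tsupport (Z i c) ⊆ tsupport χ := fun i c =>
    closure_mono fun y hy => left_ne_zero_of_mul hy
  have hZc : ∀ i c, HasCompactSupport (Z i c) := fun i c => hχc.mul_right
  have hWs : ∀ i c, ContDiff ℝ 1 fun x => Z i c x * w c x := fun i c =>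
    cut_mulC1 hD (hZs i c) ((hZt i c).trans (hχO.trans hOD)) (hw c)
  have hWc : ∀ i c, HasCompactSupport fun x => Z i c x * w c x := fun i c => (hZc i c).mul_right
  have h0 : ∫ x, ∑ i, ∑ c, pd i (fun x => Z i c x * w c x) x = 0 := by
    rw [integral_finsetSum _ fun i _ => integrable_finsetSum _ fun c _ =>
      (int_pd_zero1 (hWs i c) (hWc i c) i).1]
    refine Finset.sum_eq_zero fun i _ => ?_
    rw [integral_finsetSum _ fun c _ => (int_pd_zero1 (hWs i c) (hWc i c) i).1]
    exact Finset.sum_eq_zero fun c _ => (int_pd_zero1 (hWs i c) (hWc i c) i).2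
  have hoff : ∀ x ∉ D, ∑ i, ∑ c, pd i (fun x => Z i c x * w c x) x = 0 := by
    intro x hx
    refine Finset.sum_eq_zero fun i _ => Finset.sum_eq_zero fun c _ => ?_
    have hx' : x ∉ tsupport χ := fun h => hx (hOD (hχO h))
    have hn : (tsupport χ)ᶜ ∈ 𝓝 x := (isClosed_tsupport χ).isOpen_compl.mem_nhds hx'
    have e1 : (fun x => Z i c x * w c x) =ᶠ[𝓝 x] fun _ => 0 :=
      Filter.eventually_of_mem hn fun y hy => by
        show χ y * Fl H g i c y * w c y = 0
        rw [image_eq_zero_of_notMem_tsupport hy]; ring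
    unfold pd; rw [e1.fderiv_eq]; simp
  rw [← setIntegral_eq_integral_of_forall_compl_eq_zero hoff] at h0
  have hpt : ∀ x ∈ D, ∑ i, ∑ c, pd i (fun x => Z i c x * w c x) x =
      (∑ m : Ib n ι, H m x * (pd m.1 (w m.2.2.2) x * (χ x * jd m.2.1 (g m.2.2.1) x))) +
      ∑ m : Ib n ι, H m x * (w m.2.2.2 x * (pd m.1 χ x * jd m.2.1 (g m.2.2.1) x)) := by
    intro x hx
    have dw : ∀ c, DifferentiableAt ℝ (w c) x := fun c =>
      ((hw c).contDiffAt (hD.mem_nhds hx)).differentiableAt (by simp)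
    have dZ : ∀ i c, DifferentiableAt ℝ (Z i c) x := fun i c =>
      (hZs i c).differentiable (by simp) x
    have e1 : ∀ i c, pd i (fun x => Z i c x * w c x) x =
        Z i c x * pd i (w c) x + w c x * pd i (Z i c) x := fun i c => pd_mul (dZ i c) (dw c) i
    simp only [e1, Finset.sum_add_distrib]
    rw [sum_Ib fun i o a c => H (i, o, a, c) x * (pd i (w c) x * (χ x * jd o (g a) x)),
      sum_Ib fun i o a c => H (i, o, a, c) x * (w c x * (pd i χ x * jd o (g a) x))]
    congr 1
    · refine Finset.sum_congr rfl fun i _ => Finset.sum_congr rfl fun c _ => ?_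
      simp only [hZ, Fl, Finset.mul_sum, Finset.sum_mul]
      exact Finset.sum_congr rfl fun o _ => Finset.sum_congr rfl fun a _ => by ring
    · by_cases hxG : x ∈ Gm
      · have hw0 : ∀ c, w c x = 0 := fun c => hwG c x ⟨hxG, hx⟩
        simp only [hw0, zero_mul, mul_zero, Finset.sum_const_zero]
      by_cases hxO : x ∈ O
      · have e4 : ∀ i c, pd i (Z i c) x = χ x * pd i (Fl H g i c) x + Fl H g i c x * pd i χ x :=
          fun i c => pd_mul (hχ.differentiable (by simp) x) (dAt1 hO (cd_Fl hO hH hg i c) hxO) i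
        have e5 : ∑ i, ∑ c, w c x * pd i (Z i c) x =
            ∑ i, ∑ c, w c x * (Fl H g i c x * pd i χ x) := by
          rw [Finset.sum_comm, Finset.sum_comm (f := fun i c => w c x * (Fl H g i c x * pd i χ x))]
          refine Finset.sum_congr rfl fun c _ => ?_
          rw [← Finset.mul_sum, ← Finset.mul_sum]
          congr 1
          simp only [e4, Finset.sum_add_distrib, ← Finset.mul_sum]
          rw [had c x ⟨hxO, hxG⟩, mul_zero, zero_add]
        rw [e5]
        refine Finset.sum_congr rfl fun i _ => Finset.sum_congr rfl fun c _ => ?_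
        simp only [Fl, Finset.sum_mul, Finset.mul_sum]
        exact Finset.sum_congr rfl fun o _ => Finset.sum_congr rfl fun a _ => by ring
      · have hx' : x ∉ tsupport χ := fun h => hxO (hχO h)
        have e4 : ∀ i c, pd i (Z i c) x = 0 := fun i c =>
          pd_off_ts (fun h => hx' (hZt i c h)) i
        have e5 : ∀ i, pd i χ x = 0 := fun i => pd_off_ts hx' i
        simp only [e4, e5, zero_mul, mul_zero, Finset.sum_const_zero]
  rw [setIntegral_congr_fun hD.measurableSet hpt, integral_add] at h0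
  · linarith
  · have hc : ∀ m : Ib n ι, Integrable fun x =>
        (χ x * (H m x * jd m.2.1 (g m.2.2.1) x)) * pd m.1 (w m.2.2.2) x := by
      intro m
      have a1 : ContDiff ℝ ∞ fun x => χ x * (H m x * jd m.2.1 (g m.2.2.1) x) :=
        cut_mul1 hO hχ hχO ((hH m).contDiffOn.mul (cd_jd hO (hg _) _))
      have a2 : tsupport (fun x => χ x * (H m x * jd m.2.1 (g m.2.2.1) x)) ⊆ D :=
        (closure_mono fun y hy => left_ne_zero_of_mul hy).trans (hχO.trans hOD)
      have a3 : HasCompactSupport fun x => χ x * (H m x * jd m.2.1 (g m.2.2.1) x) :=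
        hχc.mul_right
      have a4 : ContinuousOn (pd m.1 (w m.2.2.2)) D := by
        have := (hw m.2.2.2).continuousOn_fderiv_of_isOpen hD (by simp)
        exact this.clm_apply continuousOn_const
      have a5 : Continuous fun x =>
          (χ x * (H m x * jd m.2.1 (g m.2.2.1) x)) * pd m.1 (w m.2.2.2) x := by
        rw [continuous_iff_continuousAt]
        intro x
        by_cases hx : x ∈ D
        · exact a1.continuous.continuousAt.mul (a4.continuousAt (hD.mem_nhds hx))
        · have hx' : x ∉ tsupport (fun x => χ x * (H m x * jd m.2.1 (g m.2.2.1) x)) := fun h =>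
            hx (a2 h)
          have hn := (isClosed_tsupport
            (fun x => χ x * (H m x * jd m.2.1 (g m.2.2.1) x))).isOpen_compl.mem_nhds hx'
          have : (fun x => (χ x * (H m x * jd m.2.1 (g m.2.2.1) x)) * pd m.1 (w m.2.2.2) x) =ᶠ[𝓝 x]
              fun _ => 0 := Filter.eventually_of_mem hn fun y hy => by
              show (χ y * (H m y * jd m.2.1 (g m.2.2.1) y)) * pd m.1 (w m.2.2.2) y = 0
              have h6 : χ y * (H m y * jd m.2.1 (g m.2.2.1) y) = 0 :=
                image_eq_zero_of_notMem_tsupport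
                  (f := fun x => χ x * (H m x * jd m.2.1 (g m.2.2.1) x)) hy
              rw [h6, zero_mul]
          exact continuousAt_const.congr this.symm
      exact a5.integrable_of_hasCompactSupport a3.mul_right
    have : Integrable fun x => ∑ m : Ib n ι,
        H m x * (pd m.1 (w m.2.2.2) x * (χ x * jd m.2.1 (g m.2.2.1) x)) := by
      refine integrable_finsetSum _ fun m _ => ?_
      exact (hc m).congr (Filter.Eventually.of_forall fun x => by
        show (χ x * (H m x * jd m.2.1 (g m.2.2.1) x)) * pd m.1 (w m.2.2.2) x = _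
        ring)
    exact this.integrableOn
  · have hc : ∀ m : Ib n ι, Integrable fun x =>
        (pd m.1 χ x * (H m x * jd m.2.1 (g m.2.2.1) x)) * w m.2.2.2 x := by
      intro m
      have hcs : tsupport (pd m.1 χ) ⊆ O := (tsupport_fderiv_apply_subset ℝ _).trans hχO
      have hcc : HasCompactSupport (pd m.1 χ) := hχc.fderiv_apply ℝ (Pi.single m.1 1)
      have a1 : ContDiff ℝ ∞ fun x => pd m.1 χ x * (H m x * jd m.2.1 (g m.2.2.1) x) :=
        cut_mul1 hO ((hχ.fderiv_right (by simp)).clm_apply contDiff_const) hcs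
          ((hH m).contDiffOn.mul (cd_jd hO (hg _) _))
      have a2 : tsupport (fun x => pd m.1 χ x * (H m x * jd m.2.1 (g m.2.2.1) x)) ⊆ D :=
        (closure_mono fun y hy => left_ne_zero_of_mul hy).trans (hcs.trans hOD)
      have a3 : HasCompactSupport fun x => pd m.1 χ x * (H m x * jd m.2.1 (g m.2.2.1) x) :=
        hcc.mul_right
      exact (cut_mulC1 hD a1 a2 (hw _)).continuous.integrable_of_hasCompactSupport a3.mul_right
    have : Integrable fun x => ∑ m : Ib n ι,
        H m x * (w m.2.2.2 x * (pd m.1 χ x * jd m.2.1 (g m.2.2.1) x)) := by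
      refine integrable_finsetSum _ fun m _ => ?_
      exact (hc m).congr (Filter.Eventually.of_forall fun x => by
        show (pd m.1 χ x * (H m x * jd m.2.1 (g m.2.2.1) x)) * w m.2.2.2 x = _
        ring)
    exact this.integrableOn

end Vale.Agent.P088.HY.TN
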