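import Vale.Agent.P088.R2.H354.N.Jid

/-!
# The bound by the far layer for systems (real form)
-/

open MeasureTheory Set
open scoped ContDiff Matrix Topology

noncomputable section

set_option linter.unusedSectionVars false

namespace Vale.Agent.P088.HY.TN

open Vale.Agent.P088.LR G T3

variable {n : ℕ} {ι : Type} [Fintype ι] {S₁ S₂ : Sys n ι} {M : (ι → V n → ℝ) → ι → V n → ℝ}
  {p : ι → ι → V n → ℝ} {H₁ H₂ : Ib n ι → V n → ℝ} {D Gm O P Fa Fb : Set (V n)}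
  {χ η : V n → ℝ} {r C : ℝ} {k R : ι → ι → VV n → ℝ} {δ A B : ℝ} {d : ℕ}
  {e g w : Fin d → ι → V n → ℝ} {dv : Fin d → Fin n → ι → V n → ℝ}

theorem splitN (hO : IsOpen O) (hA : AprN S₁ S₂ O P k R δ e g) {x : V n} (hx : x ∈ O)
    (i : Fin n) (o : Option (Fin n)) (a c : ι) : dx i (jy o (k c a)) (x, x) =
      dx i (jy o (R c a)) (x, x) + ∑ q, pd i (e q c) x * jd o (g q a) x := by
  have h1 : ∀ x' ∈ O, jy o (k c a) (x', x) =
      jy o (R c a) (x', x) + ∑ q, jd o (g q a) x * e q c x' := by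
    intro x' hx'
    rw [← jd_sly hO (hA.ks c a) hx' hx o, ← jd_sly hO (hA.Rs c a) hx' hx o]
    have h2 : (fun y => k c a (x', y)) = fun y => R c a (x', y) + ∑ q, e q c x' * g q a y := by
      funext y
      rw [hA.Re]
      have : ∑ q, g q a y * e q c x' = ∑ q, e q c x' * g q a y :=
        Finset.sum_congr rfl fun q _ => mul_comm _ _
      show k c a (x', y) = k c a (x', y) - ∑ q, g q a y * e q c x' + _
      rw [this]; ring
    rw [h2, jd_add hO (sly (hA.Rs c a) hx') (g := fun y => ∑ q, e q c x' * g q a y)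
      (ContDiffOn.sum fun q _ => contDiffOn_const.mul (hA.gs q a)) hx o,
      jd_sumO hO (fun q => e q c x') hx (fun q => hA.gs q a) o]
    congr 1
    exact Finset.sum_congr rfl fun q _ => mul_comm _ _
  have a1 := jd_slx hO (cd_jy hO (hA.ks c a) o) hx hx (some i)
  have a2 := jd_slx hO (cd_jy hO (hA.Rs c a) o) hx hx (some i)
  simp only [jx_some] at a1 a2
  rw [← a1, ← a2, jd_cg hO h1 hx (some i), jd_add hO (slx (cd_jy hO (hA.Rs c a) o) hx)
    (g := fun x' => ∑ q, jd o (g q a) x * e q c x')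
    (ContDiffOn.sum fun q _ => contDiffOn_const.mul (hA.es q c)) hx (some i),
    jd_sumO hO (fun q => jd o (g q a) x) hx (fun q => hA.es q c) (some i)]
  congr 1
  exact Finset.sum_congr rfl fun q _ => mul_comm _ _

/-- Bounds of the coefficients with the cut-off. -/
theorem coef_bdN (h₁ : ∀ m, ContDiff ℝ ∞ (H₁ m)) (h₂ : ∀ m, ContDiff ℝ ∞ (H₂ m))
    (hχ : ContDiff ℝ ∞ χ) (hχc : HasCompactSupport χ) : ∃ K : ℝ, 0 ≤ K ∧ ∀ x (m : Ib n ι),
      |χ x * (H₂ m x - H₁ m x)| ≤ K ∧ |jc m.2.1 χ x * (H₁ m x - H₂ m x)| ≤ K ∧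
      |pd m.1 χ x * H₂ m x| ≤ K ∧ |jc m.2.1 χ x * H₂ m x| ≤ K := by
  have hc1 : ∀ j, ContDiff ℝ ∞ (pd j χ) := fun j =>
    (hχ.fderiv_right (by simp)).clm_apply contDiff_const
  have hcs1 : ∀ j, HasCompactSupport (pd j χ) := fun j => hχc.fderiv_apply ℝ (Pi.single j 1)
  choose A1 hA1 a1 using fun m : Ib n ι => bdd_cs (F := fun x => χ x * (H₂ m x - H₁ m x))
    (hχ.continuous.mul ((h₂ m).continuous.sub (h₁ m).continuous)) hχc.mul_right
  choose A2 hA2 a2 using fun m : Ib n ι =>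
    bdd_cs (F := fun x => jc m.2.1 χ x * (H₁ m x - H₂ m x))
      ((jc_cd hχ m.2.1).continuous.mul ((h₁ m).continuous.sub (h₂ m).continuous))
      (jc_cs hχc m.2.1).mul_right
  choose A3 hA3 a3 using fun m : Ib n ι => bdd_cs (F := fun x => pd m.1 χ x * H₂ m x)
      ((hc1 m.1).continuous.mul (h₂ m).continuous) (hcs1 m.1).mul_right
  choose A4 hA4 a4 using fun m : Ib n ι => bdd_cs (F := fun x => jc m.2.1 χ x * H₂ m x)
      ((jc_cd hχ m.2.1).continuous.mul (h₂ m).continuous) (jc_cs hχc m.2.1).mul_right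
  have hn : ∀ m, 0 ≤ A1 m + A2 m + A3 m + A4 m := fun m =>
    add_nonneg (add_nonneg (add_nonneg (hA1 m) (hA2 m)) (hA3 m)) (hA4 m)
  refine ⟨∑ m, (A1 m + A2 m + A3 m + A4 m), Finset.sum_nonneg fun m _ => hn m,
    fun x m => ?_⟩
  have h1 : A1 m + A2 m + A3 m + A4 m ≤ ∑ m, (A1 m + A2 m + A3 m + A4 m) :=
    Finset.single_le_sum (f := fun m => A1 m + A2 m + A3 m + A4 m) (fun m _ => hn m)
      (Finset.mem_univ m)
  have := hA1 m
  have := hA2 m
  have := hA3 m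
  have := hA4 m
  exact ⟨(a1 m x).trans (by linarith), (a2 m x).trans (by linarith),
    (a3 m x).trans (by linarith), (a4 m x).trans (by linarith)⟩

theorem mono_oneN {X X' : Set (V n)} (h : X ⊆ X') {u : Fin d → Fin n → ι → V n → ℝ}
    (ha : ∀ q i a, MemLp (u q i a) 2 (volume.restrict X')) (c : Fin d → ℝ) (i : Fin n) (a : ι) :
    (∫ x in X, (∑ q, c q * u q i a x) ^ 2) ≤
      ∫ x in X', ∑ a, ∑ i, (∑ q, c q * u q i a x) ^ 2 := by
  refine (mono_sq h (sq_int (fun q => ha q i a) c) fun x => sq_nonneg _).trans ?_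
  refine setIntegral_mono (sq_int (fun q => ha q i a) c)
    (integrable_finsetSum _ fun a _ => integrable_finsetSum _ fun i _ =>
      sq_int (fun q => ha q i a) c) fun x => ?_
  have h1 : (∑ q, c q * u q i a x) ^ 2 ≤ ∑ i, (∑ q, c q * u q i a x) ^ 2 :=
    Finset.single_le_sum (f := fun i => (∑ q, c q * u q i a x) ^ 2)
      (fun i _ => sq_nonneg _) (Finset.mem_univ i)
  exact h1.trans (Finset.single_le_sum (f := fun a => ∑ i, (∑ q, c q * u q i a x) ^ 2)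
    (fun a _ => Finset.sum_nonneg fun i _ => sq_nonneg _) (Finset.mem_univ a))

theorem cfN_mem (hG : GeoN S₁ S₂ M p H₁ H₂ D Gm O P Fa Fb χ η r C)
    (hA : AprN S₁ S₂ O P k R δ e g) (X : Set (V n)) (q : Fin d) (i : Fin n) (a : ι) :
    MemLp (pd i (cfN η e q a)) 2 (volume.restrict X) := by
  have h1 : ContDiff ℝ ∞ (pd i (cfN η e q a)) :=
    ((cfN_s hG hA q a).fderiv_right (by simp)).clm_apply contDiff_const
  have h2 : HasCompactSupport (pd i (cfN η e q a)) :=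
    (cfN_c hG q a).fderiv_apply ℝ (Pi.single i 1)
  exact (h1.continuous.memLp_of_hasCompactSupport h2).restrict X

theorem X1_DN (hG : GeoN S₁ S₂ M p H₁ H₂ D Gm O P Fa Fb χ η r C) : X1 χ Gm ⊆ D \ Gm :=
  fun _ hx => ⟨hG.OD (hG.χO hx.1), hx.2⟩

theorem X2_ballN (hG : GeoN S₁ S₂ M p H₁ H₂ D Gm O P Fa Fb χ η r C) :
    ∀ x ∈ X2 χ Gm, Metric.ball x r ⊆ Fb := fun x hx => hG.q₄ x hx.1 (by
  obtain ⟨j, hj⟩ := mem_iUnion.1 hx.2
  exact ⟨j, hj⟩)

theorem bEN (hG : GeoN S₁ S₂ M p H₁ H₂ D Gm O P Fa Fb χ η r C)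
    (hA : AprN S₁ S₂ O P k R δ e g) (hT : TraN H₁ H₂ D Gm P Fb η A B e g w dv) (i : Fin n)
    (a b : ι) {y : V n} (hy : y ∈ P) :
    (∫ x in X1 χ Gm, (∑ q, g q b y * (dv q i a x - pd i (cfN η e q a) x)) ^ 2) ≤ A ^ 2 :=
  (mono_oneN (X1_DN hG) (u := fun q i a x => dv q i a x - pd i (cfN η e q a) x)
    (fun q i a => (hT.dl q i a).sub (cfN_mem hG hA _ q i a)) (fun q => g q b y) i a).trans
    (hT.b1 y hy b)

theorem bWN (hG : GeoN S₁ S₂ M p H₁ H₂ D Gm O P Fa Fb χ η r C)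
    (hT : TraN H₁ H₂ D Gm P Fb η A B e g w dv) (a b : ι) {y : V n} (hy : y ∈ Fb) :
    (∫ x in X2 χ Gm, (∑ q, g q b y * w q a x) ^ 2) ≤ A ^ 2 ∧
      ∀ i, (∫ x in X2 χ Gm, (∑ q, g q b y * pd i (w q a) x) ^ 2) ≤ A ^ 2 := by
  have hX : X2 χ Gm ⊆ D := fun x hx => (X1_DN hG (X2_sub hx)).1
  have i1 : ∀ a, IntegrableOn (fun x => (∑ q, g q b y * w q a x) ^ 2) D := fun a =>
    sq_int (X := D) (fun q => hT.wl q a) (fun q => g q b y)
  have i2 : ∀ a i, IntegrableOn (fun x => (∑ q, g q b y * pd i (w q a) x) ^ 2) D := fun a i =>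
    sq_int (fun q => hT.wl1 q i a) (fun q => g q b y)
  have i3 : IntegrableOn (fun x => ∑ a, ((∑ q, g q b y * w q a x) ^ 2 +
      ∑ i, (∑ q, g q b y * pd i (w q a) x) ^ 2)) D :=
    integrable_finsetSum _ fun a _ => (i1 a).add (integrable_finsetSum _ fun i _ => i2 a i)
  have hle : ∀ x, (∑ q, g q b y * w q a x) ^ 2 + ∑ i, (∑ q, g q b y * pd i (w q a) x) ^ 2 ≤
      ∑ a, ((∑ q, g q b y * w q a x) ^ 2 + ∑ i, (∑ q, g q b y * pd i (w q a) x) ^ 2) := fun x =>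
    Finset.single_le_sum (f := fun a => (∑ q, g q b y * w q a x) ^ 2 +
      ∑ i, (∑ q, g q b y * pd i (w q a) x) ^ 2) (fun a _ => by positivity) (Finset.mem_univ a)
  refine ⟨?_, fun i => ?_⟩
  · refine (mono_sq hX (i1 a) fun x => sq_nonneg _).trans (le_trans ?_ (hT.b2 y hy b))
    refine setIntegral_mono (i1 a) i3 fun x => ?_
    have h1 : 0 ≤ ∑ i, (∑ q, g q b y * pd i (w q a) x) ^ 2 :=
      Finset.sum_nonneg fun i _ => sq_nonneg _
    have h2 := hle x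
    show (∑ q, g q b y * w q a x) ^ 2 ≤ _
    linarith
  · refine (mono_sq hX (i2 a i) fun x => sq_nonneg _).trans (le_trans ?_ (hT.b2 y hy b))
    refine setIntegral_mono (i2 a i) i3 fun x => ?_
    have h1 : (∑ q, g q b y * pd i (w q a) x) ^ 2 ≤ ∑ i, (∑ q, g q b y * pd i (w q a) x) ^ 2 :=
      Finset.single_le_sum (f := fun i => (∑ q, g q b y * pd i (w q a) x) ^ 2)
        (fun i _ => sq_nonneg _) (Finset.mem_univ i)
    have h2 := sq_nonneg (∑ q, g q b y * w q a x)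
    have h3 := hle x
    show (∑ q, g q b y * pd i (w q a) x) ^ 2 ≤ _
    linarith

theorem bVN (hG : GeoN S₁ S₂ M p H₁ H₂ D Gm O P Fa Fb χ η r C)
    (hA : AprN S₁ S₂ O P k R δ e g) (hT : TraN H₁ H₂ D Gm P Fb η A B e g w dv) (hA0 : 0 ≤ A)
    (hB0 : 0 ≤ B) (i : Fin n) (a b : ι) {y : V n} (hy : y ∈ Fb) :
    (∫ x in X2 χ Gm, (∑ q, g q b y * dv q i a x) ^ 2) ≤ (2 * (A + (n + 1) * B)) ^ 2 := by
  have hX : X2 χ Gm ⊆ D \ Gm := X2_sub.trans (X1_DN hG)
  have m1 : ∀ q i a, MemLp (fun x => dv q i a x - pd i (cfN η e q a) x) 2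
      (volume.restrict (D \ Gm)) := fun q i a => (hT.dl q i a).sub (cfN_mem hG hA _ q i a)
  have m2 : ∀ q i a, MemLp (pd i (cfN η e q a)) 2 (volume.restrict (D \ Gm)) :=
    fun q i a => cfN_mem hG hA _ q i a
  have j1 := (sq_int (fun q => m1 q i a) (fun q => g q b y)).mono_set hX
  have j2 := (sq_int (fun q => m2 q i a) (fun q => g q b y)).mono_set hX
  have j3 := (sq_int (fun q => hT.dl q i a) (fun q => g q b y)).mono_set hX
  have b1 : (∫ x in X2 χ Gm, (∑ q, g q b y * (dv q i a x - pd i (cfN η e q a) x)) ^ 2) ≤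
      A ^ 2 :=
    (mono_oneN hX (u := fun q i a x => dv q i a x - pd i (cfN η e q a) x) m1
      (fun q => g q b y) i a).trans (hT.b1 y (hG.fbP hy) b)
  have b2 : (∫ x in X2 χ Gm, (∑ q, g q b y * pd i (cfN η e q a) x) ^ 2) ≤ (n + 1) * B ^ 2 := by
    refine (mono_oneN hX (u := fun q i a => pd i (cfN η e q a)) m2 (fun q => g q b y) i a).trans
      (le_trans ?_ (hT.b3 y hy b))
    have k1 : ∀ a, IntegrableOn (fun x => ∑ i, (∑ q, g q b y * pd i (cfN η e q a) x) ^ 2)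
        (D \ Gm) := fun a =>
      integrable_finsetSum _ fun i _ => sq_int (fun q => m2 q i a) (fun q => g q b y)
    have k2 : ∀ a, IntegrableOn (fun x => (∑ q, g q b y * cfN η e q a x) ^ 2) (D \ Gm) :=
      fun a => sq_int (fun q => ((cfN_s hG hA q a).continuous.memLp_of_hasCompactSupport
        (cfN_c hG q a)).restrict _) (fun q => g q b y)
    refine setIntegral_mono (integrable_finsetSum _ fun a _ => k1 a)
      (integrable_finsetSum _ fun a _ => (k2 a).add (k1 a)) fun x => ?_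
    refine Finset.sum_le_sum fun a _ => ?_
    have := sq_nonneg (∑ q, g q b y * cfN η e q a x)
    show _ ≤ (∑ q, g q b y * cfN η e q a x) ^ 2 +
      ∑ i, (∑ q, g q b y * pd i (cfN η e q a) x) ^ 2
    linarith
  have hpt : ∀ x, (∑ q, g q b y * dv q i a x) ^ 2 ≤
      2 * ((∑ q, g q b y * (dv q i a x - pd i (cfN η e q a) x)) ^ 2 +
        (∑ q, g q b y * pd i (cfN η e q a) x) ^ 2) := by
    intro x
    have e1 : ∑ q, g q b y * dv q i a x =
        ∑ q, g q b y * (dv q i a x - pd i (cfN η e q a) x) +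
        ∑ q, g q b y * pd i (cfN η e q a) x := by
      rw [← Finset.sum_add_distrib]
      exact Finset.sum_congr rfl fun q _ => by ring
    rw [e1]
    nlinarith [sq_nonneg (∑ q, g q b y * (dv q i a x - pd i (cfN η e q a) x) -
      ∑ q, g q b y * pd i (cfN η e q a) x)]
  have j12 : IntegrableOn (fun x => (∑ q, g q b y * (dv q i a x - pd i (cfN η e q a) x)) ^ 2 +
      (∑ q, g q b y * pd i (cfN η e q a) x) ^ 2) (X2 χ Gm) := j1.add j2
  calc _ ≤ ∫ x in X2 χ Gm, 2 * ((∑ q, g q b y * (dv q i a x - pd i (cfN η e q a) x)) ^ 2 +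
        (∑ q, g q b y * pd i (cfN η e q a) x) ^ 2) :=
        setIntegral_mono j3 (j12.const_mul 2) hpt
    _ = 2 * ((∫ x in X2 χ Gm, (∑ q, g q b y * (dv q i a x - pd i (cfN η e q a) x)) ^ 2) +
        ∫ x in X2 χ Gm, (∑ q, g q b y * pd i (cfN η e q a) x) ^ 2) := by
        rw [integral_const_mul, integral_add j1 j2]
    _ ≤ 2 * (A ^ 2 + (n + 1) * B ^ 2) := by linarith
    _ ≤ (2 * (A + (n + 1) * B)) ^ 2 := by
        have hn : (0 : ℝ) ≤ n := by positivity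
        have h1 : 0 ≤ A * ((n + 1) * B) := by positivity
        have h2 : 0 ≤ (n + 1) * B ^ 2 := by positivity
        have h3 : (n + 1) * B ^ 2 ≤ ((n + 1) * B) ^ 2 := by
          have : (1 : ℝ) ≤ n + 1 := by linarith
          calc (n + 1) * B ^ 2 = 1 * ((n + 1) * B ^ 2) := by ring
            _ ≤ (n + 1) * ((n + 1) * B ^ 2) := mul_le_mul_of_nonneg_right this h2
            _ = ((n + 1) * B) ^ 2 := by ring
        nlinarith [sq_nonneg A]

/-- The part with the remainder. -/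
theorem termRN (hG : GeoN S₁ S₂ M p H₁ H₂ D Gm O P Fa Fb χ η r C)
    (hA : AprN S₁ S₂ O P k R δ e g) {K : ℝ} (hK : 0 ≤ K) (hcoef : ∀ x (m : Ib n ι),
      |χ x * (H₂ m x - H₁ m x)| ≤ K ∧ |jc m.2.1 χ x * (H₁ m x - H₂ m x)| ≤ K ∧
      |pd m.1 χ x * H₂ m x| ≤ K ∧ |jc m.2.1 χ x * H₂ m x| ≤ K) :
    |∫ x in X1 χ Gm, ∑ m : Ib n ι, (χ x * (H₂ m x - H₁ m x)) *
      dx m.1 (jy m.2.1 (R m.2.2.2 m.2.2.1)) (x, x)| ≤
      Fintype.card (Ib n ι) * (K * (C * (C * vs n ι r))) * volume.real (X1 χ Gm) * δ := by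
  have h := norm_setIntegral_le_of_norm_le_const (μ := (volume : Measure (V n)))
    (X1_fin (Gm := Gm) hG.χc) (f := fun x => ∑ m : Ib n ι, (χ x * (H₂ m x - H₁ m x)) *
      dx m.1 (jy m.2.1 (R m.2.2.2 m.2.2.1)) (x, x))
    (C := Fintype.card (Ib n ι) * (K * (C * (C * δ * vs n ι r)))) (fun x hx => ?_)
  · rw [Real.norm_eq_abs] at h
    refine h.trans (le_of_eq ?_)
    ring
  · rw [Real.norm_eq_abs]
    calc _ ≤ ∑ _m : Ib n ι, K * (C * (C * δ * vs n ι r)) := by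
          refine (Finset.abs_sum_le_sum_abs _ _).trans (Finset.sum_le_sum fun m _ => ?_)
          rw [abs_mul]
          have a := rxy_bdN hG.oO hG.cP hG.PO hG.ie₁ hG.ie₂ hG.C0 hA.Rs hA.R1 hA.R2 hG.r0
            (hG.q₁ x hx) hA.δ0.le hA.Rb (some m.1) m.2.1 m.2.2.2 m.2.2.1
          simp only [jx_some] at a
          exact mul_le_mul (hcoef x m).1 a (abs_nonneg _) hK
      _ = _ := by simp only [Finset.sum_const, Finset.card_univ, nsmul_eq_mul]

end Vale.Agent.P088.HY.TN
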