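import Vale.Agent.P088.R2.H354.N.Geo

/-!
# The transferred families for systems
-/

open MeasureTheory Set
open scoped ContDiff Matrix Topology

noncomputable section

set_option linter.unusedSectionVars false

namespace Vale.Agent.P088.HY.TN

open Vale.Agent.P088.LR G T3

variable {n : ℕ} {ι : Type} [Fintype ι] {S₁ S₂ : Sys n ι} {M : (ι → V n → ℝ) → ι → V n → ℝ}
  {p : ι → ι → V n → ℝ} {H₁ H₂ : Ib n ι → V n → ℝ} {D Gm O P Fa Fb : Set (V n)}
  {χ η : V n → ℝ} {r C : ℝ}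

theorem int_bdX {F : V n → ℝ} {X Q : Set (V n)} (hX : MeasurableSet X) (hQ : IsCompact Q)
    (h0 : ∀ x ∈ X, x ∉ Q → F x = 0) {B : ℝ} (hB0 : 0 ≤ B) (hB : ∀ x ∈ X, x ∈ Q → |F x| ≤ B) :
    ∫ x in X, F x ≤ B * volume.real Q := by
  have h1 : ∫ x in X, F x = ∫ x in X, X.indicator F x :=
    setIntegral_congr_fun hX fun x hx => (indicator_of_mem hx F).symm
  rw [h1]
  refine (le_abs_self _).trans (int_bdS hQ (fun x hx => ?_) hB0 (fun x hx => ?_) X)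
  · by_cases h : x ∈ X
    · rw [indicator_of_mem h, h0 x h hx]
    · rw [indicator_of_notMem h]
  · by_cases h : x ∈ X
    · rw [indicator_of_mem h]; exact hB x h hx
    · rw [indicator_of_notMem h, abs_zero]; exact hB0

/-- The data of the approximation. -/
structure AprN (S₁ S₂ : Sys n ι) (O P : Set (V n)) (k R : ι → ι → VV n → ℝ) (δ : ℝ) {d : ℕ}
    (e g : Fin d → ι → V n → ℝ) : Prop where
  ks : ∀ a b, ContDiffOn ℝ ∞ (k a b) (O ×ˢ O)
  k1 : ∀ a b, ∀ z ∈ O ×ˢ O, opx S₁ k a b z = 0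
  Rs : ∀ a b, ContDiffOn ℝ ∞ (R a b) (O ×ˢ O)
  R1 : ∀ a b, ∀ z ∈ O ×ˢ O, opx S₁ R a b z = 0
  R2 : ∀ a b, ∀ z ∈ O ×ˢ O, opy S₂ R a b z = 0
  es : ∀ q a, ContDiffOn ℝ ∞ (e q a) O
  gs : ∀ q a, ContDiffOn ℝ ∞ (g q a) O
  el : ∀ q a, ∀ x ∈ O, op S₁ (e q) a x = 0
  gl : ∀ q a, ∀ x ∈ O, op S₂ (g q) a x = 0
  Re : ∀ a b z, R a b z = k a b z - ∑ q, g q b z.2 * e q a z.1
  Rb : ∀ y ∈ P, ∀ b, ∑ a, ∫ x in P, R a b (x, y) ^ 2 ≤ δ ^ 2
  δ0 : 0 < δ

section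

variable {k R : ι → ι → VV n → ℝ} {δ : ℝ} {d : ℕ} {e g : Fin d → ι → V n → ℝ}

theorem AprN.us (hA : AprN S₁ S₂ O P k R δ e g) (c : Fin d → ℝ) (a : ι) :
    ContDiffOn ℝ ∞ (fun x => ∑ q, c q * e q a x) O :=
  ContDiffOn.sum fun q _ => contDiffOn_const.mul (hA.es q a)

theorem AprN.uj (hO : IsOpen O) (hA : AprN S₁ S₂ O P k R δ e g) {x y : V n} (hy : y ∈ O)
    (hx : x ∈ O) (o : Option (Fin n)) (a b : ι) : jd o (fun x => ∑ q, g q b y * e q a x) x =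
      jx o (k a b) (x, y) - jx o (R a b) (x, y) := by
  have : (fun x => ∑ q, g q b y * e q a x) = fun x => k a b (x, y) - R a b (x, y) := by
    funext x
    rw [hA.Re a b (x, y)]; ring
  rw [this, jd_sub hO (slx (hA.ks a b) hy) (slx (hA.Rs a b) hy) hx o,
    jd_slx hO (hA.ks a b) hx hy, jd_slx hO (hA.Rs a b) hx hy]

theorem AprN.beta (hG : GeoN S₁ S₂ M p H₁ H₂ D Gm O P Fa Fb χ η r C)
    (hA : AprN S₁ S₂ O P k R δ e g)
    {S : ℝ} (hS : 0 ≤ S) {x y : V n} (hy : y ∈ P) (hx : Metric.ball x r ⊆ P) (b : ι)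
    (hxS : ∀ a, ∀ x' ∈ Metric.ball x r, |k a b (x', y)| ≤ S) (o : Option (Fin n)) (a : ι) :
    |jd o (fun x => ∑ q, g q b y * e q a x) x| ≤ (C * vs n ι r + C) * (S + δ) := by
  have hxO : x ∈ O := hG.PO (hx (Metric.mem_ball_self hG.r0))
  have hOI₁ := hG.ie₁
  have hC := hG.C0
  have hδ := hA.δ0
  rw [hA.uj hG.oO (hG.PO hy) hxO o]
  have b1 := kx_bdN hG.oO hOI₁ hC hA.ks hA.k1 hG.r0 (hx.trans hG.PO) (hG.PO hy) hS b hxS o a
  have b2 := rx_bdN hG.oO hG.cP hG.PO hOI₁ hC hA.Rs hA.R1 hG.r0 hx hy hA.δ0.le b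
    (hA.Rb y hy b) o a
  refine (abs_sub _ _).trans ((add_le_add b1 b2).trans ?_)
  have hb : 0 ≤ vs n ι r := vs_nonneg r
  have e1 : 0 ≤ C * vs n ι r * δ := by positivity
  have e2 : 0 ≤ C * S := by positivity
  linarith

/-- The cut-off family. -/
def cfN (η : V n → ℝ) (e : Fin d → ι → V n → ℝ) (q : Fin d) (a : ι) (x : V n) : ℝ :=
  η x * e q a x

theorem cfN_s (hG : GeoN S₁ S₂ M p H₁ H₂ D Gm O P Fa Fb χ η r C)
    (hA : AprN S₁ S₂ O P k R δ e g) (q : Fin d) (a : ι) : ContDiff ℝ ∞ (cfN η e q a) :=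
  cut_mul1 hG.oO hG.ηs (hG.ηP.trans hG.PO) (hA.es q a)

theorem cfN_ts (q : Fin d) (a : ι) : tsupport (cfN η e q a) ⊆ tsupport η :=
  closure_mono fun _ hy => left_ne_zero_of_mul hy

theorem cfN_c (hG : GeoN S₁ S₂ M p H₁ H₂ D Gm O P Fa Fb χ η r C) (q : Fin d) (a : ι) :
    HasCompactSupport (cfN η e q a) := hG.ηc.mul_right

theorem jd_off_ts {c : V n → ℝ} {x : V n} (hx : x ∉ tsupport c) (o : Option (Fin n)) :
    jd o c x = 0 := by
  cases o with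
  | none => exact image_eq_zero_of_notMem_tsupport hx
  | some i => exact pd_off_ts hx i

theorem jd2_off_ts {c : V n → ℝ} {x : V n} (hx : x ∉ tsupport c) (o o' : Option (Fin n)) :
    jd o (jd o' c) x = 0 := by
  have h := jd_cg (isClosed_tsupport c).isOpen_compl (f := jd o' c) (g := fun _ => 0)
    (fun y hy => jd_off_ts hy o') hx o
  rw [h]
  cases o with
  | none => rfl
  | some i => show fderiv ℝ (fun _ : V n => (0 : ℝ)) x _ = 0; simp

theorem cfN_L (hG : GeoN S₁ S₂ M p H₁ H₂ D Gm O P Fa Fb χ η r C)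
    (hA : AprN S₁ S₂ O P k R δ e g) (q : Fin d) (b : ι) (x : V n) :
    op S₁ (cfN η e q) b x = cm S₁ η (e q) b x := by
  by_cases hx : x ∈ O
  · have h := op_mul hG.oO (S := S₁) hG.ηs (hA.es q) hx b
    rw [hA.el q b x hx, mul_zero, zero_add] at h
    exact h
  · have hx' : x ∉ tsupport η := fun h => hx (hG.PO (hG.ηP h))
    rw [cm_zero S₁ (e q) b (fun i => pd_off_ts hx' i) (fun i j => pd2_off_ts hx' i j)]
    unfold op
    refine Finset.sum_eq_zero fun w _ => ?_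
    rw [jd2_off_ts (fun h => hx' (cfN_ts q w.2 h)), mul_zero]

theorem cm_sum (hG : GeoN S₁ S₂ M p H₁ H₂ D Gm O P Fa Fb χ η r C)
    (hA : AprN S₁ S₂ O P k R δ e g) (c : Fin d → ℝ) (b : ι) (x : V n) :
    ∑ q, c q * cm S₁ η (e q) b x = cm S₁ η (fun a x => ∑ q, c q * e q a x) b x := by
  by_cases hx : x ∈ O
  · have h1 := op_mul hG.oO (S := S₁) hG.ηs (hA.us c) hx b
    have h2 := op_sumO hG.oO (F := e) c hA.es S₁ hx b
    have h3 := op_sumO hG.oO (F := fun q a x => η x * e q a x) c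
      (fun q a => hG.ηs.contDiffOn.mul (hA.es q a)) S₁ hx b
    have h4 : (fun a x => η x * ∑ q, c q * e q a x) =
        fun a x => ∑ q, c q * (η x * e q a x) := by
      funext a x
      rw [Finset.mul_sum]
      exact Finset.sum_congr rfl fun q _ => by ring
    rw [h4, h3, h2, Finset.sum_eq_zero (s := Finset.univ) (f := fun q => c q * op S₁ (e q) b x)
      fun q _ => by rw [hA.el q b x hx, mul_zero], mul_zero, zero_add] at h1
    rw [← h1]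
    refine Finset.sum_congr rfl fun q _ => ?_
    rw [← cfN_L hG hA q b x]
    rfl
  · have hx' : x ∉ tsupport η := fun h => hx (hG.PO (hG.ηP h))
    have h0 := fun (u : ι → V n → ℝ) => cm_zero S₁ u b (fun i => pd_off_ts hx' i)
      (fun i j => pd2_off_ts hx' i j)
    rw [h0]
    exact Finset.sum_eq_zero fun q _ => by rw [h0, mul_zero]

theorem M_sum (hG : GeoN S₁ S₂ M p H₁ H₂ D Gm O P Fa Fb χ η r C)
    (hA : AprN S₁ S₂ O P k R δ e g) (c : Fin d → ℝ) (a : ι) {x : V n} (hx : x ∈ D \ Gm) :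
    ∑ q, c q * M (cfN η e q) a x =
      ∑ b, p a b x * cm S₁ η (fun a x => ∑ q, c q * e q a x) b x := by
  have h1 : ∀ q, M (cfN η e q) a x = ∑ b, p a b x * cm S₁ η (e q) b x := fun q => by
    rw [hG.mo (cfN η e q) (cfN_s hG hA q) x hx a]
    exact Finset.sum_congr rfl fun b _ => by rw [cfN_L hG hA q b x]
  simp only [h1, Finset.mul_sum]
  rw [Finset.sum_comm]
  refine Finset.sum_congr rfl fun b _ => ?_
  rw [← cm_sum hG hA c b x, Finset.mul_sum]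
  exact Finset.sum_congr rfl fun q _ => by ring

/-- The constant. -/
def c3N (n : ℕ) (ι : Type) [Fintype ι] (Cc C r : ℝ) (P : Set (V n)) : ℝ :=
  √(Fintype.card ι) * Cc * (C * vs n ι r + C) * √(volume.real P)

theorem c3N_sq (Cc C r : ℝ) (P : Set (V n)) (T : ℝ) :
    Fintype.card ι * (Cc * ((C * vs n ι r + C) * T)) ^ 2 * volume.real P =
      (c3N n ι Cc C r P * T) ^ 2 := by
  have h1 : √(volume.real P) ^ 2 = volume.real P := Real.sq_sqrt measureReal_nonneg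
  have h2 : √(Fintype.card ι : ℝ) ^ 2 = Fintype.card ι := Real.sq_sqrt (Nat.cast_nonneg _)
  calc _ = √(Fintype.card ι : ℝ) ^ 2 * (Cc * ((C * vs n ι r + C) * T)) ^ 2 *
        √(volume.real P) ^ 2 := by rw [h1, h2]
    _ = _ := by unfold c3N; ring

theorem H2_bdN (hG : GeoN S₁ S₂ M p H₁ H₂ D Gm O P Fa Fb χ η r C)
    (hA : AprN S₁ S₂ O P k R δ e g) {Cc : ℝ}
    (hc : ∀ (u : ι → V n → ℝ) (x : V n) (B : ℝ), (∀ a, DifferentiableAt ℝ (u a) x) → 0 ≤ B →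
      (∀ (o : Option (Fin n)) a, |jd o (u a) x| ≤ B) →
      (∀ a, |∑ b, p a b x * cm S₁ η u b x| ≤ Cc * B) ∧
      (∀ a, |η x * u a x| ≤ Cc * B) ∧ ∀ a i, |pd i (fun x => η x * u a x) x| ≤ Cc * B)
    {S : ℝ} (hS : 0 ≤ S)
    (hfar : ∀ x ∈ P, ∀ y ∈ Fb, ∀ a b, |k a b (x, y)| ≤ S ∧ |k a b (y, x)| ≤ S)
    {y : V n} (hy : y ∈ P) (b : ι) :
    (∫ x in D \ Gm, ∑ a, (∑ q, g q b y * M (cfN η e q) a x) ^ 2) ≤
      (c3N n ι Cc C r P * (S + δ)) ^ 2 := by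
  have hC := hG.C0
  have hδ := hA.δ0
  have hb : 0 ≤ vs n ι r := vs_nonneg r
  have hX : MeasurableSet (D \ Gm) := hG.oD.measurableSet.diff hG.oG.measurableSet
  rw [← c3N_sq]
  refine int_bdX hX hG.cP (fun x hx hxP => ?_) (by positivity) fun x hx hxP => ?_
  · have hx' : x ∉ tsupport η := fun h => hxP (hG.ηP h)
    refine Finset.sum_eq_zero fun a _ => ?_
    rw [M_sum hG hA (fun q => g q b y) a hx, Finset.sum_eq_zero fun b' _ => by
      rw [cm_zero S₁ _ b' (fun i => pd_off_ts hx' i) (fun i j => pd2_off_ts hx' i j), mul_zero]]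
    ring
  · rw [abs_of_nonneg (Finset.sum_nonneg fun a _ => sq_nonneg _)]
    have h1 : ∀ a, (∑ q, g q b y * M (cfN η e q) a x) ^ 2 ≤
        (Cc * ((C * vs n ι r + C) * (S + δ))) ^ 2 := by
      intro a
      rw [M_sum hG hA (fun q => g q b y) a hx]
      by_cases hf : x ∈ Fa
      · have h := (hc (fun a x => ∑ q, g q b y * e q a x) x ((C * vs n ι r + C) * (S + δ))
          (fun a => dAt1 hG.oO (hA.us _ a) (hG.PO hxP)) (by positivity)
          (fun o a => hA.beta hG hS hy ((hG.fab x hf).trans hG.fbP) b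
            (fun a' x' hx' => (hfar y hy x' (hG.fab x hf hx') a' b).2) o a)).1 a
        exact sq_le_sq' (by linarith [(abs_le.1 h).1]) (abs_le.1 h).2
      · obtain ⟨g1, g2⟩ := hG.fa x hx hf
        rw [Finset.sum_eq_zero fun b' _ => by rw [cm_zero S₁ _ b' g1 g2, mul_zero]]
        have := sq_nonneg (Cc * ((C * vs n ι r + C) * (S + δ)))
        simpa using this
    refine (Finset.sum_le_sum fun a _ => h1 a).trans (le_of_eq ?_)
    rw [Finset.sum_const, Finset.card_univ, nsmul_eq_mul]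

theorem cfN_sum (c : Fin d → ℝ) (a : ι) (x : V n) :
    ∑ q, c q * cfN η e q a x = η x * ∑ q, c q * e q a x := by
  rw [Finset.mul_sum]
  exact Finset.sum_congr rfl fun q _ => by unfold cfN; ring

/-- The energy of the cut-off combination. -/
theorem E_bdN (hG : GeoN S₁ S₂ M p H₁ H₂ D Gm O P Fa Fb χ η r C)
    (hA : AprN S₁ S₂ O P k R δ e g) {Cc : ℝ}
    (hc : ∀ (u : ι → V n → ℝ) (x : V n) (B : ℝ), (∀ a, DifferentiableAt ℝ (u a) x) → 0 ≤ B →
      (∀ (o : Option (Fin n)) a, |jd o (u a) x| ≤ B) →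
      (∀ a, |∑ b, p a b x * cm S₁ η u b x| ≤ Cc * B) ∧
      (∀ a, |η x * u a x| ≤ Cc * B) ∧ ∀ a i, |pd i (fun x => η x * u a x) x| ≤ Cc * B)
    {S : ℝ} (hS : 0 ≤ S)
    (hfar : ∀ x ∈ P, ∀ y ∈ Fb, ∀ a b, |k a b (x, y)| ≤ S ∧ |k a b (y, x)| ≤ S)
    {y : V n} (hy : y ∈ Fb) (b : ι) :
    (∫ x in D \ Gm, ∑ a, ((∑ q, g q b y * cfN η e q a x) ^ 2 +
      ∑ i, (∑ q, g q b y * pd i (cfN η e q a) x) ^ 2)) ≤
        (n + 1) * (c3N n ι Cc C r P * (S + δ)) ^ 2 := by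
  have hC := hG.C0
  have hδ := hA.δ0
  have hb : 0 ≤ vs n ι r := vs_nonneg r
  have hX : MeasurableSet (D \ Gm) := hG.oD.measurableSet.diff hG.oG.measurableSet
  have e0 : (n + 1) * (c3N n ι Cc C r P * (S + δ)) ^ 2 =
      ((n + 1) * (Fintype.card ι * (Cc * ((C * vs n ι r + C) * (S + δ))) ^ 2)) *
        volume.real P := by rw [← c3N_sq]; ring
  have e1 : ∀ a i x, ∑ q, g q b y * pd i (cfN η e q a) x =
      pd i (fun x => η x * ∑ q, g q b y * e q a x) x := by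
    intro a i x
    have a2 : (fun x => ∑ q, g q b y * cfN η e q a x) =
        fun x => η x * ∑ q, g q b y * e q a x := funext (cfN_sum (fun q => g q b y) a)
    rw [← a2, pd_sum (fun q => g q b y)
      (fun q => (cfN_s hG hA q a).differentiable (by simp) x) i]
  simp only [cfN_sum, e1]
  rw [e0]
  refine int_bdX hX hG.cP (fun x hx hxP => ?_) (by positivity) fun x hx hxP => ?_
  · have hx' : x ∉ tsupport η := fun h => hxP (hG.ηP h)
    refine Finset.sum_eq_zero fun a _ => ?_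
    have hx2 : x ∉ tsupport (fun x => η x * ∑ q, g q b y * e q a x) := fun h =>
      hx' (closure_mono (fun y hy => left_ne_zero_of_mul hy) h)
    have z : ∑ i, pd i (fun x => η x * ∑ q, g q b y * e q a x) x ^ 2 = 0 :=
      Finset.sum_eq_zero fun i _ => by rw [pd_off_ts hx2 i]; ring
    rw [image_eq_zero_of_notMem_tsupport hx', z]
    ring
  · rw [abs_of_nonneg (Finset.sum_nonneg fun a _ => by positivity)]
    have h1 : ∀ a, (η x * ∑ q, g q b y * e q a x) ^ 2 +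
        ∑ i, pd i (fun x => η x * ∑ q, g q b y * e q a x) x ^ 2 ≤
        (n + 1) * (Cc * ((C * vs n ι r + C) * (S + δ))) ^ 2 := by
      intro a
      by_cases hf : x ∈ tsupport η
      · have h := (hc (fun a x => ∑ q, g q b y * e q a x) x ((C * vs n ι r + C) * (S + δ))
          (fun a => dAt1 hG.oO (hA.us _ a) (hG.PO hxP)) (by positivity)
          (fun o a => hA.beta hG hS (hG.fbP hy) (hG.q₅ x hf) b
            (fun a' x' hx' => (hfar x' (hG.q₅ x hf hx') y hy a' b).1) o a)).2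
        have h2 := h.1 a
        have h3 : (η x * ∑ q, g q b y * e q a x) ^ 2 ≤
            (Cc * ((C * vs n ι r + C) * (S + δ))) ^ 2 :=
          sq_le_sq' (by linarith [(abs_le.1 h2).1]) (abs_le.1 h2).2
        have h4 : ∑ i, pd i (fun x => η x * ∑ q, g q b y * e q a x) x ^ 2 ≤
            n * (Cc * ((C * vs n ι r + C) * (S + δ))) ^ 2 := by
          refine (Finset.sum_le_sum fun i _ => sq_le_sq' (by
            linarith [(abs_le.1 (h.2 a i)).1]) (abs_le.1 (h.2 a i)).2).trans (le_of_eq ?_)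
          rw [Finset.sum_const, Finset.card_univ, Fintype.card_fin, nsmul_eq_mul]
        linarith
      · have hx2 : x ∉ tsupport (fun x => η x * ∑ q, g q b y * e q a x) := fun h =>
          hf (closure_mono (fun y hy => left_ne_zero_of_mul hy) h)
        have z : ∑ i, pd i (fun x => η x * ∑ q, g q b y * e q a x) x ^ 2 = 0 :=
          Finset.sum_eq_zero fun i _ => by rw [pd_off_ts hx2 i]; ring
        rw [image_eq_zero_of_notMem_tsupport hf, z]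
        have : 0 ≤ (n + 1) * (Cc * ((C * vs n ι r + C) * (S + δ))) ^ 2 := by positivity
        simpa using this
    refine (Finset.sum_le_sum fun a _ => h1 a).trans (le_of_eq ?_)
    rw [Finset.sum_const, Finset.card_univ, nsmul_eq_mul]
    ring

end

/-- The transferred families. -/
structure TraN (H₁ H₂ : Ib n ι → V n → ℝ) (D Gm P Fb : Set (V n)) (η : V n → ℝ) (A B : ℝ)
    {d : ℕ} (e g w : Fin d → ι → V n → ℝ) (dv : Fin d → Fin n → ι → V n → ℝ) : Prop where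
  ws : ∀ q a, ContDiffOn ℝ 1 (w q a) D
  wG : ∀ q a, ∀ x ∈ Gm ∩ D, w q a x = 0
  wl : ∀ q a, MemLp (w q a) 2 (volume.restrict D)
  wl1 : ∀ q i a, MemLp (pd i (w q a)) 2 (volume.restrict D)
  dl : ∀ q i a, MemLp (dv q i a) 2 (volume.restrict (D \ Gm))
  wk : ∀ q, ∀ φ : ι → V n → ℝ, (∀ a, ContDiff ℝ ∞ (φ a)) → (∀ a, HasCompactSupport (φ a)) →
    (∀ a, tsupport (φ a) ⊆ D) →
    (∫ x in D, ∑ m : Ib n ι, H₂ m x * (pd m.1 (w q m.2.2.2) x * jd m.2.1 (φ m.2.2.1) x)) =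
      ∫ x in D \ Gm, ∑ m : Ib n ι, (H₁ m x - H₂ m x) *
        (dv q m.1 m.2.2.2 x * jd m.2.1 (φ m.2.2.1) x)
  b1 : ∀ y ∈ P, ∀ b, (∫ x in D \ Gm, ∑ a, ∑ i,
    (∑ q, g q b y * (dv q i a x - pd i (cfN η e q a) x)) ^ 2) ≤ A ^ 2
  b2 : ∀ y ∈ Fb, ∀ b, (∫ x in D, ∑ a, ((∑ q, g q b y * w q a x) ^ 2 +
    ∑ i, (∑ q, g q b y * pd i (w q a) x) ^ 2)) ≤ A ^ 2
  b3 : ∀ y ∈ Fb, ∀ b, (∫ x in D \ Gm, ∑ a, ((∑ q, g q b y * cfN η e q a x) ^ 2 +
    ∑ i, (∑ q, g q b y * pd i (cfN η e q a) x) ^ 2)) ≤ (n + 1) * B ^ 2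

theorem ex_traN (hG : GeoN S₁ S₂ M p H₁ H₂ D Gm O P Fa Fb χ η r C)
    (h3 : StpR D Gm M H₁ H₂) : ∃ c2 c3 : ℝ, 0 ≤ c2 ∧ 0 ≤ c3 ∧
    ∀ {k R : ι → ι → VV n → ℝ} {δ : ℝ} {d : ℕ} {e g : Fin d → ι → V n → ℝ}
    (_ : AprN S₁ S₂ O P k R δ e g) {S : ℝ} (_ : 0 ≤ S)
    (_ : ∀ x ∈ P, ∀ y ∈ Fb, ∀ a b, |k a b (x, y)| ≤ S ∧ |k a b (y, x)| ≤ S),
    ∃ (w : Fin d → ι → V n → ℝ) (dv : Fin d → Fin n → ι → V n → ℝ),
      TraN H₁ H₂ D Gm P Fb η (c2 * (S + δ)) (c3 * (S + δ)) e g w dv := by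
  obtain ⟨C₀, hC₀, h3⟩ := h3
  obtain ⟨Cc, hCc, hc⟩ := cut_bdN (S := S₁) hG.sS hG.sp hG.ηs hG.ηc
  have hC := hG.C0
  have hb : 0 ≤ vs n ι r := vs_nonneg r
  have hc30 : 0 ≤ c3N n ι Cc C r P := by unfold c3N; positivity
  refine ⟨√(C₀ * (n + 2)) * c3N n ι Cc C r P + 1, c3N n ι Cc C r P, by positivity, hc30, ?_⟩
  intro k R δ d e g hA S hS hfar
  have hδ := hA.δ0
  have hH2 := fun y hy b => H2_bdN hG hA hc hS hfar (y := y) hy b
  have hE := fun y hy b => E_bdN hG hA hc hS hfar (y := y) hy b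
  set c3 : ℝ := c3N n ι Cc C r P with hc3
  set T := S + δ with hT
  have hT0 : 0 ≤ T := by positivity
  have hδT : δ ≤ T := by rw [hT]; linarith
  obtain ⟨Mx, hM0, hM⟩ : ∃ Mx : ℝ, 0 ≤ Mx ∧ ∀ y ∈ P, ∀ b, ∑ q, g q b y ^ 2 ≤ Mx := by
    have hcc : ContinuousOn (fun y => ∑ b, ∑ q, g q b y ^ 2) P :=
      continuousOn_finsetSum _ fun b _ => continuousOn_finsetSum _ fun q _ =>
        ((hA.gs q b).continuousOn.mono hG.PO).pow 2
    obtain ⟨Mx, hM⟩ := hG.cP.exists_bound_of_continuousOn hcc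
    refine ⟨|Mx|, abs_nonneg _, fun y hy b => ?_⟩
    have h1 : ∑ q, g q b y ^ 2 ≤ ∑ b, ∑ q, g q b y ^ 2 :=
      Finset.single_le_sum (f := fun b => ∑ q, g q b y ^ 2)
        (fun b _ => Finset.sum_nonneg fun q _ => sq_nonneg _) (Finset.mem_univ b)
    exact h1.trans ((le_abs_self _).trans ((hM y hy).trans (le_abs_self _)))
  have hε0 : 0 < δ ^ 2 / (Mx + 1) := by positivity
  have hεM : ∀ y ∈ P, ∀ b, δ ^ 2 / (Mx + 1) * (∑ q, g q b y ^ 2) ≤ δ ^ 2 := by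
    intro y hy b
    have h := hM y hy b
    have h0 : 0 ≤ ∑ q, g q b y ^ 2 := Finset.sum_nonneg fun q _ => sq_nonneg _
    rw [div_mul_eq_mul_div, div_le_iff₀ (by positivity)]
    nlinarith [sq_nonneg δ]
  obtain ⟨w, dv, hws, hwG, hwl, hwl1, hdl, hwk, hall⟩ := h3 d (cfN η e)
    (cfN_s hG hA) (cfN_c hG)
    (fun q a => (cfN_ts q a).trans (hG.ηP.trans (hG.PO.trans hG.OD))) _ hε0
  have hroot : √(C₀ * (n + 2)) ^ 2 = C₀ * (n + 2) := Real.sq_sqrt (by positivity)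
  have hc2sq : C₀ * (n + 2) * (c3 * T) ^ 2 + δ ^ 2 ≤ ((√(C₀ * (n + 2)) * c3 + 1) * T) ^ 2 := by
    have e1 : ((√(C₀ * (n + 2)) * c3 + 1) * T) ^ 2 = (√(C₀ * (n + 2)) * (c3 * T) + T) ^ 2 := by
      ring
    have e2 : C₀ * (n + 2) * (c3 * T) ^ 2 = (√(C₀ * (n + 2)) * (c3 * T)) ^ 2 := by
      rw [mul_pow (√(C₀ * (n + 2))) (c3 * T) 2, hroot]
    rw [e1, e2]
    have e3 : δ ^ 2 ≤ T ^ 2 := pow_le_pow_left₀ hδ.le hδT 2
    have e4 : 0 ≤ √(C₀ * (n + 2)) * (c3 * T) := by positivity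
    nlinarith [mul_nonneg e4 hT0]
  refine ⟨w, dv, hws, hwG, hwl, hwl1, hdl, hwk, fun y hy b => ?_, fun y hy b => ?_,
    fun y hy b => hE y hy b⟩
  · refine ((hall fun q => g q b y).1).trans (le_trans ?_ hc2sq)
    have e1 := mul_le_mul_of_nonneg_left (hH2 y hy b) hC₀
    have e2 := hεM y hy b
    have e3 : C₀ * (c3 * T) ^ 2 ≤ C₀ * (n + 2) * (c3 * T) ^ 2 := by
      have : 0 ≤ C₀ * (c3 * T) ^ 2 := by positivity
      have : (0 : ℝ) ≤ n := by positivity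
      nlinarith
    linarith
  · refine ((hall fun q => g q b y).2).trans (le_trans ?_ hc2sq)
    have e1 := mul_le_mul_of_nonneg_left (add_le_add (hE y hy b) (hH2 y (hG.fbP hy) b)) hC₀
    have e2 := hεM y (hG.fbP hy) b
    have e3 : C₀ * ((n + 1) * (c3 * T) ^ 2 + (c3 * T) ^ 2) = C₀ * (n + 2) * (c3 * T) ^ 2 := by
      ring
    linarith

end Vale.Agent.P088.HY.TN
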